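import Vale.Agent.P011.Six.H422.GenN
import Vale.Agent.P011.Six.H359.Bex

/-!
The elements of the centralizer of a cubic field, with the conditions at the real places.
-/

open Module NumberField IsDedekindDomain

set_option linter.unusedSectionVars false

namespace Vale.Agent.P011.Six.H422

open Vale.Agent.P011.Arith Vale.Agent.P011.Even Vale.Agent.P011.MPQ Vale.Agent.P011.One
open Vale.Agent.P011.Two (star_sD)

variable {k K D : Type} [Field k] [NumberField k] [Field K] [NumberField K] [StarRing K]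
  [DivisionRing D] [StarRing D] [Algebra k K] [Algebra k D] [Algebra K D] [IsScalarTower k K D]
  {d : kˣ} {s : K} {L : Type} [Field L] [NumberField L] [Algebra k L] {ι : L →ₐ[k] D}
  {al be : kˣ} {i j : D} {φ : Qt (inc k L al) (inc k L be) →+* D} {p q : k} {y : L}

/-- **The decomposition, without conditions at the real places.** -/
theorem cubic_real (hS : Setting k K D d s) (hdeg : finrank K D = 6 ^ 2)
    (fr : QFr ι (inc k L al) (inc k L be) i j)
    (hφ : ∀ q, φ q = ι q.re + ι q.imI * i + ι q.imJ * j + ι q.imK * (i * j))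
    (h : Gen y p q) {e1 e2 e3 : k}
    (he : (al : k) * e1 ^ 2 + be * e2 ^ 2 - al * be * e3 ^ 2 = d * dsc p q)
    {e : ℕ} {N : Set D} (HN : HQ1 k e N) (hmul : ∀ x ∈ N, ∀ y ∈ N, x * y ∈ N)
    {t₀ t₁ : L} (ht : t₀ ^ 2 - algebraMap k L d * t₁ ^ 2 = 1)
    (htk : ∀ c : k, algebraMap k L c ≠ t₀) {a₀ a₁ b₀ b₁ : k} {θ : D}
    (hθd : θ = ι t₀ + ι t₁ * algebraMap K D s)
    (hθ : θ ^ 3 + (algebraMap k D a₀ + algebraMap k D a₁ * algebraMap K D s) * θ ^ 2 +
      (algebraMap k D b₀ + algebraMap k D b₁ * algebraMap K D s) * θ = 1)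
    {z z' : D} {c₀ c₁ : Qt (inc k L al) (inc k L be)} (hz : z = φ c₀ + algebraMap K D s * φ c₁)
    (hz' : z' = φ (star c₀) + algebraMap K D s * φ (star c₁)) (hzz : z * z' = θ)
    (hzs : z * star z = 1)
    (hcl : ∀ w : HeightOneSpectrum (𝓞 L), inc k L be ∉ NF (inc k L al) ⊔ LS (w.valuation L) →
      ClAt d e w t₀ t₁ c₀ c₁) : z ∈ N := by
  have cr := crt_of_setting hS
  have hd0 : algebraMap k L (d : k) ≠ 0 := (_root_.map_ne_zero _).mpr d.ne_zero
  have hval : ∀ x : kˣ, ((inc k L x : Lˣ) : L) = algebraMap k L x := fun x => rfl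
  -- the pure quaternion
  obtain ⟨η, hη⟩ : ∃ η : Qt (inc k L al) (inc k L be), η = ⟨0, (algebraMap k L d)⁻¹ *
      algebraMap k L e1, (algebraMap k L d)⁻¹ * algebraMap k L e2,
      (algebraMap k L d)⁻¹ * algebraMap k L e3⟩ := ⟨_, rfl⟩
  have h0 : η.re = 0 := by rw [hη]
  have heL : algebraMap k L al * algebraMap k L e1 ^ 2 + algebraMap k L be *
      algebraMap k L e2 ^ 2 - algebraMap k L al * algebraMap k L be * algebraMap k L e3 ^ 2 =
      algebraMap k L d * algebraMap k L (dsc p q) := by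
    have h1 := congrArg (algebraMap k L) he
    simpa only [map_add, map_sub, map_mul, map_pow] using h1
  have hn : algebraMap k L d * nrd η = -algebraMap k L (dsc p q) := by
    rw [hη, nrd_mk, hval, hval]
    field_simp
    linear_combination -heL
  have hΔ : algebraMap k L (dsc p q) ≠ 0 := (_root_.map_ne_zero _).mpr h.dsc_ne
  have hη0 : η ≠ 0 := by
    rintro rfl
    have h1 : nrd (0 : Qt (inc k L al) (inc k L be)) = 0 := by simp [nrd]
    rw [h1, mul_zero, eq_comm, neg_eq_zero] at hn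
    exact hΔ hn
  have hF : Fact (∀ r : L, r ^ 2 ≠ algebraMap k L (dsc p q) + 0 * r) := h.fact cr fr hφ h0 hn
  have hF2 := fact2 (k := k) cr fr hφ h0 hn
  -- an element anticommuting with it
  obtain ⟨c, β₀, hc0, hcβ, hca, -, -⟩ := exists_anti (α := inc k L al) (β := inc k L be)
    (ε := inc k L d * Units.mk0 _ hΔ) fr.aniso
    (e₁ := algebraMap k L e1) (e₂ := algebraMap k L e2) (e₃ := algebraMap k L e3) (by
      rw [Units.val_mul, Units.val_mk0, hval, hval, hval, heL])
  have hca' := hca (algebraMap k L d)⁻¹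
  rw [← hη] at hca'
  have hcne : c ≠ 0 := by
    rintro rfl
    have h1 : nrd (0 : Qt (inc k L al) (inc k L be)) = 0 := by simp [nrd]
    rw [h1, neg_zero] at hcβ
    exact β₀.ne_zero hcβ
  -- the element inducing the transposition
  have hLf : Module.Finite k L := h.fin
  have hEf : Module.Finite k (EE L (algebraMap k L (dsc p q))) := Module.Finite.trans L _
  obtain ⟨g, hg, hgs, hgx⟩ := exists_q2 hS cr (j := iE cr hφ h0 hn)
    (fun x => iE_star cr fr hφ h0 hn x) h.s13 h.r13
  have hgg : ∃ q₀ q₁ : Qt (inc k L al) (inc k L be),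
      g * g = φ q₀ + algebraMap K D s * φ q₁ := by
    have h1 : ∀ x, g * g * iE cr hφ h0 hn x = iE cr hφ h0 hn x * (g * g) := by
      intro x
      rw [mul_assoc, hgx, ← mul_assoc, hgx, h.r13, mul_assoc]
    refine comm_form hS hdeg h.rank fr hφ h0 hη0 hcne hca' (fun t => ?_) ?_
    · have h2 := h1 (algebraMap L _ t)
      rw [iE_L] at h2
      exact h2.symm
    · have h2 := h1 (tt k p q)
      rw [iE_t] at h2
      refine mul_left_cancel₀ cr.ne_zero ?_
      rw [← mul_assoc, ← h2, ← mul_assoc (g * g), ← cr.comm (g * g), mul_assoc]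
  obtain ⟨B, hB⟩ := sq_mem_E h cr fr hφ h0 hn hg hgs hgx hgg
  -- the parameter for the signs
  have hd : ¬ IsSquare (algebraMap k L (d : k)) := by
    rintro ⟨r, hr⟩
    refine hF2.out (algebraMap L _ r) ?_
    have e4 : algebraMap k (EE L (algebraMap k L (dsc p q))) (d : k) =
      algebraMap L _ (algebraMap k L (d : k)) := rfl
    rw [e4, hr, zero_mul, add_zero, ← map_pow, pow_two]
  obtain ⟨b, hbw, e₀, hbs⟩ := H359.exists_b (F := k) (E := L) (by rw [h.rank]; decide) hd B
    (P := fun φ => φ al < 0 ∧ φ be < 0) (by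
      rintro φ₀ ⟨h1, h2⟩ h3 ψ ψ' h4 h5
      refine h.unique_real (φ := φ₀) ?_ h4 h5
      have h6 := congrArg φ₀ he
      simp only [map_add, map_sub, map_mul, map_pow] at h6
      have h7 : φ₀ d * φ₀ (dsc p q) ≤ 0 := by
        rw [← h6]
        have n1 := mul_nonneg (neg_nonneg.mpr h1.le) (sq_nonneg (φ₀ e1))
        have n2 := mul_nonneg (neg_nonneg.mpr h2.le) (sq_nonneg (φ₀ e2))
        have n3 := mul_nonneg (mul_pos_of_neg_of_neg h1 h2).le (sq_nonneg (φ₀ e3))
        linarith
      have h8 : φ₀ (dsc p q) ≤ 0 := by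
        by_contra h9
        exact absurd (mul_pos h3 (not_le.mp h9)) (not_lt.mpr h7)
      exact lt_of_le_of_ne h8 ((_root_.map_ne_zero φ₀).mpr h.dsc_ne))
  have hbn : algebraMap L (EE L (algebraMap k L (dsc p q)))
      (inc k L (nrm k L b) * b⁻¹ : Lˣ) = h.s12 (algebraMap L _ b) * h.s13 (algebraMap L _ b) := by
    have h1 := h.norm_eq (b : L)
    have e4 : ((inc k L (nrm k L b) : Lˣ) : L) = algebraMap k L (Algebra.norm k (b : L)) := rfl
    have e5 : algebraMap L (EE L (algebraMap k L (dsc p q)))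
      (algebraMap k L (Algebra.norm k (b : L))) = algebraMap k _ (Algebra.norm k (b : L)) := rfl
    have hb0 : algebraMap L (EE L (algebraMap k L (dsc p q))) b ≠ 0 :=
      (_root_.map_ne_zero _).mpr b.ne_zero
    rw [Units.val_mul, Units.val_inv_eq_inv_val, map_mul, map_inv₀, e4, e5, h1]
    field_simp
  obtain ⟨η', h0', hn', ε, γ, J, hε, fr3, hγ⟩ := exists_frame3 h cr fr hφ h0 hn hg hgs hgx hB
    hbn (e₀ := e₀) (fun ψ h1 h2 => hbs ψ ⟨h1, h2⟩) hbw
  exact cubic_core h cr fr hφ HN hmul h0' hn' hε fr3 hγ ht htk hθd hθ hz hz' hzz hzs hcl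

end Vale.Agent.P011.Six.H422
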