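import Vale.Agent.P011.Six.H422.Core2
import Vale.Agent.P011.Six.H422.Real

/-!
The cubic block: the elements `z` of step (1) are in `N`.
-/

open Module NumberField IsDedekindDomain Polynomial

set_option linter.unusedSectionVars false

namespace Vale.Agent.P011.Six.H422

open Vale.Agent.P011.Arith Vale.Agent.P011.Even Vale.Agent.P011.MPQ Vale.Agent.P011.One
open Vale.Agent.P011.Two (star_sD)

section consts

variable {k : Type} [Field k] [NumberField k]

/-- A constant making an element integral. -/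
theorem exists_kap (v : HeightOneSpectrum (𝓞 k)) (d : kˣ) :
    ∃ κ : kˣ, v.valuation k κ ≤ 1 ∧ v.valuation k (κ * d : k) ≤ 1 := by
  rcases le_total (v.valuation k (d : k)) 1 with h | h
  · exact ⟨1, by rw [Units.val_one, map_one], by rw [Units.val_one, one_mul]; exact h⟩
  · refine ⟨d⁻¹, ?_, ?_⟩
    · rw [Units.val_inv_eq_inv_val, map_inv₀]
      have h0 : v.valuation k (d : k) ≠ 0 := (Valuation.ne_zero_iff _).mpr d.ne_zero
      exact inv_le_one_of_one_le₀ h
    · rw [Units.inv_mul, map_one]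

/-- The constants at a place. -/
theorem exists_consts (v : HeightOneSpectrum (𝓞 k)) (d al : kˣ) {e : ℕ} (he : 0 < e) :
    ∃ g κ l : kˣ, v.valuation k g < 1 ∧ v.valuation k κ ≤ 1 ∧ v.valuation k (κ * d : k) ≤ 1 ∧
      v.valuation k l ≤ 1 ∧ v.valuation k (l * al : k) ≤ 1 ∧
      v.valuation k g < v.valuation k (16 ^ 3 * (4 * (e : k) ^ 4)) := by
  obtain ⟨π, hπ⟩ := exists_val_lt_one v
  obtain ⟨κ, h1, h2⟩ := exists_kap v d
  obtain ⟨l, h3, h4⟩ := exists_kap v al
  have hint : ∀ n : ℕ, v.valuation k (n : k) ≤ 1 := fun n => by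
    have h : v.valuation k (algebraMap (𝓞 k) k (n : 𝓞 k)) ≤ 1 := v.valuation_le_one _
    rwa [map_natCast] at h
  have he0 : (16 : k) ^ 3 * (4 * (e : k) ^ 4) ≠ 0 := by
    have : (e : k) ≠ 0 := Nat.cast_ne_zero.mpr he.ne'
    exact mul_ne_zero (by norm_num) (mul_ne_zero (by norm_num) (pow_ne_zero _ this))
  have h5 : v.valuation k (16 ^ 3 * (4 * (e : k) ^ 4)) ≤ 1 := by
    have e6 : ((16 ^ 3 * (4 * e ^ 4) : ℕ) : k) = 16 ^ 3 * (4 * (e : k) ^ 4) := by
      push_cast
      ring
    rw [← e6]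
    exact hint _
  have h6 : (0 : Z0) < v.valuation k (16 ^ 3 * (4 * (e : k) ^ 4)) :=
    zero_lt_iff.mpr ((Valuation.ne_zero_iff _).mpr he0)
  have h7 : v.valuation k (π * Units.mk0 _ he0 : kˣ) <
      v.valuation k (16 ^ 3 * (4 * (e : k) ^ 4)) := by
    rw [Units.val_mul, Units.val_mk0, map_mul]
    calc _ < 1 * v.valuation k (16 ^ 3 * (4 * (e : k) ^ 4)) :=
          mul_lt_mul_of_pos_right hπ h6
      _ = _ := one_mul _
  exact ⟨π * Units.mk0 _ he0, κ, l, h7.trans_le h5, h1, h2, h3, h4, h7⟩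

end consts

variable {k K D : Type} [Field k] [NumberField k] [Field K] [NumberField K] [StarRing K]
  [DivisionRing D] [StarRing D] [Algebra k K] [Algebra k D] [Algebra K D] [IsScalarTower k K D]
  {d : kˣ} {s : K} {al be : kˣ}

/-- The closeness of the coordinates. -/
theorem clAt_of {L : Type} [Field L] [NumberField L] [Algebra k L] {e : ℕ}
    {v : HeightOneSpectrum (𝓞 k)} {w : HeightOneSpectrum (𝓞 L)} (hw : Ab w v) {g κ l : kˣ}
    (hg : v.valuation k g < 1) (hκ : v.valuation k κ ≤ 1) (hκd : v.valuation k (κ * d : k) ≤ 1)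
    (hl : v.valuation k l ≤ 1) (hla : v.valuation k (l * al : k) ≤ 1)
    (hge : v.valuation k g < v.valuation k (16 ^ 3 * (4 * (e : k) ^ 4)))
    {γ : kˣ} (hγ : (γ : k) = 3 * g * κ * (4 * l)) {c t0 t1 q0 q1 : L}
    (hct : c = 2 * t0 + 2) (hn : t0 ^ 2 - algebraMap k L d * t1 ^ 2 = 1)
    (hq : (q0 ^ 2 - algebraMap k L al * q1 ^ 2) * c = 1)
    (hcl : ∀ w : HeightOneSpectrum (𝓞 L), Ab w v →
      w.valuation L (2 * q0 - 1) < w.valuation L (algebraMap k L γ) ∧
      w.valuation L q1 < w.valuation L (algebraMap k L γ) ∧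
      w.valuation L (t0 - 1) < w.valuation L (algebraMap k L γ) ∧
      w.valuation L t1 < w.valuation L (algebraMap k L γ)) :
    ClAt d e w t0 t1 (⟨q0 * (1 + t0), q1 * (1 + t0), 0, 0⟩ : Qt (inc k L al) (inc k L be))
      (⟨q0 * t1, q1 * t1, 0, 0⟩ : Qt (inc k L al) (inc k L be)) := by
  have hint : ∀ n : ℕ, v.valuation k (n : k) ≤ 1 := fun n => by
    have h : v.valuation k (algebraMap (𝓞 k) k (n : 𝓞 k)) ≤ 1 := v.valuation_le_one _
    rwa [map_natCast] at h
  have v3 : v.valuation k 3 ≤ 1 := by exact_mod_cast hint 3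
  have v4 : v.valuation k 4 ≤ 1 := by exact_mod_cast hint 4
  have hml : ∀ x : L, (∀ w : HeightOneSpectrum (𝓞 L), Ab w v →
      w.valuation L x < w.valuation L (algebraMap k L γ)) → ml L v (3 * g * κ) x := by
    intro x hx
    have h1 : ml L v (γ : k) x := (ml_iff γ.ne_zero).mpr fun w hw => (hx w hw).le
    refine h1.mono ?_
    rw [hγ, map_mul _ (3 * (g : k) * κ), map_mul _ (4 : k)]
    exact (mul_le_mul' le_rfl (mul_le_one' v4 hl)).trans (mul_one _).le
  obtain ⟨h1, h2, h3, h4⟩ := hcl w hw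
  have up : ∀ x : k, v.valuation k x ≤ 1 → w.valuation L (algebraMap k L x) ≤ 1 := fun x hx =>
    (val_le_one_iff hw x).mpr hx
  have w2 : w.valuation L 2 ≤ 1 := by
    have := up 2 (by exact_mod_cast hint 2)
    rwa [map_ofNat] at this
  have w3 : w.valuation L 3 ≤ 1 := by
    have := up 3 v3
    rwa [map_ofNat] at this
  have w4 : w.valuation L 4 ≤ 1 := val_four_le _
  have w40 : w.valuation L 4 ≠ 0 := (Valuation.ne_zero_iff _).mpr (by norm_num)
  have w20 : w.valuation L 2 ≠ 0 := (Valuation.ne_zero_iff _).mpr (by norm_num)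
  have wg : w.valuation L (algebraMap k L g) < 1 := (val_lt_one_iff hw _).mpr hg
  have wκ := up κ hκ
  have wl := up l hl
  have wla := up _ hla
  obtain ⟨G, hG⟩ : ∃ G, G = w.valuation L (algebraMap k L g) := ⟨_, rfl⟩
  obtain ⟨Γ, hΓ⟩ : ∃ Γ, Γ = w.valuation L (algebraMap k L γ) := ⟨_, rfl⟩
  rw [← hΓ] at h1 h2 h3 h4
  rw [← hG] at wg
  have hΓ' : Γ = w.valuation L 3 * G * w.valuation L (algebraMap k L κ) *
      (w.valuation L 4 * w.valuation L (algebraMap k L l)) := by
    rw [hΓ, hγ, hG]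
    simp only [map_mul, map_ofNat]
  have hΓ4 : Γ ≤ w.valuation L 4 * G := by
    rw [hΓ']
    calc _ ≤ 1 * G * 1 * (w.valuation L 4 * 1) :=
          mul_le_mul' (mul_le_mul' (mul_le_mul' w3 le_rfl) wκ) (mul_le_mul' le_rfl wl)
      _ = w.valuation L 4 * G := by rw [one_mul, mul_one, mul_one, mul_comm]
  have hΓal : Γ * w.valuation L (algebraMap k L al) ≤ G := by
    rw [hΓ']
    rw [map_mul, map_mul] at wla
    calc _ = w.valuation L 3 * G * w.valuation L (algebraMap k L κ) *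
          (w.valuation L 4 * (w.valuation L (algebraMap k L l) *
            w.valuation L (algebraMap k L al))) := by
          simp only [mul_assoc]
      _ ≤ 1 * G * 1 * (1 * 1) :=
          mul_le_mul' (mul_le_mul' (mul_le_mul' w3 le_rfl) wκ) (mul_le_mul' w4 wla)
      _ = G := by rw [one_mul, mul_one, mul_one, mul_one]
  have hΓ1 : Γ ≤ 1 := hΓ4.trans (mul_le_one' w4 wg.le)
  have hG1 : G ≤ 1 := wg.le
  have hτ : w.valuation L (1 + t0) ≤ 1 := by
    have e : 1 + t0 = (t0 - 1) + 2 := by ring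
    rw [e]
    exact (Valuation.map_add _ _ _).trans (max_le (h3.le.trans hΓ1) w2)
  -- `nrd (c₀ - 1)`
  have n1 : w.valuation L (2 * (q0 * (1 + t0) - 1)) ≤ Γ := by
    have e : 2 * (q0 * (1 + t0) - 1) = (2 * q0 - 1) * (1 + t0) + (t0 - 1) := by ring
    rw [e]
    refine (Valuation.map_add _ _ _).trans (max_le ?_ h3.le)
    rw [map_mul]
    exact (mul_le_mul' h1.le hτ).trans (mul_one _).le
  have n2 : w.valuation L ((q0 * (1 + t0) - 1) ^ 2) ≤ G := by
    have e : w.valuation L 4 * w.valuation L ((q0 * (1 + t0) - 1) ^ 2) =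
        w.valuation L (2 * (q0 * (1 + t0) - 1)) * w.valuation L (2 * (q0 * (1 + t0) - 1)) := by
      rw [← map_mul, ← map_mul]
      congr 1
      ring
    have h5 : w.valuation L 4 * w.valuation L ((q0 * (1 + t0) - 1) ^ 2) ≤
        w.valuation L 4 * G := by
      rw [e]
      refine (mul_le_mul' n1 n1).trans ((mul_le_mul' hΓ4 hΓ1).trans (mul_one _).le)
    exact (mul_le_mul_iff_right₀ (zero_lt_iff.mpr w40)).mp h5
  have n3 : w.valuation L (algebraMap k L al * (q1 * (1 + t0)) ^ 2) ≤ G := by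
    have e : w.valuation L (algebraMap k L al * (q1 * (1 + t0)) ^ 2) =
        w.valuation L q1 * w.valuation L (algebraMap k L al) *
          (w.valuation L q1 * (w.valuation L (1 + t0) * w.valuation L (1 + t0))) := by
      rw [← map_mul, ← map_mul, ← map_mul, ← map_mul]
      congr 1
      ring
    rw [e]
    calc _ ≤ Γ * w.valuation L (algebraMap k L al) * (1 * (1 * 1)) :=
          mul_le_mul' (mul_le_mul' h2.le le_rfl)
            (mul_le_mul' (h2.le.trans hΓ1) (mul_le_mul' hτ hτ))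
      _ ≤ G := by rw [mul_one, mul_one, mul_one]; exact hΓal
  -- `d nrd c₁`
  have hc0 : c ≠ 0 := right_ne_zero_of_mul_eq_one hq
  have n4 : w.valuation L c = w.valuation L 4 := by
    have e : c = 4 + 2 * (t0 - 1) := by rw [hct]; ring
    rw [e]
    refine Valuation.map_add_eq_of_lt_left _ ?_
    rw [map_mul]
    calc _ ≤ 1 * w.valuation L (t0 - 1) := mul_le_mul' w2 le_rfl
      _ < Γ := by rw [one_mul]; exact h3
      _ ≤ w.valuation L 4 * 1 := hΓ4.trans (mul_le_mul' le_rfl hG1)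
      _ = w.valuation L 4 := mul_one _
  refine ⟨v, g, κ, hw, g.ne_zero, κ.ne_zero, hg, hκ, hκd, ?_, hml _ fun w hw => (hcl w hw).2.2.1,
    hml _ fun w hw => (hcl w hw).2.2.2, ?_, ?_⟩
  · have e' : (16 : L) ^ 3 * (4 * (e : L) ^ 4) = algebraMap k L (16 ^ 3 * (4 * (e : k) ^ 4)) := by
      simp only [map_mul, map_pow, map_ofNat, map_natCast]
    rw [e']
    have h5 : v.valuation k (g / (16 ^ 3 * (4 * (e : k) ^ 4))) < 1 := by
      rw [map_div₀]
      exact (div_lt_one₀ (lt_of_le_of_lt zero_le hge)).mpr hge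
    have h6 := (val_lt_one_iff hw _).mpr h5
    have h7 : (16 : k) ^ 3 * (4 * (e : k) ^ 4) ≠ 0 := by
      intro h0
      rw [h0, map_zero] at hge
      exact not_lt_zero hge
    rw [map_div₀, map_div₀] at h6
    refine (div_lt_one₀ (zero_lt_iff.mpr ?_)).mp h6
    exact (Valuation.ne_zero_iff _).mpr ((_root_.map_ne_zero _).mpr h7)
  · have e : nrd ((⟨q0 * (1 + t0), q1 * (1 + t0), 0, 0⟩ : Qt (inc k L al) (inc k L be)) - 1) =
        (q0 * (1 + t0) - 1) ^ 2 - algebraMap k L al * (q1 * (1 + t0)) ^ 2 := by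
      change (q0 * (1 + t0) - 1) ^ 2 - algebraMap k L al * (q1 * (1 + t0) - 0) ^ 2 -
        algebraMap k L be * (0 - 0) ^ 2 + algebraMap k L al * algebraMap k L be * (0 - 0) ^ 2 = _
      ring
    rw [e, ← hG]
    exact (Valuation.map_sub _ _ _).trans (max_le n2 n3)
  · have e : algebraMap k L d * nrd (⟨q0 * t1, q1 * t1, 0, 0⟩ : Qt (inc k L al) (inc k L be)) * c
        = (t0 - 1) * ((t0 - 1) + 2) := by
      rw [nrd_mk]
      have e2 : ((inc k L al : Lˣ) : L) = algebraMap k L al := rfl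
      rw [e2]
      linear_combination (algebraMap k L d * t1 ^ 2) * hq - hn
    have h5 : w.valuation L (algebraMap k L d *
        nrd (⟨q0 * t1, q1 * t1, 0, 0⟩ : Qt (inc k L al) (inc k L be))) * w.valuation L 4 ≤
        1 * w.valuation L 4 := by
      rw [← n4, ← map_mul, e, n4, one_mul, map_mul]
      have h6 : w.valuation L ((t0 - 1) + 2) ≤ 1 :=
        (Valuation.map_add _ _ _).trans (max_le (h3.le.trans hΓ1) w2)
      calc _ ≤ Γ * 1 := mul_le_mul' h3.le h6
        _ ≤ w.valuation L 4 * 1 := by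
            rw [mul_one]
            exact hΓ4.trans (mul_le_mul' le_rfl hG1)
        _ = _ := mul_one _
    exact (mul_le_mul_iff_left₀ (zero_lt_iff.mpr w40)).mp h5

end Vale.Agent.P011.Six.H422
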