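import Vale.Agent.P011.Six.H359.Step1
import Vale.Agent.P011.Six.H422.Main
import Vale.Agent.P011.Six.H422.Real

/-!
The cubic block: the elements of step (1) are in `N`.
-/

open Module NumberField IsDedekindDomain Polynomial

set_option linter.unusedSectionVars false

namespace Vale.Agent.P011.Six.H422

open Vale.Agent.P011.Arith Vale.Agent.P011.Even Vale.Agent.P011.MPQ Vale.Agent.P011.One
open Vale.Agent.P011.Six.H359 (Dat1 Fr th)

variable {k K D : Type} [Field k] [NumberField k] [Field K] [NumberField K] [StarRing K]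
  [DivisionRing D] [StarRing D] [Algebra k K] [Algebra k D] [Algebra K D] [IsScalarTower k K D]
  {d : kˣ} {s : K}

/-- **The cubic block.** -/
theorem cubic_block (hS : Setting k K D d s) (hdeg : finrank K D = 6 ^ 2) (al be : kˣ) {e : ℕ}
    (he : 0 < e) {N : Set D} (HN : HQ1 k e N) (hmul : ∀ x ∈ N, ∀ y ∈ N, x * y ∈ N) :
    ∃ γ : HeightOneSpectrum (𝓞 k) → kˣ, ∀ (x i j : D) (L : Type) [Field L] [NumberField L]
      [Algebra k L] (ι : L →ₐ[k] D) (c t0 t1 q0 q1 : L) (a : K) (u z : D),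
      Dat1 d s al be i j x N ι c t0 t1 q0 q1 a u z →
      (∀ v : HeightOneSpectrum (𝓞 k), be ∉ NF al ⊔ LS (v.valuation k) →
        ∀ w : HeightOneSpectrum (𝓞 L), Ab w v →
          w.valuation L (2 * q0 - 1) < w.valuation L (algebraMap k L (γ v)) ∧
          w.valuation L q1 < w.valuation L (algebraMap k L (γ v)) ∧
          w.valuation L (t0 - 1) < w.valuation L (algebraMap k L (γ v)) ∧
          w.valuation L t1 < w.valuation L (algebraMap k L (γ v))) →
      (∃ e1 e2 e3 : k, (al : k) * e1 ^ 2 + be * e2 ^ 2 - al * be * e3 ^ 2 =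
        d * Algebra.discr k (fun i : Fin 3 => c ^ (i : ℕ))) →
      x ∈ N := by
  choose g κ l hg hκ hκd hl hla hge using fun v : HeightOneSpectrum (𝓞 k) =>
    exists_consts v d al he
  have h34 : ∀ n : ℕ, n ≠ 0 → (n : k) ≠ 0 := fun n hn => Nat.cast_ne_zero.mpr hn
  obtain ⟨u3, hu3⟩ : ∃ u : kˣ, (u : k) = 3 := ⟨Units.mk0 3 three_ne_zero, rfl⟩
  obtain ⟨u4, hu4⟩ : ∃ u : kˣ, (u : k) = 4 := ⟨Units.mk0 4 (by norm_num), rfl⟩
  refine ⟨fun v => u3 * g v * κ v * (u4 * l v), ?_⟩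
  intro x i j L _ _ _ ι c t0 t1 q0 q1 a u z H hcl he3
  -- the generator
  have hck : ∀ b : k, algebraMap k L b ≠ c := by
    intro b hb
    have h1 : ∀ y : L, ∃ b' : k, algebraMap k L b' = y := by
      intro y
      obtain ⟨p, hp⟩ := H.gen y
      refine ⟨p.eval b, ?_⟩
      rw [hp, ← hb, aeval_algebraMap_apply]
      rfl
    have h2 : finrank k L = 1 := by
      refine finrank_eq_one (1 : L) one_ne_zero fun y => ?_
      obtain ⟨b', hb'⟩ := h1 y
      exact ⟨b', by rw [Algebra.smul_def, mul_one, hb']⟩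
    rw [H.rk] at h2
    omega
  obtain ⟨y, p, q, hG, hdsc⟩ := exists_gen H.rk hck
  obtain ⟨e1, e2, e3, he4⟩ := he3
  rw [← hdsc] at he4
  have cr := crt_of_setting hS
  obtain ⟨φ, hφ⟩ := exists_qhom H.fr
  obtain ⟨a₀, a₁, ha⟩ := exists_coord hS a
  have hsa : star a = algebraMap k K a₀ - algebraMap k K a₁ * s := by
    have hfix : ∀ b : k, star (algebraMap k K b) = algebraMap k K b := fun b =>
      (hS.fix _).mpr ⟨b, rfl⟩
    rw [ha, star_add, star_mul', hfix, hfix, hS.star_s]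
    ring
  have haD : algebraMap K D a = algebraMap k D a₀ + algebraMap k D a₁ * algebraMap K D s := by
    rw [ha, map_add, map_mul, ← IsScalarTower.algebraMap_apply, ← IsScalarTower.algebraMap_apply]
  have hsaD : algebraMap K D (star a) =
      algebraMap k D a₀ - algebraMap k D a₁ * algebraMap K D s := by
    rw [hsa, map_sub, map_mul, ← IsScalarTower.algebraMap_apply, ← IsScalarTower.algebraMap_apply]
  obtain ⟨θ, hθ⟩ : ∃ θ, θ = th j x := ⟨_, rfl⟩
  have hcub := H.cub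
  have hth := H.hth
  have hHz := H.hz
  rw [← hθ] at hcub hth hHz
  rw [haD, hsaD] at hcub
  have ht0 : ∀ b : k, algebraMap k L b ≠ t0 := by
    intro b hb
    refine hck (2 * b + 2) ?_
    rw [map_add, map_mul, map_ofNat, hb, H.hct]
  have hφL : ∀ y : L, φ (algebraMap L _ y) = ι y := fun y => phi_alg hφ y
  obtain ⟨δ, hδ⟩ : ∃ δ, δ = algebraMap K D s := ⟨_, rfl⟩
  rw [← hδ] at cr hth hcub
  have fr := H.fr
  obtain ⟨J, hJ⟩ : ∃ J, J = star u * j := ⟨_, rfl⟩
  rw [← hJ] at fr hφ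
  have hc0 : c ≠ 0 := right_ne_zero_of_mul_eq_one H.hq
  have hval : ∀ x : kˣ, ((inc k L x : Lˣ) : L) = algebraMap k L x := fun x => rfl
  -- the two forms
  obtain ⟨X, hX⟩ : ∃ X : Qt (inc k L al) (inc k L be), X = ⟨q0, q1, 0, 0⟩ := ⟨_, rfl⟩
  have hφX : φ X = ι q0 + ι q1 * i := by
    rw [hX, hφ]
    change ι q0 + ι q1 * i + ι 0 * J + ι 0 * (i * J) = _
    rw [map_zero, zero_mul, zero_mul, add_zero, add_zero]
  have hXX : X * star X = algebraMap L _ c⁻¹ := by
    rw [mul_star_self_qt]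
    congr 1
    rw [hX, nrd_mk, hval]
    have h1 := H.hq
    have h2 := eq_inv_of_mul_eq_one_left h1
    rw [← h2]
    ring
  obtain ⟨c₀, hc₀⟩ : ∃ c₀ : Qt (inc k L al) (inc k L be),
    c₀ = ⟨q0 * (1 + t0), q1 * (1 + t0), 0, 0⟩ := ⟨_, rfl⟩
  obtain ⟨c₁, hc₁⟩ : ∃ c₁ : Qt (inc k L al) (inc k L be),
    c₁ = ⟨q0 * t1, q1 * t1, 0, 0⟩ := ⟨_, rfl⟩
  have hmk : ∀ r : L, X * algebraMap L _ r = ⟨q0 * r, q1 * r, 0, 0⟩ := by
    intro r
    rw [hX, QuaternionAlgebra.algebraMap_eq, QuaternionAlgebra.mk_mul_mk]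
    ext
    · change q0 * r + _ * q1 * 0 + _ * 0 * 0 + _ * 0 * 0 - _ * _ * 0 * 0 = q0 * r
      ring
    · change q0 * 0 + q1 * r + _ * q1 * 0 - _ * 0 * 0 + _ * 0 * 0 = q1 * r
      ring
    · change q0 * 0 + _ * q1 * 0 + 0 * r + _ * 0 * 0 - _ * 0 * 0 = 0
      ring
    · change q0 * 0 + q1 * 0 + _ * q1 * 0 - 0 * 0 + 0 * r = 0
      ring
  have hX0 : c₀ = X * algebraMap L _ (1 + t0) := by rw [hmk, hc₀]
  have hX1 : c₁ = X * algebraMap L _ t1 := by rw [hmk, hc₁]
  have hz : z = φ c₀ + δ * φ c₁ := by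
    rw [hHz, ← hφX, hth, hX0, hX1, map_mul, map_mul, hφL, hφL, map_add, map_one,
      ← mul_assoc δ, cr.comm (φ X), mul_assoc, cr.comm (ι t1)]
    noncomm_ring
  have hzz : (φ c₀ + δ * φ c₁) * (φ (star c₀) + δ * φ (star c₁)) = θ := by
    have hcen : ∀ (r : L) (Y : Qt (inc k L al) (inc k L be)),
        algebraMap L _ r * Y = Y * algebraMap L _ r := fun r Y => Algebra.commutes _ _
    rw [cr.mul_form φ (algebraMap L _ (algebraMap k L d)) (by rw [hφL, AlgHom.commutes])]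
    have e1 : c₀ * star c₀ + algebraMap L _ (algebraMap k L d) * (c₁ * star c₁) =
        algebraMap L _ t0 := by
      have e2 : ∀ r r' : L, X * algebraMap L _ r * star (X * algebraMap L _ r') =
          algebraMap L _ (r * r' * c⁻¹) := by
        intro r r'
        rw [star_mul, star_alg_qt, mul_assoc, ← mul_assoc (algebraMap L _ r), ← map_mul, hcen,
          ← mul_assoc, hXX, ← map_mul, mul_comm c⁻¹]
      rw [hX0, hX1, e2, e2, ← map_mul, ← map_add]
      congr 1
      field_simp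
      have h1 := H.hn
      rw [H.hct]
      linear_combination -h1
    have e3 : c₀ * star c₁ + c₁ * star c₀ = algebraMap L _ t1 := by
      have e2 : ∀ r r' : L, X * algebraMap L _ r * star (X * algebraMap L _ r') =
          algebraMap L _ (r * r' * c⁻¹) := by
        intro r r'
        rw [star_mul, star_alg_qt, mul_assoc, ← mul_assoc (algebraMap L _ r), ← map_mul, hcen,
          ← mul_assoc, hXX, ← map_mul, mul_comm c⁻¹]
      rw [hX0, hX1, e2, e2, ← map_add]
      congr 1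
      field_simp
      rw [H.hct]
      ring
    rw [e1, e3, hφL, hφL, hth, cr.comm]
  have hzN : z ∈ N := by
    refine cubic_real hS hdeg fr hφ hG he4 HN hmul H.hn ht0 (a₀ := -a₀) (a₁ := -a₁) (b₀ := a₀)
      (b₁ := -a₁) (θ := θ) (by rw [hth, hδ]) ?_ (c₀ := c₀) (c₁ := c₁) (by rw [hz, hδ]) rfl ?_
      H.zz fun w hw => ?_
    · rw [← hδ, map_neg, map_neg]
      have h1 := sub_eq_zero.mp hcub
      rw [← h1]
      noncomm_ring
    · rw [← hδ, hz, hzz]
    · obtain ⟨v, hv⟩ := exists_below (F := k) w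
      have hvb : be ∉ NF al ⊔ LS (v.valuation k) := fun h1 => hw (Sch.sup_map hv h1)
      rw [hc₀, hc₁]
      exact clAt_of (be := be) hv (hg v) (hκ v) (hκd v) (hl v) (hla v) (hge v)
        (γ := u3 * g v * κ v * (u4 * l v)) (by
          simp only [Units.val_mul, hu3, hu4]) H.hct H.hn H.hq (hcl v hvb)
  rw [H.xz]
  exact hmul u H.uN z hzN

end Vale.Agent.P011.Six.H422
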