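import Vale.Agent.P011.Six.H422.Core2
import Vale.Agent.P011.Six.Max

/-!
The centralizer of the Galois closure of the cubic field, and the norm of `B`.
-/

open Module NumberField IsDedekindDomain

set_option linter.unusedSectionVars false

namespace Vale.Agent.P011.Six.H422

open Vale.Agent.P011.Arith Vale.Agent.P011.Even Vale.Agent.P011.MPQ Vale.Agent.P011.One
open Vale.Agent.P011.Two (star_sD)

section cen

variable {k K D : Type} [Field k] [NumberField k] [Field K] [NumberField K] [StarRing K]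
  [DivisionRing D] [StarRing D] [Algebra k K] [Algebra k D] [Algebra K D] [IsScalarTower k K D]
  {d : kˣ} {s : K} {L : Type} [Field L] [NumberField L] [Algebra k L] {ι : L →ₐ[k] D}
  {α β : Lˣ} {i j : D} {φ : Qt α β →+* D}

theorem crt_of_setting (hS : Setting k K D d s) : CRt (algebraMap K D s) d :=
  ⟨fun x => Algebra.commutes _ _, star_sD hS, by
    rw [← map_mul, ← pow_two, hS.sq, ← IsScalarTower.algebraMap_apply]⟩

/-- The elements of the centralizer of a pure quaternion. -/
theorem comm_form (hS : Setting k K D d s) (hdeg : finrank K D = 6 ^ 2) (h3 : finrank k L = 3)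
    (fr : QFr ι α β i j)
    (hφ : ∀ q, φ q = ι q.re + ι q.imI * i + ι q.imJ * j + ι q.imK * (i * j))
    {η c : Qt α β} (h0 : η.re = 0) (hη : η ≠ 0) (hc0 : c ≠ 0) (hc : c * η = -(η * c)) {z : D}
    (hz : ∀ t, ι t * z = z * ι t) (hzη : φ η * z = z * φ η) :
    ∃ q₀ q₁ : Qt α β, z = φ q₀ + algebraMap K D s * φ q₁ := by
  have H : Six.WF ι (φ η) (φ c) (-nrd η) := by
    refine ⟨fr.sym, fun t => (phi_comm_L hφ η t).symm, fun t => (phi_comm_L hφ c t).symm, ?_, ?_,
      fun h => hη (qhom_inj fr hφ h), fun h => hc0 (qhom_inj fr hφ h)⟩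
    · rw [← map_mul, pure_sq h0, phi_alg hφ]
    · rw [← map_mul, ← map_mul, hc, map_neg, neg_neg]
  obtain ⟨x, hx, x', hx', rfl⟩ := Six.mem_MF_of_comm hS hdeg h3 H hz hzη
  obtain ⟨a, b, rfl⟩ := Six.mem_EF.mp hx
  obtain ⟨a', b', rfl⟩ := Six.mem_EF.mp hx'
  refine ⟨algebraMap L _ a + η * algebraMap L _ a', algebraMap L _ b + η * algebraMap L _ b', ?_⟩
  simp only [map_add, map_mul, phi_alg hφ, mul_add]
  have e : φ η * (algebraMap K D s * ι b') = algebraMap K D s * (φ η * ι b') := by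
    rw [← mul_assoc, ← Algebra.commutes, mul_assoc]
  rw [e]
  abel

end cen

section braid

variable {k D : Type} [Field k] [NumberField k] [DivisionRing D] [StarRing D] [Algebra k D]
    {L : Type} [Field L] [NumberField L] [Algebra k L] {ι : L →ₐ[k] D} {δ : D} {d : kˣ}
    {α β : Lˣ} {i j : D} {φ : Qt α β →+* D} {p q : k} {y : L}

variable [Fact (∀ r : L, r ^ 2 ≠ algebraMap k L (dsc p q) + 0 * r)]

theorem Gen.r23_13 (h : Gen y p q) (x : (EE L (algebraMap k L (dsc p q)))) : s23 (L := L) k p q (h.s13 x) = h.s13 (h.s12 x) := by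
  have h1 := h.r13_23 (h.s13 x)
  rw [h.r13] at h1
  rw [← h1, h.r13]

/-- **The braid relation.** -/
theorem braid (h : Gen y p q) (cr : CRt δ d) (fr : QFr ι α β i j)
    (hφ : ∀ q, φ q = ι q.re + ι q.imI * i + ι q.imJ * j + ι q.imK * (i * j))
    {η : Qt α β} (h0 : η.re = 0)
    (hn : algebraMap k L d * nrd η = -algebraMap k L (dsc p q))
    {g : D} (hg : g ≠ 0) (hgs : star g = -g)
    (hgx : ∀ x : (EE L (algebraMap k L (dsc p q))), g * iE cr hφ h0 hn x = iE cr hφ h0 hn (h.s13 x) * g)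
    {B : Lˣ} (hB : g * g = iE cr hφ h0 hn (h.s12 (algebraMap L (EE L (algebraMap k L (dsc p q))) B)))
    {c : Qt α β} {b₀ : k} (hc0 : c.re = 0) (hc : c * η = -(η * c))
    (hcn : -nrd c = algebraMap k L b₀) (hb₀ : b₀ ≠ 0)
    (hcen : ∀ z : D, (∀ x : (EE L (algebraMap k L (dsc p q))), z * iE cr hφ h0 hn x = iE cr hφ h0 hn x * z) →
      ∃ q₀ q₁ : Qt α β, z = φ q₀ + δ * φ q₁) :
    ∃ x₀ x₁ : L, algebraMap L (EE L (algebraMap k L (dsc p q))) B * h.s12 (algebraMap L (EE L (algebraMap k L (dsc p q))) B) * h.s13 (algebraMap L (EE L (algebraMap k L (dsc p q))) B) =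
      algebraMap L (EE L (algebraMap k L (dsc p q))) (algebraMap k L b₀ * (x₀ ^ 2 - algebraMap k L (d * dsc p q) * x₁ ^ 2)) := by
  have hJ := phi_anti cr hφ h0 hn hc
  obtain ⟨f, hf⟩ : ∃ f, f = iE cr hφ h0 hn := ⟨_, rfl⟩
  have hfs : ∀ x, star (f x) = f x := fun x => by rw [hf]; exact iE_star cr fr hφ h0 hn x
  have hfz : ∀ a b : (EE L (algebraMap k L (dsc p q))), f a + δ * f b = 0 → a = 0 ∧ b = 0 := by
    intro a b hab
    have h1 : b = 0 := by
      refine iE_zero cr fr hφ h0 hn (a := a) (b := b) ?_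
      rw [← hf, hab, star_zero]
    refine ⟨?_, h1⟩
    rw [h1, map_zero, mul_zero, add_zero] at hab
    exact (map_eq_zero f).mp hab
  have hcm : ∀ z : D, (∃ q₀ q₁ : Qt α β, z = φ q₀ + δ * φ q₁) →
      z * (δ * φ η) = δ * φ η * z →
      ∃ a b : (EE L (algebraMap k L (dsc p q))), z = iE cr hφ h0 hn a + δ * iE cr hφ h0 hn b :=
    fun z h1 h2 => comm_iE cr fr hφ h0 hn h.dsc_ne h1 h2
  have hft : iE cr hφ h0 hn (tt k p q) = δ * φ η := iE_t cr hφ h0 hn
  have hfι : ∀ x, iE cr hφ h0 hn (algebraMap L (EE L (algebraMap k L (dsc p q))) x) = ι x := iE_L cr hφ h0 hn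
  rw [← hf] at hJ hgx hB hcen
  have hinj : Function.Injective f := f.toRingHom.injective
  obtain ⟨J, hJd⟩ : ∃ J, J = φ c := ⟨_, rfl⟩
  rw [← hJd] at hJ
  have hJs : star J = -J := by rw [hJd, star_qhom fr hφ, star_eq_neg hc0, map_neg]
  have hJJ : J * J = f (algebraMap k (EE L (algebraMap k L (dsc p q))) b₀) := by
    rw [hJd, ← map_mul, pure_sq hc0, phi_alg hφ, hcn, AlgHom.commutes, AlgHom.commutes]
  have hb₀' : algebraMap k (EE L (algebraMap k L (dsc p q))) b₀ ≠ 0 := (_root_.map_ne_zero _).mpr hb₀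
  have hJ0 : J ≠ 0 := by
    rintro rfl
    rw [mul_zero, eq_comm, map_eq_zero] at hJJ
    exact hb₀' hJJ
  obtain ⟨B₁, hB1⟩ : ∃ b, b = algebraMap L (EE L (algebraMap k L (dsc p q))) B := ⟨_, rfl⟩
  obtain ⟨B₂, hB2⟩ : ∃ b, b = h.s12 (algebraMap L (EE L (algebraMap k L (dsc p q))) B) := ⟨_, rfl⟩
  obtain ⟨B₃, hB3⟩ : ∃ b, b = h.s13 (algebraMap L (EE L (algebraMap k L (dsc p q))) B) := ⟨_, rfl⟩
  have t1 : s23 (L := L) k p q B₂ = B₃ := by rw [hB2, hB3]; exact h.j23_2 _
  have t2 : h.s13 B₃ = B₁ := by rw [hB3, hB1, h.r13]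
  have t3 : h.s12 B₃ = B₃ := by rw [hB3]; exact h.j12_3 _
  have t4 : h.s13 (algebraMap k (EE L (algebraMap k L (dsc p q))) b₀) = algebraMap k (EE L (algebraMap k L (dsc p q))) b₀ := AlgHom.commutes _ _
  have t5 : s23 (L := L) k p q (algebraMap k (EE L (algebraMap k L (dsc p q))) b₀) = algebraMap k (EE L (algebraMap k L (dsc p q))) b₀ := AlgHom.commutes _ _
  rw [← hB2] at hB
  rw [← hB2, ← hB3, ← hB1]
  have hcomm : ∀ x x' : (EE L (algebraMap k L (dsc p q))), f x * f x' = f x' * f x := fun x x' => by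
    rw [← map_mul, mul_comm, map_mul]
  -- the two elements
  obtain ⟨X, hX⟩ : ∃ X, X = g * J * g := ⟨_, rfl⟩
  obtain ⟨Y, hY⟩ : ∃ Y, Y = J * g * J := ⟨_, rfl⟩
  have hX0 : X ≠ 0 := by rw [hX]; exact mul_ne_zero (mul_ne_zero hg hJ0) hg
  have hY0 : Y ≠ 0 := by rw [hY]; exact mul_ne_zero (mul_ne_zero hJ0 hg) hJ0
  have hXs : star X = -X := by
    rw [hX, star_mul, star_mul, hgs, hJs]
    simp only [neg_mul, mul_neg, neg_neg, mul_assoc]
  have hYs : star Y = -Y := by
    rw [hY, star_mul, star_mul, hgs, hJs]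
    simp only [neg_mul, mul_neg, neg_neg, mul_assoc]
  have hXx : ∀ x : (EE L (algebraMap k L (dsc p q))), X * f x = f (h.s12 x) * X := by
    intro x
    have e1 : h.s13 (s23 (L := L) k p q (h.s13 x)) = h.s12 x := by rw [h.r13_23, h.r13]
    calc X * f x = g * (J * (g * f x)) := by rw [hX]; simp only [mul_assoc]
      _ = g * (J * f (h.s13 x)) * g := by rw [hgx]; simp only [mul_assoc]
      _ = g * f (s23 (L := L) k p q (h.s13 x)) * J * g := by rw [hJ]; simp only [mul_assoc]
      _ = f (h.s12 x) * X := by rw [hgx, e1, hX]; simp only [mul_assoc]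
  have hYx : ∀ x : (EE L (algebraMap k L (dsc p q))), Y * f x = f (h.s12 x) * Y := by
    intro x
    have e1 : s23 (L := L) k p q (h.s13 (s23 (L := L) k p q x)) = h.s12 x := by
      rw [h.r13_23, h.r23_12, h.r13]
    calc Y * f x = J * (g * (J * f x)) := by rw [hY]; simp only [mul_assoc]
      _ = J * (g * f (s23 (L := L) k p q x)) * J := by rw [hJ]; simp only [mul_assoc]
      _ = J * f (h.s13 (s23 (L := L) k p q x)) * g * J := by rw [hgx]; simp only [mul_assoc]
      _ = f (h.s12 x) * Y := by rw [hJ, e1, hY]; simp only [mul_assoc]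
  have hm : ∀ x : (EE L (algebraMap k L (dsc p q))), X * Y⁻¹ * f x = f x * (X * Y⁻¹) := by
    intro x
    have e1 : Y⁻¹ * f x = f (h.s12 x) * Y⁻¹ := by
      rw [eq_mul_inv_iff_mul_eq₀ hY0, mul_assoc, inv_mul_eq_iff_eq_mul₀ hY0, hYx, h.r12]
    rw [mul_assoc, e1, ← mul_assoc, hXx, h.r12, mul_assoc]
  obtain ⟨a, b, hab⟩ := hcm _ (hcen _ hm) (by
    have h1 := hm (tt k p q)
    rw [← hft, ← hf]
    exact h1)
  rw [← hf] at hab
  have hXY : X = (f a + δ * f b) * Y := by
    rw [← hab, mul_assoc, inv_mul_cancel₀ hY0, mul_one]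
  have hδf : ∀ x y : (EE L (algebraMap k L (dsc p q))), f x * (δ * f y) = δ * f (x * y) := by
    intro x y
    rw [← mul_assoc, ← cr.comm, mul_assoc, map_mul]
  have hYab : ∀ x y : (EE L (algebraMap k L (dsc p q))), Y * (f x + δ * f y) = (f (h.s12 x) + δ * f (h.s12 y)) * Y := by
    intro x y
    rw [mul_add, add_mul, hYx, ← mul_assoc Y, ← cr.comm, mul_assoc δ, hYx, mul_assoc δ]
  have hsym : a - h.s12 a = 0 ∧ b + h.s12 b = 0 := by
    apply hfz
    have h1 : X = (f (h.s12 a) + δ * f (h.s12 (-b))) * Y := by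
      rw [← hYab]
      have h2 := congrArg star hXY
      rw [hXs, star_mul, star_add, star_mul, hfs, hfs, hYs, cr.st, neg_mul] at h2
      rw [neg_inj.mp h2, map_neg, mul_neg, mul_neg, ← cr.comm]
    have h2 := hXY.symm.trans h1
    have h3 := mul_right_cancel₀ hY0 h2
    rw [map_sub, map_add, mul_add]
    rw [map_neg, map_neg, mul_neg] at h3
    have h4 : f a + δ * f b - (f (h.s12 a) + -(δ * f (h.s12 b))) = 0 := by rw [h3, sub_self]
    rw [← h4]
    abel
  obtain ⟨ha12, hb12⟩ := hsym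
  have ha12' : h.s12 a = a := (sub_eq_zero.mp ha12).symm
  have hb12' : h.s12 b = -b := eq_neg_of_add_eq_zero_right hb12
  have hXX : X * X = f (B₁ * algebraMap k (EE L (algebraMap k L (dsc p q))) b₀ * B₂) := by
    calc X * X = g * (J * (g * g) * J) * g := by rw [hX]; simp only [mul_assoc]
      _ = g * (f B₃ * (J * J)) * g := by rw [hB, hJ, t1]; simp only [mul_assoc]
      _ = g * f (B₃ * algebraMap k (EE L (algebraMap k L (dsc p q))) b₀) * g := by rw [hJJ, map_mul]
      _ = f (h.s13 (B₃ * algebraMap k (EE L (algebraMap k L (dsc p q))) b₀)) * (g * g) := by rw [hgx, mul_assoc]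
      _ = f (B₁ * algebraMap k (EE L (algebraMap k L (dsc p q))) b₀ * B₂) := by rw [hB, ← map_mul, map_mul h.s13, t2, t4]
  have hYY : Y * Y = f (algebraMap k (EE L (algebraMap k L (dsc p q))) b₀ * B₃ * algebraMap k (EE L (algebraMap k L (dsc p q))) b₀) := by
    calc Y * Y = J * (g * (J * J) * g) * J := by rw [hY]; simp only [mul_assoc]
      _ = J * (f (algebraMap k (EE L (algebraMap k L (dsc p q))) b₀) * (g * g)) * J := by
          rw [hJJ, hgx, t4]; simp only [mul_assoc]
      _ = J * f (algebraMap k (EE L (algebraMap k L (dsc p q))) b₀ * B₂) * J := by rw [hB, map_mul]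
      _ = f (s23 (L := L) k p q (algebraMap k (EE L (algebraMap k L (dsc p q))) b₀ * B₂)) * (J * J) := by rw [hJ, mul_assoc]
      _ = _ := by rw [hJJ, ← map_mul, map_mul (s23 (L := L) k p q), t1, t5]
  have hkey : B₁ * algebraMap k (EE L (algebraMap k L (dsc p q))) b₀ * B₂ =
      (a * a - algebraMap k (EE L (algebraMap k L (dsc p q))) (d : k) * (b * b)) * (algebraMap k (EE L (algebraMap k L (dsc p q))) b₀ * B₃ * algebraMap k (EE L (algebraMap k L (dsc p q))) b₀) := by
    apply hinj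
    rw [← hXX, map_mul, ← hYY]
    have h1 : X * X = (f a + δ * f b) * (f a - δ * f b) * (Y * Y) := by
      calc X * X = (f a + δ * f b) * (Y * (f a + δ * f b)) * Y := by
            nth_rw 1 2 [hXY]
            simp only [mul_assoc]
        _ = (f a + δ * f b) * (f a - δ * f b) * (Y * Y) := by
            rw [hYab, ha12', hb12', map_neg, mul_neg, ← sub_eq_add_neg]
            simp only [mul_assoc]
    have h2 : (f a + δ * f b) * (f a - δ * f b) =
        f (a * a - algebraMap k (EE L (algebraMap k L (dsc p q))) (d : k) * (b * b)) := by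
      have e1 : δ * f b * (δ * f b) = f (algebraMap k (EE L (algebraMap k L (dsc p q))) (d : k) * (b * b)) := by
        rw [mul_assoc, hδf, ← mul_assoc, cr.sq, map_mul f (algebraMap k (EE L (algebraMap k L (dsc p q))) (d : k)),
          AlgHom.commutes]
      have e2 : δ * f b * f a = f a * (δ * f b) := by
        rw [hδf, mul_assoc, ← map_mul, mul_comm]
      rw [map_sub, ← e1, map_mul]
      rw [add_mul, mul_sub, mul_sub, e2]
      abel
    rw [h1, h2]
  -- the norm
  obtain ⟨a', ha'⟩ : ∃ a', a' = h.s13 (a * B₃) := ⟨_, rfl⟩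
  obtain ⟨b', hb'⟩ : ∃ b', b' = h.s13 (b * B₃) := ⟨_, rfl⟩
  have ha23 : s23 (L := L) k p q a' = a' := by
    rw [ha', h.r23_13, map_mul h.s12, ha12', t3]
  have hb23 : s23 (L := L) k p q b' = -b' := by
    rw [hb', h.r23_13, map_mul h.s12, hb12', t3, neg_mul, map_neg]
  have ha'' : a' = algebraMap L (EE L (algebraMap k L (dsc p q))) a'.re := by
    rw [s23_re] at ha23
    have h5 : -a'.im = a'.im := congrArg QuadraticAlgebra.im ha23
    have h6 : (2 : L) * a'.im = 0 := by linear_combination -h5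
    ext
    · rfl
    · exact (mul_eq_zero.mp h6).resolve_left two_ne_zero
  have hb'' : b' = algebraMap L (EE L (algebraMap k L (dsc p q))) b'.im * tt k p q := by
    rw [s23_re] at hb23
    have h5 : b'.re = -b'.re := congrArg QuadraticAlgebra.re hb23
    have h6 : (2 : L) * b'.re = 0 := by linear_combination h5
    have h7 := (mul_eq_zero.mp h6).resolve_left two_ne_zero
    have h8 := coordE (k := k) b'
    rw [h7, map_zero, zero_add] at h8
    exact h8
  refine ⟨a'.re, b'.im, ?_⟩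
  have hs13 : h.s13 (B₁ * algebraMap k (EE L (algebraMap k L (dsc p q))) b₀ * B₂ * B₃) =
      B₁ * algebraMap k (EE L (algebraMap k L (dsc p q))) b₀ * B₂ * B₃ := by
    have e1 : h.s13 B₁ = B₃ := by rw [hB1, hB3]
    have e2 : h.s13 B₂ = B₂ := by rw [hB2]; exact h.j13_2 _
    rw [map_mul, map_mul, map_mul, e1, e2, t4, t2]
    ring
  have hfin : B₁ * algebraMap k (EE L (algebraMap k L (dsc p q))) b₀ * B₂ * B₃ =
      (a' * a' - algebraMap k (EE L (algebraMap k L (dsc p q))) (d : k) * (b' * b')) * (algebraMap k (EE L (algebraMap k L (dsc p q))) b₀ * algebraMap k (EE L (algebraMap k L (dsc p q))) b₀) := by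
    have h1 : B₁ * algebraMap k (EE L (algebraMap k L (dsc p q))) b₀ * B₂ * B₃ = ((a * B₃) * (a * B₃) -
        algebraMap k (EE L (algebraMap k L (dsc p q))) (d : k) * ((b * B₃) * (b * B₃))) *
          (algebraMap k (EE L (algebraMap k L (dsc p q))) b₀ * algebraMap k (EE L (algebraMap k L (dsc p q))) b₀) := by
      rw [hkey]; ring
    have h2 := congrArg h.s13 h1
    rw [hs13] at h2
    rw [h2, ha', hb']
    simp only [map_mul, map_sub, AlgHom.commutes]
  rw [ha'', hb''] at hfin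
  apply mul_left_cancel₀ hb₀'
  have e3 : algebraMap L (EE L (algebraMap k L (dsc p q))) (algebraMap k L b₀ * (a'.re ^ 2 -
      algebraMap k L (d * dsc p q) * b'.im ^ 2)) = algebraMap k (EE L (algebraMap k L (dsc p q))) b₀ *
      (algebraMap L (EE L (algebraMap k L (dsc p q))) a'.re * algebraMap L (EE L (algebraMap k L (dsc p q))) a'.re - algebraMap k (EE L (algebraMap k L (dsc p q))) (d : k) *
      (algebraMap L (EE L (algebraMap k L (dsc p q))) b'.im * tt k p q * (algebraMap L (EE L (algebraMap k L (dsc p q))) b'.im * tt k p q))) := by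
    have e4 : algebraMap L (EE L (algebraMap k L (dsc p q))) b'.im * tt k p q * (algebraMap L (EE L (algebraMap k L (dsc p q))) b'.im * tt k p q) =
        algebraMap L (EE L (algebraMap k L (dsc p q))) b'.im ^ 2 * algebraMap k (EE L (algebraMap k L (dsc p q))) (dsc p q) := by
      rw [← tt_sq]; ring
    have e5 : algebraMap L (EE L (algebraMap k L (dsc p q))) (algebraMap k L (d * dsc p q)) = algebraMap k (EE L (algebraMap k L (dsc p q))) (d * dsc p q) := rfl
    have e6 : algebraMap L (EE L (algebraMap k L (dsc p q))) (algebraMap k L b₀) = algebraMap k (EE L (algebraMap k L (dsc p q))) b₀ := rfl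
    rw [e4, map_mul, map_sub, map_mul, map_pow, map_pow, e5, e6, map_mul]
    ring
  rw [e3]
  linear_combination hfin

end braid

end Vale.Agent.P011.Six.H422
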