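import Vale.Agent.P011.Six.H422.MD

/-!
The decomposition of the unitary elements of the centralizer of a cubic field.
-/

open Module NumberField IsDedekindDomain

set_option linter.unusedSectionVars false

namespace Vale.Agent.P011.Six.H422

open Vale.Agent.P011.Arith Vale.Agent.P011.Even Vale.Agent.P011.MPQ Vale.Agent.P011.One

variable {k D : Type} [Field k] [NumberField k] [DivisionRing D] [StarRing D] [Algebra k D]
    {L : Type} [Field L] [NumberField L] [Algebra k L] {ι : L →ₐ[k] D} {δ : D} {d : kˣ} {Δ : k}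
    {α β : Lˣ} {i j : D} {φ : Qt α β →+* D} {η : Qt α β}
    {M : Type} [Field M] [NumberField M] [Algebra k M] [Algebra L M] [IsScalarTower k L M]
    {ψ : M →ₐ[k] D} {s u v c : M →ₐ[k] M} {T ω : M}

/-- The key element of the maximal subfield. -/
theorem exists_r (H1 : MD1 (L := L) (d : k) Δ s u v c T ω) (H2 : MD2 (L := L) s u v c)
    (H3 : MD3 (L := L) s u v) {t₀ t₁ : L} (ht : t₀ ^ 2 - algebraMap k L d * t₁ ^ 2 = 1)
    (htk : ∀ c : k, algebraMap k L c ≠ t₀) {a₀ a₁ b₀ b₁ : k} {θ : M}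
    (hθd : θ = algebraMap L M t₀ + algebraMap L M t₁ * ω)
    (hθ : θ ^ 3 + (algebraMap k M a₀ + algebraMap k M a₁ * ω) * θ ^ 2 +
      (algebraMap k M b₀ + algebraMap k M b₁ * ω) * θ = 1) :
    c θ * θ = 1 ∧ θ * s θ * u θ = 1 ∧ v θ = θ ∧ v (s θ) = u θ ∧ v (u θ) = s θ ∧
      u (s θ) = s θ ∧
    ∃ r r' : M, u r' = r ∧ u r = r' ∧ c r * r = 1 ∧ r * v r * θ = 1 ∧ c r' * r' = 1 ∧
      v r' * r' = 1 ∧ 1 + θ + θ * s θ ≠ 0 ∧ 1 + u θ + u θ * s θ ≠ 0 ∧ 1 + θ + θ * u θ ≠ 0 ∧
      r = (1 + s θ + θ * s θ) / (1 + θ + θ * s θ) ∧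
      r' = (1 + s θ + u θ * s θ) / (1 + u θ + u θ * s θ) ∧
      v r = (1 + u θ + θ * u θ) / (1 + θ + θ * u θ) := by
  have e1 : s (s θ) = θ := H2.ss θ
  have e2 : s (u θ) = u θ := by
    rw [hθd, map_add, map_mul, H1.uω, map_add, map_mul, H1.sω, H3.su, H3.su]
  have e3 : u (s θ) = s θ := by
    rw [hθd, map_add, map_mul, H1.sω, map_add, map_mul, H1.uω, H3.us, H3.us]
  have e4 : u (u θ) = θ := H2.uu θ
  have e5 : v θ = θ := by
    rw [hθd, map_add, map_mul, H1.vω, H1.vL, H1.vL]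
  have e6 : v (s θ) = u θ := by
    rw [hθd, map_add, map_mul, H1.sω, map_add, map_mul, H1.vω, H3.vs, H3.vs, map_add, map_mul,
      H1.uω]
  have e7 : v (u θ) = s θ := by rw [← e6, H2.vv]
  have hd : (algebraMap k M (d : k)) = algebraMap L M (algebraMap k L d) :=
    IsScalarTower.algebraMap_apply k L M _
  have e8 : c θ * θ = 1 := by
    have h1 : algebraMap L M (t₀ ^ 2 - algebraMap k L d * t₁ ^ 2) = 1 := by rw [ht, map_one]
    rw [map_sub, map_mul, map_pow, map_pow, ← hd] at h1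
    rw [hθd, map_add, map_mul, H1.cω, H1.cL, H1.cL]
    linear_combination h1 - (algebraMap L M t₁) ^ 2 * H1.ωω
  have e9 : c (s θ) * s θ = 1 := by rw [H2.cs, ← map_mul, e8, map_one]
  have e10 : c (u θ) * u θ = 1 := by rw [H2.cu, ← map_mul, e8, map_one]
  have hne : θ ≠ s θ := by
    intro h1
    have h2 : θ + c θ = 2 * algebraMap L M t₀ := by
      rw [hθd, map_add, map_mul, H1.cω, H1.cL, H1.cL]
      ring
    have h3 : s (θ + c θ) = θ + c θ := by
      rw [map_add, ← H2.cs, ← h1]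
    rw [h2, map_mul, map_ofNat] at h3
    have h4 := mul_left_cancel₀ two_ne_zero h3
    obtain ⟨a, ha⟩ := H3.fix _ h4
    exact htk a ha
  have hne2 : θ ≠ u θ := by
    intro h1
    apply hne
    have h2 := congrArg v h1
    rwa [e5, e7] at h2
  have hne3 : s θ ≠ u θ := by
    intro h1
    apply hne
    have h2 := congrArg u h1
    rw [e3, e4] at h2
    exact h2.symm
  have hprod : θ * s θ * u θ = 1 := by
    refine prod_roots (A := algebraMap k M a₀ + algebraMap k M a₁ * ω)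
      (B := algebraMap k M b₀ + algebraMap k M b₁ * ω) hθ ?_ ?_ hne hne2 hne3
    · have h1 := congrArg s hθ
      simpa only [map_add, map_mul, map_pow, map_one, AlgHom.commutes, H1.sω] using h1
    · have h1 := congrArg u hθ
      simpa only [map_add, map_mul, map_pow, map_one, AlgHom.commutes, H1.uω] using h1
  obtain ⟨r, r', f1, f2, f3, f4, f5, f6, f7, f8, f9, f10, f11, f12⟩ :=
    r_alg (st := c.toRingHom) (s12 := s.toRingHom) (s13 := u.toRingHom)
      (s23 := v.toRingHom) (x := θ) (y := s θ) (z := u θ)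
      rfl e2 e1 rfl e3 e4 e5 e6 e7 e8 e9 e10 hprod hne
  exact ⟨e8, hprod, e5, e6, e7, e3, r, r', f1, f2, f3, f4, f5, f6, f7, f8, f9, f10, f11, f12⟩

/-- The element of the quaternion algebra. -/
theorem exists_q0 (cr : CRt δ d) (fr : QFr ι α β i j)
    (hφ : ∀ q, φ q = ι q.re + ι q.imI * i + ι q.imJ * j + ι q.imK * (i * j))
    (H1 : MD1 (L := L) (d : k) Δ s u v c T ω) (H4 : MD4 ι φ δ η ψ v c T ω) {θ r : M}
    (hvθ : v θ = θ) (hr : c r * r = 1) (hrv : r * v r * θ = 1) {z z' : D}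
    (hzb : Bar φ δ z z') (hzz : z * z' = ψ θ) (hzs : z * star z = 1) :
    ∃ q₀ : Qt α β, nrd q₀ = 1 ∧ z * ψ r = φ q₀ := by
  have b1 : Bar φ δ (z * ψ r) (ψ (v r) * z') := hzb.mul cr hφ (H4.pv r)
  have e1 : star (z * ψ r) * (z * ψ r) = 1 := by
    have hz0 : z ≠ 0 := by
      rintro rfl
      rw [zero_mul] at hzs
      exact zero_ne_one hzs
    have h1 : star z * z = 1 := by
      rw [eq_inv_of_mul_eq_one_right hzs, inv_mul_cancel₀ hz0]
    rw [star_mul, H4.pc]
    calc ψ (c r) * star z * (z * ψ r) = ψ (c r) * (star z * z) * ψ r := by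
          simp only [mul_assoc]
      _ = 1 := by rw [h1, mul_one, ← map_mul, hr, map_one]
  have hθ0 : θ ≠ 0 := by
    rintro rfl
    rw [mul_zero] at hrv
    exact zero_ne_one hrv
  have hcen : ψ θ * z = z * ψ θ := by
    -- `z z' = z' z`
    have h1 : z' * z = z * z' := hzb.comm cr hφ
    rw [← hzz, mul_assoc, h1]
  have e2 : ψ (v r) * z' * (z * ψ r) = 1 := by
    have h1 : z' * z = ψ θ := by rw [hzb.comm cr hφ, hzz]
    calc ψ (v r) * z' * (z * ψ r) = ψ (v r) * (z' * z) * ψ r := by simp only [mul_assoc]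
      _ = ψ (v r * θ * r) := by rw [h1, ← map_mul, ← map_mul]
      _ = 1 := by
        rw [show v r * θ * r = r * v r * θ by ring, hrv, map_one]
  have hw0 : z * ψ r ≠ 0 := by
    intro h0
    rw [h0, mul_zero] at e1
    exact zero_ne_one e1
  have e3 : star (z * ψ r) = ψ (v r) * z' := mul_right_cancel₀ hw0 (e1.trans e2.symm)
  obtain ⟨q₀, q₁, h1, h2⟩ := b1
  have h3 : star (z * ψ r) = φ (star q₀) + δ * φ (-star q₁) := by
    rw [h1, star_add, star_mul, star_qhom fr hφ, star_qhom fr hφ, cr.st, map_neg, mul_neg,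
      mul_neg, cr.comm]
  rw [e3, h2] at h3
  have h4 : φ 0 + δ * φ (star q₁ - -star q₁) = 0 := by
    rw [map_zero, zero_add, map_sub, mul_sub]
    exact sub_eq_zero.mpr (add_left_cancel h3)
  have h5 := (phi_inj cr fr hφ h4).2
  have h6 : star q₁ = 0 := by
    have h7 : star q₁ + star q₁ = 0 := by rw [← h5]; abel
    have h8 : algebraMap L (Qt α β) 2 * star q₁ = 0 := by
      rw [map_ofNat, two_mul, h7]
    have h9 : φ (algebraMap L (Qt α β) 2) * φ (star q₁) = 0 := by rw [← map_mul, h8, map_zero]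
    rw [phi_alg hφ] at h9
    refine qhom_inj fr hφ ((mul_eq_zero.mp h9).resolve_left ?_)
    exact (_root_.map_ne_zero _).mpr two_ne_zero
  have h7 : q₁ = 0 := by rw [← star_star q₁, h6, star_zero]
  rw [h7, map_zero, mul_zero, add_zero] at h1
  refine ⟨q₀, ?_, h1⟩
  have h8 : φ (star q₀) * φ q₀ = 1 := by
    rw [← star_qhom fr hφ, ← h1, e1]
  rw [← map_mul, star_mul_self_qt, phi_alg hφ] at h8
  exact ι.toRingHom.injective (by rw [map_one]; exact h8)

/-- The coordinates of the second element. -/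
theorem coords_r' (H1 : MD1 (L := L) (d : k) Δ s u v c T ω) {r' : M} (h1 : c r' * r' = 1)
    (h2 : v r' * r' = 1) : ∃ x₀ x₃ : L, r' = algebraMap L M x₀ + algebraMap L M x₃ * T * ω ∧
      x₀ ^ 2 - algebraMap k L (d * Δ) * x₃ ^ 2 = 1 ∧ 2 * algebraMap L M x₀ = r' + c r' := by
  have hr0 : r' ≠ 0 := by
    rintro rfl
    rw [mul_zero] at h1
    exact zero_ne_one h1
  have h3 : c r' = v r' := mul_right_cancel₀ hr0 (h1.trans h2.symm)
  obtain ⟨x₀, x₁, x₂, x₃, hx⟩ := H1.coord r'
  have hc : c r' = algebraMap L M x₀ + algebraMap L M x₁ * T -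
      (algebraMap L M x₂ + algebraMap L M x₃ * T) * ω := by
    rw [hx]
    simp only [map_add, map_mul, H1.cL, H1.cT, H1.cω]
    ring
  have hv : v r' = algebraMap L M x₀ - algebraMap L M x₁ * T +
      (algebraMap L M x₂ - algebraMap L M x₃ * T) * ω := by
    rw [hx]
    simp only [map_add, map_mul, H1.vL, H1.vT, H1.vω]
    ring
  have h4 : algebraMap L M x₁ * T = algebraMap L M x₂ * ω := by
    have h5 : (2 : M) * (algebraMap L M x₁ * T) = 2 * (algebraMap L M x₂ * ω) := by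
      linear_combination h3 - hc + hv
    exact mul_left_cancel₀ two_ne_zero h5
  -- apply `v`
  have h5 : algebraMap L M x₁ * T = 0 := by
    have h6 := congrArg v h4
    simp only [map_mul, H1.vL, H1.vT, H1.vω] at h6
    have h7 : (2 : M) * (algebraMap L M x₁ * T) = 0 := by linear_combination h4 - h6
    exact (mul_eq_zero.mp h7).resolve_left two_ne_zero
  rw [h5] at h4 hx
  rw [add_mul, ← h4] at hx
  refine ⟨x₀, x₃, by rw [hx]; ring, ?_, ?_⟩
  · have h6 : c r' * r' = algebraMap L M (x₀ ^ 2 - algebraMap k L (d * Δ) * x₃ ^ 2) := by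
      have e1 : algebraMap L M (algebraMap k L (d * Δ)) = (T * T) * (ω * ω) := by
        rw [H1.TT, H1.ωω, ← IsScalarTower.algebraMap_apply, ← map_mul, mul_comm]
      rw [map_sub, map_mul, map_pow, map_pow, e1, hx]
      simp only [map_add, map_mul, map_zero, H1.cL, H1.cT, H1.cω]
      ring
    rw [h1] at h6
    exact (algebraMap L M).injective (by rw [← h6, map_one])
  · rw [hx]
    simp only [map_add, map_mul, map_zero, H1.cL, H1.cT, H1.cω]
    ring

end Vale.Agent.P011.Six.H422
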