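import Vale.Agent.P011.Six.H422.OV
import Vale.Agent.P011.Six.H422.RStep

/-!
The closeness to one of the factors of the decomposition.
-/

open Module NumberField IsDedekindDomain

set_option linter.unusedSectionVars false

namespace Vale.Agent.P011.Six.H422

open Vale.Agent.P011.Arith Vale.Agent.P011.Even Vale.Agent.P011.MPQ Vale.Agent.P011.One

variable {k D : Type} [Field k] [NumberField k] [DivisionRing D] [StarRing D] [Algebra k D]
    {L : Type} [Field L] [NumberField L] [Algebra k L] {ι : L →ₐ[k] D} {δ : D} {d : kˣ} {Δ : k}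
    {α β : Lˣ} {i j : D} {φ : Qt α β →+* D} {η : Qt α β}
    {M : Type} [Field M] [NumberField M] [Algebra k M] [Algebra L M] [IsScalarTower k L M]
    {ψ : M →ₐ[k] D} {s u v c : M →ₐ[k] M} {T ω : M} {P : HeightOneSpectrum (𝓞 k)}

theorem ml_L {g : k} (hg : g ≠ 0) {x : L} : ml M P g (algebraMap L M x) ↔ ml L P g x := by
  have h0 : algebraMap k M g ≠ 0 := (_root_.map_ne_zero _).mpr hg
  have h0' : algebraMap k L g ≠ 0 := (_root_.map_ne_zero _).mpr hg
  have e : algebraMap k M g = algebraMap L M (algebraMap k L g) :=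
    IsScalarTower.algebraMap_apply k L M g
  constructor
  · rintro ⟨m, hm, he⟩
    have h1 : m = algebraMap L M (x / algebraMap k L g) := by
      rw [map_div₀, he, e, mul_div_cancel_left₀]
      rw [← e]
      exact h0
    refine ⟨x / algebraMap k L g, OV_L.mp (h1 ▸ hm), by field_simp⟩
  · rintro ⟨m, hm, rfl⟩
    exact ⟨algebraMap L M m, OV_L.mpr hm, by rw [map_mul, e]⟩

/-- The element `θ` is close to one in the maximal subfield. -/
theorem theta_near (H1 : MD1 (L := L) (d : k) Δ s u v c T ω) {g κ : k} (hg : g ≠ 0) (hκ : κ ≠ 0)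
    (hκ1 : P.valuation k κ ≤ 1) (hκd : P.valuation k (κ * d) ≤ 1) {t₀ t₁ : L}
    (h0 : ml L P (g * κ) (t₀ - 1)) (h1 : ml L P (g * κ) t₁) :
    ml M P g (algebraMap L M t₀ + algebraMap L M t₁ * ω - 1) := by
  have hκω : algebraMap k M κ * ω ∈ OV M P := by
    apply OV_sq
    have e : algebraMap k M κ * ω * (algebraMap k M κ * ω) = algebraMap k M (κ * (κ * d)) := by
      rw [map_mul, map_mul, ← H1.ωω]
      ring
    rw [e]
    refine OV_k ?_
    rw [map_mul]
    exact mul_le_one' hκ1 hκd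
  have hgκ : g * κ ≠ 0 := mul_ne_zero hg hκ
  have e : algebraMap L M t₀ + algebraMap L M t₁ * ω - 1 =
      algebraMap L M (t₀ - 1) + algebraMap L M t₁ * ω := by
    rw [map_sub, map_one]; ring
  rw [e]
  refine ml.add (((ml_L hgκ).mpr h0).mono ?_) ?_
  · rw [map_mul]
    exact (mul_le_mul' le_rfl hκ1).trans (mul_one _).le
  · obtain ⟨x, hx, he⟩ := (ml_L (M := M) hgκ).mpr h1
    rw [he]
    refine ⟨x * (algebraMap k M κ * ω), mul_mem hx hκω, ?_⟩
    rw [map_mul]
    ring

/-- The coordinates of an element close to one. -/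
theorem coords_near (H1 : MD1 (L := L) (d : k) Δ s u v c T ω) {g : k} (hg : g ≠ 0) {r : M}
    (hr : ml M P g (r - 1)) {x₀ x₁ x₂ x₃ : L} (hx : r = algebraMap L M x₀ + algebraMap L M x₁ * T +
      (algebraMap L M x₂ + algebraMap L M x₃ * T) * ω) :
    ml L P g (4 * (x₀ - 1)) ∧ ml L P (g * g) (16 * (algebraMap k L Δ * x₁ ^ 2)) ∧
      ml L P (g * g) (16 * (algebraMap k L d * x₂ ^ 2)) ∧
      ml L P (g * g) (16 * (algebraMap k L d * algebraMap k L Δ * x₃ ^ 2)) := by
  have hgg : g * g ≠ 0 := mul_ne_zero hg hg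
  have h1 : ml M P g (v r - 1) := by
    have := hr.map v
    rwa [map_sub, map_one] at this
  have h2 : ml M P g (c r - 1) := by
    have := hr.map c
    rwa [map_sub, map_one] at this
  have h3 : ml M P g (c (v r) - 1) := by
    have := h1.map c
    rwa [map_sub, map_one] at this
  have hc : c r = algebraMap L M x₀ + algebraMap L M x₁ * T -
      (algebraMap L M x₂ + algebraMap L M x₃ * T) * ω := by
    rw [hx]
    simp only [map_add, map_mul, H1.cL, H1.cT, H1.cω]
    ring
  have hv : v r = algebraMap L M x₀ - algebraMap L M x₁ * T +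
      (algebraMap L M x₂ - algebraMap L M x₃ * T) * ω := by
    rw [hx]
    simp only [map_add, map_mul, H1.vL, H1.vT, H1.vω]
    ring
  have hcv : c (v r) = algebraMap L M x₀ - algebraMap L M x₁ * T -
      (algebraMap L M x₂ - algebraMap L M x₃ * T) * ω := by
    rw [hv]
    simp only [map_add, map_sub, map_mul, H1.cL, H1.cT, H1.cω]
    ring
  have eΔ : algebraMap L M (algebraMap k L Δ) = T * T := by
    rw [H1.TT, ← IsScalarTower.algebraMap_apply]
  have ed : algebraMap L M (algebraMap k L (d : k)) = ω * ω := by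
    rw [H1.ωω, ← IsScalarTower.algebraMap_apply]
  have e4 : algebraMap L M 4 = 4 := map_ofNat _ 4
  have e16 : algebraMap L M 16 = 16 := map_ofNat _ 16
  refine ⟨(ml_L (M := M) hg).mp ?_, (ml_L (M := M) hgg).mp ?_, (ml_L (M := M) hgg).mp ?_,
    (ml_L (M := M) hgg).mp ?_⟩
  · have h4 := ((hr.add h1).add h2).add h3
    have e : algebraMap L M (4 * (x₀ - 1)) = r - 1 + (v r - 1) + (c r - 1) + (c (v r) - 1) := by
      rw [hcv, hv, hc, hx, map_mul, map_sub, map_one, e4]
      ring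
    rwa [e]
  · have h4 : ml M P g (4 * (algebraMap L M x₁ * T)) := by
      have h5 := ((hr.sub h1).add h2).sub h3
      have e : (4 : M) * (algebraMap L M x₁ * T) =
          r - 1 - (v r - 1) + (c r - 1) - (c (v r) - 1) := by
        rw [hcv, hv, hc, hx]
        ring
      rwa [e]
    have e : algebraMap L M (16 * (algebraMap k L Δ * x₁ ^ 2)) =
        (4 * (algebraMap L M x₁ * T)) * (4 * (algebraMap L M x₁ * T)) := by
      rw [map_mul, map_mul, map_pow, e16, eΔ]
      ring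
    rw [e]
    exact h4.mul h4
  · have h4 : ml M P g (4 * (algebraMap L M x₂ * ω)) := by
      have h5 := ((hr.add h1).sub h2).sub h3
      have e : (4 : M) * (algebraMap L M x₂ * ω) =
          r - 1 + (v r - 1) - (c r - 1) - (c (v r) - 1) := by
        rw [hcv, hv, hc, hx]
        ring
      rwa [e]
    have e : algebraMap L M (16 * (algebraMap k L d * x₂ ^ 2)) =
        (4 * (algebraMap L M x₂ * ω)) * (4 * (algebraMap L M x₂ * ω)) := by
      rw [map_mul, map_mul, map_pow, e16, ed]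
      ring
    rw [e]
    exact h4.mul h4
  · have h4 : ml M P g (4 * (algebraMap L M x₃ * T * ω)) := by
      have h5 := ((hr.sub h1).sub h2).add h3
      have e : (4 : M) * (algebraMap L M x₃ * T * ω) =
          r - 1 - (v r - 1) - (c r - 1) + (c (v r) - 1) := by
        rw [hcv, hv, hc, hx]
        ring
      rwa [e]
    have e : algebraMap L M (16 * (algebraMap k L d * algebraMap k L Δ * x₃ ^ 2)) =
        (4 * (algebraMap L M x₃ * T * ω)) * (4 * (algebraMap L M x₃ * T * ω)) := by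
      rw [map_mul, map_mul, map_mul, map_pow, e16, ed, eΔ]
      ring
    rw [e]
    exact h4.mul h4

/-- The quaternion of the first factor. -/
theorem q0_eq (cr : CRt δ d) (fr : QFr ι α β i j)
    (hφ : ∀ q, φ q = ι q.re + ι q.imI * i + ι q.imJ * j + ι q.imK * (i * j))
    (H4 : MD4 ι φ δ η ψ v c T ω) {r : M} {x₀ x₁ x₂ x₃ : L}
    (hx : r = algebraMap L M x₀ + algebraMap L M x₁ * T +
      (algebraMap L M x₂ + algebraMap L M x₃ * T) * ω) {z : D} {c₀ c₁ q₀ : Qt α β}
    (hz : z = φ c₀ + δ * φ c₁) (hq : z * ψ r = φ q₀) :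
    q₀ = c₀ * (algebraMap L _ x₀ + algebraMap L _ (algebraMap k L d * x₃) * η) +
      algebraMap L _ (algebraMap k L d) * (c₁ * (algebraMap L _ x₂ + algebraMap L _ x₁ * η)) := by
  have hcen : ∀ (w : Qt α β) (x : L), φ w * ι x = ι x * φ w := by
    intro w x
    rw [← phi_alg hφ, ← map_mul, ← map_mul, Algebra.commutes]
  have e1 : ψ r = φ (algebraMap L _ x₀ + algebraMap L _ (algebraMap k L d * x₃) * η) +
      δ * φ (algebraMap L _ x₂ + algebraMap L _ x₁ * η) := by
    rw [hx]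
    simp only [map_add, map_mul, H4.pL, H4.pT, H4.pω, phi_alg hφ]
    have e2 : ι x₁ * (δ * φ η) = δ * (ι x₁ * φ η) := by
      rw [← mul_assoc, ← cr.comm, mul_assoc]
    have e3 : (ι x₂ + ι x₃ * (δ * φ η)) * δ = δ * ι x₂ + ι (algebraMap k L d) * ι x₃ * φ η := by
      rw [add_mul, ← cr.comm, AlgHom.commutes, ← cr.sq]
      congr 1
      calc ι x₃ * (δ * φ η) * δ = ι x₃ * δ * (φ η * δ) := by simp only [mul_assoc]
        _ = δ * (ι x₃ * δ) * φ η := by
          rw [← cr.comm (φ η), ← cr.comm (ι x₃)]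
          simp only [mul_assoc]
          rw [← mul_assoc (ι x₃) δ, ← cr.comm (ι x₃)]
          simp only [mul_assoc]
        _ = δ * δ * ι x₃ * φ η := by
          rw [← cr.comm (ι x₃)]
          simp only [mul_assoc]
    rw [e2, e3, mul_add]
    abel
  have hc' : φ (algebraMap L (Qt α β) (algebraMap k L d)) = algebraMap k D d := by
    rw [phi_alg hφ, AlgHom.commutes]
  rw [hz, e1, cr.mul_form φ _ hc'] at hq
  have h2 : φ (c₀ * (algebraMap L _ x₀ + algebraMap L _ (algebraMap k L d * x₃) * η) +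
      algebraMap L _ (algebraMap k L d) * (c₁ * (algebraMap L _ x₂ + algebraMap L _ x₁ * η)) -
      q₀) + δ * φ (c₀ * (algebraMap L _ x₂ + algebraMap L _ x₁ * η) +
      c₁ * (algebraMap L _ x₀ + algebraMap L _ (algebraMap k L d * x₃) * η)) = 0 := by
    rw [map_sub, ← hq]
    abel
  exact (sub_eq_zero.mp (phi_inj cr fr hφ h2).1).symm

theorem nrd_lin' {η : Qt α β} (h0 : η.re = 0) (x y : L) :
    nrd (algebraMap L _ x + algebraMap L _ y * η) = x ^ 2 + y ^ 2 * nrd η := by
  simp only [nrd, QuaternionAlgebra.algebraMap_eq, QuaternionAlgebra.re_add,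
    QuaternionAlgebra.imI_add, QuaternionAlgebra.imJ_add, QuaternionAlgebra.imK_add,
    QuaternionAlgebra.re_mul, QuaternionAlgebra.imI_mul, QuaternionAlgebra.imJ_mul,
    QuaternionAlgebra.imK_mul, h0]
  ring

/-- The first factor is close to one at the ramified places. -/
theorem q0_near {w : Valuation L Z0} (hw : β ∉ NF α ⊔ LS w) (h0 : η.re = 0)
    (hn : algebraMap k L d * nrd η = -algebraMap k L Δ) {x₀ x₁ x₂ x₃ : L} {a b : Z0}
    (ha1 : a ≤ 1) (h1 : w (4 * (x₀ - 1)) ≤ a)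
    (h2 : w (16 * (algebraMap k L Δ * x₁ ^ 2)) ≤ a)
    (h3 : w (16 * (algebraMap k L d * x₂ ^ 2)) ≤ a)
    (h4 : w (16 * (algebraMap k L d * algebraMap k L Δ * x₃ ^ 2)) ≤ a) {c₀ c₁ q₀ : Qt α β}
    (hq : q₀ = c₀ * (algebraMap L _ x₀ + algebraMap L _ (algebraMap k L d * x₃) * η) +
      algebraMap L _ (algebraMap k L d) * (c₁ * (algebraMap L _ x₂ + algebraMap L _ x₁ * η)))
    (hc0 : w (nrd (c₀ - 1)) ≤ a) (hc1 : w (algebraMap k L d * nrd c₁) ≤ 1)
    (hab : a < w (16 ^ 3) * b) : w (nrd (q₀ - 1)) < b := by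
  obtain ⟨ρ₀, hρ₀⟩ : ∃ ρ, ρ = algebraMap L (Qt α β) x₀ +
    algebraMap L _ (algebraMap k L d * x₃) * η := ⟨_, rfl⟩
  obtain ⟨ρ₁, hρ₁⟩ : ∃ ρ, ρ = algebraMap L (Qt α β) x₂ + algebraMap L _ x₁ * η := ⟨_, rfl⟩
  rw [← hρ₀, ← hρ₁] at hq
  have w16 : w 16 ≤ 1 := by
    have : (16 : L) = 4 * 4 := by norm_num
    rw [this, map_mul]
    exact mul_le_one' (val_four_le w) (val_four_le w)
  have n0 : nrd ρ₀ = x₀ ^ 2 - algebraMap k L d * algebraMap k L Δ * x₃ ^ 2 := by
    rw [hρ₀, nrd_lin' h0]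
    linear_combination (algebraMap k L d * x₃ ^ 2) * hn
  have n1 : nrd (ρ₀ - 1) = (x₀ - 1) ^ 2 - algebraMap k L d * algebraMap k L Δ * x₃ ^ 2 := by
    have e : ρ₀ - 1 = algebraMap L _ (x₀ - 1) + algebraMap L _ (algebraMap k L d * x₃) * η := by
      rw [hρ₀, map_sub, map_one]
      abel
    rw [e, nrd_lin' h0]
    linear_combination (algebraMap k L d * x₃ ^ 2) * hn
  have n2 : algebraMap k L d * nrd ρ₁ = algebraMap k L d * x₂ ^ 2 - algebraMap k L Δ * x₁ ^ 2 := by
    rw [hρ₁, nrd_lin' h0]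
    linear_combination (x₁ ^ 2) * hn
  have h1' : w (16 * (x₀ - 1) ^ 2) ≤ a := by
    have e : 16 * (x₀ - 1) ^ 2 = 4 * (x₀ - 1) * (4 * (x₀ - 1)) := by ring
    rw [e, map_mul]
    exact (mul_le_mul' h1 (h1.trans ha1)).trans (mul_one _).le
  have m1 : w (16 * nrd (ρ₀ - 1)) ≤ a := by
    rw [n1, mul_sub]
    exact (Valuation.map_sub _ _ _).trans (max_le h1' h4)
  have m2 : w (16 * (algebraMap k L d * nrd ρ₁)) ≤ a := by
    rw [n2, mul_sub]
    exact (Valuation.map_sub _ _ _).trans (max_le h3 h2)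
  have m0 : w (16 * nrd ρ₀) ≤ 1 := by
    have e : 16 * nrd ρ₀ = (4 * (x₀ - 1) + 4) ^ 2 -
        16 * (algebraMap k L d * algebraMap k L Δ * x₃ ^ 2) := by
      rw [n0]; ring
    rw [e]
    refine (Valuation.map_sub _ _ _).trans (max_le ?_ (h4.trans ha1))
    rw [map_pow]
    refine pow_le_one' ?_ 2
    exact (Valuation.map_add _ _ _).trans (max_le (h1.trans ha1) (val_four_le w))
  -- the two parts
  have hX : w 16 * w (nrd ((c₀ - 1) * ρ₀)) ≤ a := by
    rw [nrd_mul, map_mul, mul_left_comm, ← map_mul w 16]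
    exact (mul_le_mul' hc0 m0).trans (mul_one _).le
  have hY : w 16 * (w 16 * w (nrd ((ρ₀ - 1) + algebraMap L _ (algebraMap k L d) * (c₁ * ρ₁)))) ≤
      a := by
    have h5 := mul_le_mul' (le_refl (w 16))
      (ram_add hw (ρ₀ - 1) (algebraMap L _ (algebraMap k L d) * (c₁ * ρ₁)))
    refine h5.trans ?_
    rw [mul_max]
    refine max_le ?_ ?_
    · rw [← map_mul]
      exact m1
    · have e : nrd (algebraMap L (Qt α β) (algebraMap k L d) * (c₁ * ρ₁)) =
          algebraMap k L d * nrd c₁ * (algebraMap k L d * nrd ρ₁) := by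
        have e2 : nrd (algebraMap L (Qt α β) (algebraMap k L d)) = algebraMap k L d ^ 2 := by
          simp [nrd, QuaternionAlgebra.algebraMap_eq]
        rw [nrd_mul, nrd_mul, e2]
        ring
      rw [e, map_mul, mul_left_comm, ← map_mul w 16]
      exact (mul_le_mul' hc1 m2).trans (one_mul _).le
  have e : q₀ - 1 = (c₀ - 1) * ρ₀ +
      ((ρ₀ - 1) + algebraMap L _ (algebraMap k L d) * (c₁ * ρ₁)) := by
    rw [hq]
    noncomm_ring
  have h6 := ram_add hw ((c₀ - 1) * ρ₀)
    ((ρ₀ - 1) + algebraMap L _ (algebraMap k L d) * (c₁ * ρ₁))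
  rw [← e] at h6
  have h7 : w (16 ^ 3) * w (nrd (q₀ - 1)) ≤ a := by
    have h8 := mul_le_mul' (le_refl (w 16 * w 16)) h6
    have e3 : w (16 ^ 3) * w (nrd (q₀ - 1)) = w 16 * w 16 * (w 16 * w (nrd (q₀ - 1))) := by
      rw [map_pow, pow_succ, pow_two, mul_assoc]
    rw [e3]
    refine h8.trans ?_
    rw [mul_max]
    refine max_le ?_ ?_
    · rw [mul_assoc]
      exact (mul_le_mul' w16 hX).trans (one_mul _).le
    · rw [mul_assoc]
      exact hY
  have h9 := h7.trans_lt hab
  have h10 : (0 : Z0) < w (16 ^ 3) :=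
    zero_lt_iff.mpr ((Valuation.ne_zero_iff _).mpr (by norm_num))
  exact (mul_lt_mul_iff_right₀ h10).mp h9

end Vale.Agent.P011.Six.H422
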