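import Vale.Agent.P011.Six.H422.Emb

/-!
Pure quaternions anticommuting with a given one, and the class of the quaternion algebra.
-/

open Module NumberField IsDedekindDomain

set_option linter.unusedSectionVars false

namespace Vale.Agent.P011.Six.H422

open Vale.Agent.P011.Arith Vale.Agent.P011.Even Vale.Agent.P011.MPQ Vale.Agent.P011.One

variable {F : Type} [Field F] [NumberField F] {α β ε : Fˣ}

/-- A pure quaternion anticommuting with a given one. -/
theorem exists_anti (ha : Aniso α β) {e₁ e₂ e₃ : F}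
    (he : (ε : F) = α * e₁ ^ 2 + β * e₂ ^ 2 - α * β * e₃ ^ 2) :
    ∃ (c : Qt α β) (β₀ : Fˣ), c.re = 0 ∧ (β₀ : F) = -nrd c ∧
      (∀ f : F, c * (⟨0, f * e₁, f * e₂, f * e₃⟩ : Qt α β) =
        -((⟨0, f * e₁, f * e₂, f * e₃⟩ : Qt α β) * c)) ∧
      β₀ * β⁻¹ ∈ NF α ∧ ε * α ∈ NF β₀ := by
  have hα := α.ne_zero
  have hβ := β.ne_zero
  by_cases h0 : e₂ = 0 ∧ e₃ = 0
  · obtain ⟨rfl, rfl⟩ := h0
    refine ⟨⟨0, 0, 1, 0⟩, β, rfl, by rw [nrd_mk]; ring, fun f => ?_, ?_, ?_⟩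
    · ext
      · simp only [QuaternionAlgebra.re_mul, QuaternionAlgebra.re_neg]; ring
      · simp only [QuaternionAlgebra.imI_mul, QuaternionAlgebra.imI_neg]; ring
      · simp only [QuaternionAlgebra.imJ_mul, QuaternionAlgebra.imJ_neg]; ring
      · simp only [QuaternionAlgebra.imK_mul, QuaternionAlgebra.imK_neg]; ring
    · rw [mul_inv_cancel]
      exact one_mem _
    · exact ⟨α * e₁, 0, by rw [Units.val_mul, he]; ring⟩
  · have h1 : ((α : F) * e₃) ^ 2 - α * e₂ ^ 2 ≠ 0 := by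
      intro h1
      have h2 : nrd (⟨α * e₃, e₂, 0, 0⟩ : Qt α β) = 0 := by
        rw [nrd_mk]; linear_combination h1
      have h3 := ha _ h2
      have h4 := congrArg QuaternionAlgebra.re h3
      have h5 := congrArg QuaternionAlgebra.imI h3
      change (α : F) * e₃ = 0 at h4
      change e₂ = 0 at h5
      exact h0 ⟨h5, (mul_eq_zero.mp h4).resolve_left hα⟩
    have h2 : (β : F) * (((α : F) * e₃) ^ 2 - α * e₂ ^ 2) ≠ 0 := mul_ne_zero hβ h1
    refine ⟨⟨0, 0, α * e₃, e₂⟩, Units.mk0 _ h2, rfl, ?_, fun f => ?_, ?_, ?_⟩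
    · rw [Units.val_mk0, nrd_mk]; ring
    · ext
      · simp only [QuaternionAlgebra.re_mul, QuaternionAlgebra.re_neg]; ring
      · simp only [QuaternionAlgebra.imI_mul, QuaternionAlgebra.imI_neg]; ring
      · simp only [QuaternionAlgebra.imJ_mul, QuaternionAlgebra.imJ_neg]; ring
      · simp only [QuaternionAlgebra.imK_mul, QuaternionAlgebra.imK_neg]; ring
    · refine ⟨α * e₃, e₂, ?_⟩
      rw [Units.val_mul, Units.val_mk0, Units.val_inv_eq_inv_val]
      field_simp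
    · refine ⟨α * e₁, 1, ?_⟩
      rw [Units.val_mul, Units.val_mk0, he]
      ring

/-- The quaternion algebra of the third conjugate is not more ramified. -/
theorem cls_step {w : Valuation F Z0} {β₀ n : Fˣ} (h1 : β₀ * β⁻¹ ∈ NF α)
    (h2 : ε * α ∈ NF β₀) (h3 : β ∈ NF α ⊔ LS w) (h4 : n ∈ NF ε ⊔ LS w) :
    β₀ * n ∈ NF ε ⊔ LS w := by
  refine mul_mem ?_ h4
  have h5 : β₀ ∈ NF α ⊔ LS w := by
    have h6 : β₀ = β₀ * β⁻¹ * β := by rw [inv_mul_cancel_right]
    rw [h6]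
    exact mul_mem (Subgroup.mem_sup_left h1) h3
  have h6 := mem_symm _ _ h5
  have h7 : ε = ε * α * α⁻¹ := by rw [mul_inv_cancel_right]
  have h8 : ε ∈ NF β₀ ⊔ LS w := by
    rw [h7]
    exact mul_mem (Subgroup.mem_sup_left h2) (inv_mem h6)
  exact mem_symm _ _ h8

/-- Norms from two quadratic extensions. -/
theorem cls_mul {w : Valuation F Z0} {a b n : Fˣ} (h1 : n ∈ NF a ⊔ LS w)
    (h2 : n ∈ NF b ⊔ LS w) : n ∈ NF (a * b) ⊔ LS w :=
  mem_symm _ _ (mul_mem (mem_symm _ _ h1) (mem_symm _ _ h2))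

end Vale.Agent.P011.Six.H422
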