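import Vale.Agent.P011.Six.H422.Close
import Vale.Agent.P011.Six.H422.Cls

/-!
The frame of the third quaternion algebra, with its ramification.
-/

open Module NumberField IsDedekindDomain

set_option linter.unusedSectionVars false

namespace Vale.Agent.P011.Six.H422

open Vale.Agent.P011.Arith Vale.Agent.P011.Even Vale.Agent.P011.MPQ Vale.Agent.P011.One

variable {k D : Type} [Field k] [NumberField k] [DivisionRing D] [StarRing D] [Algebra k D]
    {L : Type} [Field L] [NumberField L] [Algebra k L] {ι : L →ₐ[k] D} {δ : D} {d : kˣ}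
    {α β : Lˣ} {i j : D} {φ : Qt α β →+* D} {p q : k} {y : L}

variable [Fact (∀ r : L, r ^ 2 ≠ algebraMap k L (dsc p q) + 0 * r)]

/-- The product of the other two conjugates. -/
theorem Gen.exists_nn (h : Gen y p q) (x : Lˣ) : ∃ n : Lˣ,
    algebraMap L (EE L (algebraMap k L (dsc p q))) n = h.s12 (algebraMap L (EE L (algebraMap k L (dsc p q))) x) * h.s13 (algebraMap L (EE L (algebraMap k L (dsc p q))) x) ∧
    ∃ a b : L, (n : L) = a ^ 2 - algebraMap k L (dsc p q) * b ^ 2 := by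
  obtain ⟨X, hX⟩ : ∃ X, X = h.s12 (algebraMap L (EE L (algebraMap k L (dsc p q))) x) := ⟨_, rfl⟩
  have h1 : h.s13 (algebraMap L (EE L (algebraMap k L (dsc p q))) x) = s23 (L := L) k p q X := by rw [hX, h.j23_2]
  have h2 : X * s23 (L := L) k p q X =
      algebraMap L (EE L (algebraMap k L (dsc p q))) (X.re ^ 2 - algebraMap k L (dsc p q) * X.im ^ 2) := by
    rw [s23_re]
    ext
    · rw [QuadraticAlgebra.re_mul]
      change X.re * X.re + algebraMap k L (dsc p q) * X.im * -X.im =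
        X.re ^ 2 - algebraMap k L (dsc p q) * X.im ^ 2
      ring
    · rw [QuadraticAlgebra.im_mul]
      change X.re * -X.im + X.im * X.re + 0 * X.im * -X.im = 0
      ring
  have h3 : X.re ^ 2 - algebraMap k L (dsc p q) * X.im ^ 2 ≠ 0 := by
    intro h0
    rw [h0, map_zero, ← h1, hX] at h2
    rcases mul_eq_zero.mp h2 with h4 | h4
    · exact x.ne_zero ((map_eq_zero _).mp ((map_eq_zero _).mp h4))
    · exact x.ne_zero ((map_eq_zero _).mp ((map_eq_zero _).mp h4))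
  refine ⟨Units.mk0 _ h3, ?_, X.re, X.im, rfl⟩
  rw [h1, ← hX, h2]
  rfl

theorem Gen.nn_mem (h : Gen y p q) {n x : Lˣ} {Δ : Lˣ} (hΔ : (Δ : L) = algebraMap k L (dsc p q))
    (hn : algebraMap L (EE L (algebraMap k L (dsc p q))) n = h.s12 (algebraMap L (EE L (algebraMap k L (dsc p q))) x) * h.s13 (algebraMap L (EE L (algebraMap k L (dsc p q))) x)) :
    n ∈ NF Δ := by
  obtain ⟨n', hn', a, b, hab⟩ := h.exists_nn x
  rw [← hn] at hn'
  have h1 := (algebraMap L (EE L (algebraMap k L (dsc p q)))).injective hn'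
  exact ⟨a, b, by rw [← h1, hab, hΔ]⟩

/-- **The frame of the third algebra.** -/
theorem exists_frame3 (h : Gen y p q) (cr : CRt δ d) (fr : QFr ι α β i j)
    (hφ : ∀ q, φ q = ι q.re + ι q.imI * i + ι q.imJ * j + ι q.imK * (i * j))
    {η : Qt α β} (h0 : η.re = 0)
    (hn : algebraMap k L d * nrd η = -algebraMap k L (dsc p q))
    {g : D} (hg : g ≠ 0) (hgs : star g = -g)
    (hgx : ∀ x : (EE L (algebraMap k L (dsc p q))), g * iE cr hφ h0 hn x = iE cr hφ h0 hn (h.s13 x) * g)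
    {B : Lˣ} (hB : g * g = iE cr hφ h0 hn (h.s12 (algebraMap L (EE L (algebraMap k L (dsc p q))) B)))
    {e₀ : kˣ} {b n : Lˣ}
    (hb : algebraMap L (EE L (algebraMap k L (dsc p q))) n = h.s12 (algebraMap L (EE L (algebraMap k L (dsc p q))) b) * h.s13 (algebraMap L (EE L (algebraMap k L (dsc p q))) b))
    (hsgn : ∀ ψ : L →+* ℝ, ψ α < 0 → ψ β < 0 → 0 < ψ (algebraMap k L e₀ * b * B))
    (hnw : ∀ w : HeightOneSpectrum (𝓞 L), n ∈ NF (inc k L d) ⊔ LS (w.valuation L)) :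
    ∃ (η' : Qt α β) (h0' : η'.re = 0)
      (hn' : algebraMap k L d * nrd η' = -algebraMap k L (dsc p q)) (ε γ : Lˣ) (J : D),
      (ε : L) = algebraMap k L (d * dsc p q) ∧
      QFr (i3 h cr hφ h0' hn') ε γ (δ * (δ * φ η')) J ∧
      ∀ w : HeightOneSpectrum (𝓞 L), β ∈ NF α ⊔ LS (w.valuation L) →
        γ ∈ NF ε ⊔ LS (w.valuation L) := by
  have hd0 : algebraMap k L (d : k) ≠ 0 := (_root_.map_ne_zero _).mpr d.ne_zero
  have hΔ0 : algebraMap k L (dsc p q) ≠ 0 := (_root_.map_ne_zero _).mpr h.dsc_ne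
  obtain ⟨Δ, hΔ⟩ : ∃ Δ : Lˣ, (Δ : L) = algebraMap k L (dsc p q) := ⟨Units.mk0 _ hΔ0, rfl⟩
  obtain ⟨dL, hdL⟩ : ∃ dL : Lˣ, dL = inc k L d := ⟨_, rfl⟩
  have hdL' : (dL : L) = algebraMap k L d := by rw [hdL]; rfl
  -- the element `r`
  obtain ⟨l, hl⟩ : ∃ l : Lˣ, (l : L) = algebraMap k L e₀ * b * B :=
    ⟨inc k L e₀ * b * B, by rw [Units.val_mul, Units.val_mul]; rfl⟩
  obtain ⟨x₀, x₁, x₂, x₃, hx⟩ := Sch.quaternion_norm α β l fun ψ h1 h2 => by
    rw [hl]
    exact hsgn ψ h1 h2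
  obtain ⟨r, hr⟩ : ∃ r : Qt α β, nrd r = l := ⟨⟨x₀, x₁, x₂, x₃⟩, by rw [nrd_mk, hx]⟩
  have hr0 : r ≠ 0 := by
    rintro rfl
    have h1 : nrd (0 : Qt α β) = 0 := by simp [nrd]
    rw [h1] at hr
    exact l.ne_zero hr.symm
  have hR0 : φ r ≠ 0 := fun h1 => hr0 (qhom_inj fr hφ h1)
  obtain ⟨η', h0', hn', Q, -, hη', hQs, hQx, hQQ⟩ :=
    exists_Q h cr fr hφ h0 hn hg hgs hgx hB hr
  -- the element anticommuting with `η`
  obtain ⟨ε, hε⟩ : ∃ ε : Lˣ, ε = dL * Δ := ⟨_, rfl⟩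
  have hε' : (ε : L) = algebraMap k L (d * dsc p q) := by
    rw [hε, Units.val_mul, hdL', hΔ, map_mul]
  have hη : η = ⟨0, (algebraMap k L d)⁻¹ * (algebraMap k L d * η.imI),
      (algebraMap k L d)⁻¹ * (algebraMap k L d * η.imJ),
      (algebraMap k L d)⁻¹ * (algebraMap k L d * η.imK)⟩ := by
    ext
    · exact h0
    · exact (inv_mul_cancel_left₀ hd0 _).symm
    · exact (inv_mul_cancel_left₀ hd0 _).symm
    · exact (inv_mul_cancel_left₀ hd0 _).symm
  obtain ⟨c, β₀, hc0, hcβ, hca, hcl, hcε⟩ := exists_anti (ε := ε) fr.aniso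
    (e₁ := algebraMap k L d * η.imI) (e₂ := algebraMap k L d * η.imJ)
    (e₃ := algebraMap k L d * η.imK) (by
      have h1 : nrd η = η.re ^ 2 - α * η.imI ^ 2 - β * η.imJ ^ 2 + α * β * η.imK ^ 2 := rfl
      rw [h0] at h1
      rw [hε', map_mul]
      linear_combination (algebraMap k L d) * hn - (algebraMap k L d) ^ 2 * h1)
  have hca' := hca (algebraMap k L d)⁻¹
  rw [← hη] at hca'
  obtain ⟨c', hc0', hcn', hc'⟩ := pure_conj fr hφ hc0 hr0
  have hca'' : c' * η' = -(η' * c') := by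
    refine sub_eq_zero.mp (qhom_inj fr hφ ?_)
    rw [map_sub, sub_eq_zero, map_mul, map_neg, map_mul, hc', hη']
    have e1 : φ r * φ c * (φ r)⁻¹ * (φ r * φ η * (φ r)⁻¹) = φ r * φ (c * η) * (φ r)⁻¹ := by
      rw [map_mul]
      simp only [mul_assoc]
      rw [inv_mul_cancel_left₀ hR0]
    have e2 : φ r * φ η * (φ r)⁻¹ * (φ r * φ c * (φ r)⁻¹) = φ r * φ (η * c) * (φ r)⁻¹ := by
      rw [map_mul]
      simp only [mul_assoc]
      rw [inv_mul_cancel_left₀ hR0]
    rw [e1, e2, hca', map_neg, mul_neg, neg_mul]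
  -- the class
  obtain ⟨nB, hnB, -⟩ := h.exists_nn B
  obtain ⟨C, hC⟩ : ∃ C, C = (algebraMap L (EE L (algebraMap k L (dsc p q))) l * h.s13 (algebraMap L (EE L (algebraMap k L (dsc p q))) l) *
        h.s12 (algebraMap L (EE L (algebraMap k L (dsc p q))) B))⁻¹ := ⟨_, rfl⟩
  have hs13l : h.s13 (algebraMap L (EE L (algebraMap k L (dsc p q))) l) = algebraMap k (EE L (algebraMap k L (dsc p q))) e₀ * h.s13 (algebraMap L (EE L (algebraMap k L (dsc p q))) b) *
      h.s13 (algebraMap L (EE L (algebraMap k L (dsc p q))) B) := by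
    have e1 : algebraMap L (EE L (algebraMap k L (dsc p q))) (algebraMap k L e₀) = algebraMap k (EE L (algebraMap k L (dsc p q))) e₀ := rfl
    rw [hl, map_mul, map_mul, map_mul, map_mul, e1, AlgHom.commutes]
  have hB13 : h.s13 (h.s12 (algebraMap L (EE L (algebraMap k L (dsc p q))) B)) = h.s12 (algebraMap L (EE L (algebraMap k L (dsc p q))) B) := h.j13_2 _
  have hC13 : h.s13 C = C := by
    rw [hC, map_inv₀, map_mul, map_mul, h.r13, hB13, mul_comm (algebraMap L (EE L (algebraMap k L (dsc p q))) l)]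
  have hs23l : s23 (L := L) k p q (h.s13 (algebraMap L (EE L (algebraMap k L (dsc p q))) l)) = h.s12 (algebraMap L (EE L (algebraMap k L (dsc p q))) l) :=
    h.j23_3 _
  have hC23 : s23 (L := L) k p q C = (algebraMap L (EE L (algebraMap k L (dsc p q))) l * h.s12 (algebraMap L (EE L (algebraMap k L (dsc p q))) l) *
      h.s13 (algebraMap L (EE L (algebraMap k L (dsc p q))) B))⁻¹ := by
    rw [hC, map_inv₀, map_mul, map_mul, s23_L, hs23l, h.j23_2]
  have hs12l : h.s12 (algebraMap L (EE L (algebraMap k L (dsc p q))) l) = algebraMap k (EE L (algebraMap k L (dsc p q))) e₀ * h.s12 (algebraMap L (EE L (algebraMap k L (dsc p q))) b) *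
      h.s12 (algebraMap L (EE L (algebraMap k L (dsc p q))) B) := by
    have e1 : algebraMap L (EE L (algebraMap k L (dsc p q))) (algebraMap k L e₀) = algebraMap k (EE L (algebraMap k L (dsc p q))) e₀ := rfl
    rw [hl, map_mul, map_mul, map_mul, map_mul, e1, AlgHom.commutes]
  obtain ⟨m, hm⟩ : ∃ m : Lˣ, m = (l * inc k L e₀ * nB)⁻¹ := ⟨_, rfl⟩
  have hm' : algebraMap L (EE L (algebraMap k L (dsc p q))) m = (algebraMap L (EE L (algebraMap k L (dsc p q))) l * algebraMap k (EE L (algebraMap k L (dsc p q))) e₀ * algebraMap L (EE L (algebraMap k L (dsc p q))) nB)⁻¹ := by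
    have e1 : algebraMap L (EE L (algebraMap k L (dsc p q))) (inc k L e₀ : Lˣ) = algebraMap k (EE L (algebraMap k L (dsc p q))) e₀ := rfl
    rw [hm, Units.val_inv_eq_inv_val, map_inv₀, Units.val_mul, Units.val_mul, map_mul, map_mul, e1]
  have hCC : C * s23 (L := L) k p q C = algebraMap L (EE L (algebraMap k L (dsc p q))) (n⁻¹ * m ^ 2 : Lˣ) := by
    rw [hC23, hC, hs13l, hs12l, Units.val_mul, Units.val_pow_eq_pow_val, map_mul, map_pow,
      Units.val_inv_eq_inv_val, map_inv₀, hb, hm', hnB, ← mul_inv, inv_pow, ← mul_inv]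
    congr 1
    ring
  refine ⟨η', h0', hn', ε, β₀ * (n⁻¹ * m ^ 2), Q * φ c' * Q, hε', ?_, ?_⟩
  · refine frame3 h cr fr hφ h0' hn' hQs hQx (by rw [hQQ, ← hC]) hC13 hc0' hca'' hε' ?_
    rw [hCC, hcn', ← hcβ, Units.val_mul, map_mul]
  · intro w hw
    have h1 : n ∈ NF ε ⊔ LS (w.valuation L) := by
      rw [hε, hdL]
      exact cls_mul (hnw w) (Subgroup.mem_sup_left (h.nn_mem hΔ hb))
    refine cls_step hcl hcε hw (mul_mem (inv_mem h1) (Subgroup.mem_sup_left ⟨m, 0, ?_⟩))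
    rw [Units.val_pow_eq_pow_val]
    ring

end Vale.Agent.P011.Six.H422
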