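import Vale.Agent.P011.Six.H422.Core1

/-!
The elements of the centralizer of a cubic field.
-/

open Module NumberField IsDedekindDomain

set_option linter.unusedSectionVars false

namespace Vale.Agent.P011.Six.H422

open Vale.Agent.P011.Arith Vale.Agent.P011.Even Vale.Agent.P011.MPQ Vale.Agent.P011.One

variable {k D : Type} [Field k] [NumberField k] [DivisionRing D] [StarRing D] [Algebra k D]
    {L : Type} [Field L] [NumberField L] [Algebra k L] {ι : L →ₐ[k] D} {δ : D} {d : kˣ}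
    {α β : Lˣ} {i j : D} {φ : Qt α β →+* D} {p q : k} {y : L}

/-- Closeness at a place of the cubic field. -/
def ClAt (d : kˣ) (e : ℕ) (w : HeightOneSpectrum (𝓞 L)) (t₀ t₁ : L) (c₀ c₁ : Qt α β) : Prop :=
  ∃ (v : HeightOneSpectrum (𝓞 k)) (g κ : k), Ab w v ∧ g ≠ 0 ∧ κ ≠ 0 ∧ v.valuation k g < 1 ∧
    v.valuation k κ ≤ 1 ∧ v.valuation k (κ * d) ≤ 1 ∧
    w.valuation L (algebraMap k L g) < w.valuation L (16 ^ 3 * (4 * (e : L) ^ 4)) ∧
    ml L v (3 * g * κ) (t₀ - 1) ∧ ml L v (3 * g * κ) t₁ ∧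
    w.valuation L (nrd (c₀ - 1)) ≤ w.valuation L (algebraMap k L g) ∧
    w.valuation L (algebraMap k L d * nrd c₁) ≤ 1

variable [Fact (∀ r : L, r ^ 2 ≠ algebraMap k L (dsc p q) + 0 * r)]

/-- **The decomposition.** -/
theorem cubic_core (h : Gen y p q) (cr : CRt δ d) (fr : QFr ι α β i j)
    (hφ : ∀ q, φ q = ι q.re + ι q.imI * i + ι q.imJ * j + ι q.imK * (i * j))
    {e : ℕ} {N : Set D} (HN : HQ1 k e N) (hmul : ∀ x ∈ N, ∀ y ∈ N, x * y ∈ N)
    {η : Qt α β} (h0 : η.re = 0)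
    (hn : algebraMap k L d * nrd η = -algebraMap k L (dsc p q)) {ε γ : Lˣ} {J : D}
    (hε : (ε : L) = algebraMap k L (d * dsc p q))
    (fr3 : QFr (i3 h cr hφ h0 hn) ε γ (δ * (δ * φ η)) J)
    (hγ : ∀ w : HeightOneSpectrum (𝓞 L), β ∈ NF α ⊔ LS (w.valuation L) →
      γ ∈ NF ε ⊔ LS (w.valuation L))
    {t₀ t₁ : L} (ht : t₀ ^ 2 - algebraMap k L d * t₁ ^ 2 = 1)
    (htk : ∀ c : k, algebraMap k L c ≠ t₀) {a₀ a₁ b₀ b₁ : k} {θ : D}
    (hθd : θ = ι t₀ + ι t₁ * δ)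
    (hθ : θ ^ 3 + (algebraMap k D a₀ + algebraMap k D a₁ * δ) * θ ^ 2 +
      (algebraMap k D b₀ + algebraMap k D b₁ * δ) * θ = 1)
    {z z' : D} {c₀ c₁ : Qt α β} (hz : z = φ c₀ + δ * φ c₁)
    (hz' : z' = φ (star c₀) + δ * φ (star c₁)) (hzz : z * z' = θ) (hzs : z * star z = 1)
    (hcl : ∀ w : HeightOneSpectrum (𝓞 L), β ∉ NF α ⊔ LS (w.valuation L) →
      ClAt d e w t₀ t₁ c₀ c₁) : z ∈ N := by
  have hd0 : algebraMap k L (d : k) ≠ 0 := (_root_.map_ne_zero _).mpr d.ne_zero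
  obtain ⟨M, _, _, _, _, _, ψ, s, u, v, c, T, ω, jE, H1, H2, H3, H4, H5, hψ⟩ :=
    exists_MD h cr fr hφ h0 hn
  have hψi : Function.Injective ψ := ψ.toRingHom.injective
  obtain ⟨θM, hθM⟩ : ∃ θM, θM = algebraMap L M t₀ + algebraMap L M t₁ * ω := ⟨_, rfl⟩
  have hψθ : ψ θM = θ := by
    rw [hθM, hθd, map_add, map_mul, H4.pL, H4.pL, H4.pω]
  have hθM3 : θM ^ 3 + (algebraMap k M a₀ + algebraMap k M a₁ * ω) * θM ^ 2 +
      (algebraMap k M b₀ + algebraMap k M b₁ * ω) * θM = 1 := by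
    apply hψi
    simp only [map_add, map_mul, map_pow, map_one, AlgHom.commutes, H4.pω, hψθ]
    exact hθ
  obtain ⟨e8, hprod, hvθ, e6, e7, e3, r, r', f1, f2, hcr, hrv, hcr', hvr', -, -, -, hrd, hrd',
    -⟩ := exists_r H1 H2 H3 ht htk hθM hθM3
  obtain ⟨q₀, hq₀, hzr⟩ := exists_q0 cr fr hφ H1 H4 hvθ hcr hrv ⟨c₀, c₁, hz, hz'⟩
    (by rw [hzz, hψθ]) hzs
  obtain ⟨x₀', x₃', hr', hnx, h2x⟩ := coords_r' H1 hcr' hvr'
  -- the decomposition
  have hcomm : δ * (δ * φ η) = ψ (ω * T) := by rw [map_mul, H4.pω, H4.pT]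
  have hi3 : ∀ x : L, i3 h cr hφ h0 hn x = ψ (u (algebraMap L M x)) := by
    intro x
    rw [i3_apply, ← hψ, ← H5.ju, H5.jL]
  have hdec : z = φ q₀ * (i3 h cr hφ h0 hn x₀' + i3 h cr hφ h0 hn x₃' * (δ * (δ * φ η))) := by
    have h1 : i3 h cr hφ h0 hn x₀' + i3 h cr hφ h0 hn x₃' * (δ * (δ * φ η)) = ψ (c r) := by
      rw [hcomm, hi3, hi3, ← map_mul, ← map_add]
      congr 1
      rw [← f1, hr']
      simp only [map_add, map_mul, H1.uT, H1.uω, H1.cT, H1.cω, map_neg, H2.cu, H1.cL]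
      ring
    rw [h1, ← hzr, mul_assoc, ← map_mul, mul_comm r, hcr, map_one, mul_one]
  obtain ⟨x₀, x₁, x₂, x₃, hx⟩ := H1.coord r
  have hq0' := q0_eq cr fr hφ H4 hx hz hzr
  -- the closeness
  have hnear : ∀ w : HeightOneSpectrum (𝓞 L), β ∉ NF α ⊔ LS (w.valuation L) →
      w.valuation L (2 - 2 * q₀.re) < w.valuation L (4 * (e : L) ^ 4) ∧
      w.valuation L (2 - 2 * x₀') < w.valuation L (4 * (e : L) ^ 4) := by
    intro w hw
    obtain ⟨P, g, κ, hwP, hg0, hκ0, hg1, hκ1, hκd, hgw, ht0, ht1, hc0, hc1⟩ := hcl w hw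
    have hg30 : 3 * g ≠ 0 := mul_ne_zero (by norm_num) hg0
    have n1 : ml M P (3 * g) (θM - 1) := by
      rw [hθM]
      exact theta_near H1 hg30 hκ0 hκ1 hκd ht0 ht1
    have n2 : ml M P (3 * g) (s θM - 1) := by
      have h1 := n1.map s
      rwa [map_sub, map_one] at h1
    have n3 : ml M P (3 * g) (u θM - 1) := by
      have h1 := n1.map u
      rwa [map_sub, map_one] at h1
    have n4 : ml M P g (r - 1) := by
      rw [hrd]
      exact r_near hg1 n1 n2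
    have n5 : ml M P g (r' - 1) := by
      rw [hrd']
      exact r_near hg1 n3 n2
    have hwg1 : w.valuation L (algebraMap k L g) < 1 := (val_lt_one_iff hwP g).mpr hg1
    have w16 : w.valuation L 16 ≤ 1 := by
      have : (16 : L) = 4 * 4 := by norm_num
      rw [this, map_mul]
      exact mul_le_one' (val_four_le _) (val_four_le _)
    have hml : ∀ {g' : k} {x : L}, g' ≠ 0 → ml L P g' x →
        w.valuation L x ≤ w.valuation L (algebraMap k L g') := fun hg' hx =>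
      (ml_iff hg').mp hx w hwP
    constructor
    · rw [re_of_nrd_one hq₀]
      obtain ⟨m0, m1, m2, m3⟩ := coords_near H1 hg0 n4 hx
      have hgg : w.valuation L (algebraMap k L (g * g)) ≤ w.valuation L (algebraMap k L g) := by
        rw [map_mul, map_mul]
        exact (mul_le_mul' le_rfl hwg1.le).trans (mul_one _).le
      have hgg0 : g * g ≠ 0 := mul_ne_zero hg0 hg0
      exact q0_near hw h0 hn hwg1.le (hml hg0 m0) ((hml hgg0 m1).trans hgg)
        ((hml hgg0 m2).trans hgg) ((hml hgg0 m3).trans hgg) hq0' hc0 hc1 (by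
          rwa [← map_mul])
    · have n6 : ml M P g (c r' - 1) := by
        have h1 := n5.map c
        rwa [map_sub, map_one] at h1
      have n7 : ml L P g (2 - 2 * x₀') := by
        refine (ml_L (M := M) hg0).mp ?_
        have h1 : algebraMap L M (2 - 2 * x₀') = -((r' - 1) + (c r' - 1)) := by
          rw [map_sub, map_mul, map_ofNat, h2x]
          ring
        rw [h1]
        exact (n5.add n6).neg
      refine (hml hg0 n7).trans_lt (hgw.trans_le ?_)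
      rw [map_mul, map_pow]
      exact (mul_le_mul' (pow_le_one' w16 3) le_rfl).trans (one_mul _).le
  rw [hdec]
  refine hmul _ ?_ _ ?_
  · refine HN L ι α β i j q₀.re q₀.imI q₀.imJ q₀.imK (φ q₀) ⟨fr, ?_, hφ q₀⟩ fun w hw =>
      (hnear w hw).1
    exact hq₀
  · refine HN L _ ε γ _ J x₀' x₃' 0 0 _ ⟨fr3, ?_, ?_⟩ fun w hw =>
      (hnear w fun h1 => hw (hγ w h1)).2
    · rw [hε]
      linear_combination hnx
    · rw [map_zero, zero_mul, zero_mul, add_zero, add_zero]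

end Vale.Agent.P011.Six.H422
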