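import Vale.Agent.P011.Six.H422.Gal

/-!
The automorphisms of the Galois closure of a cubic extension.
-/

open Module

set_option linter.unusedSectionVars false

namespace Vale.Agent.P011.Six.H422

variable {k L : Type*} [Field k] [CharZero k] [Field L] [Algebra k L] {y : L} {p q : k}

/-- The discriminant of `X ^ 3 + p X + q`. -/
def dsc (p q : k) : k := -4 * p ^ 3 - 27 * q ^ 2

/-- The extension generated by a square root. -/
abbrev EE (L : Type*) [Field L] (a : L) : Type _ := QuadraticAlgebra L a 0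

theorem Gen.charZero (_ : Gen y p q) : CharZero L :=
  charZero_of_injective_algebraMap (algebraMap k L).injective

theorem Gen.deriv_ne (h : Gen y p q) : 3 * y ^ 2 + algebraMap k L p ≠ 0 := by
  have := h.charZero
  intro h0
  by_cases hp : p = 0
  · subst hp
    rw [map_zero, add_zero] at h0
    have hy : y = 0 := by
      have : y ^ 2 = 0 := (mul_eq_zero.mp h0).resolve_left three_ne_zero
      exact pow_eq_zero_iff two_ne_zero |>.mp this
    exact h.ne 0 (by rw [map_zero, hy])
  · have hp' : algebraMap k L p ≠ 0 := (_root_.map_ne_zero _).mpr hp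
    apply h.ne (-(3 * q) / (2 * p))
    rw [map_div₀, map_neg, map_mul, map_mul, map_ofNat, map_ofNat]
    field_simp
    linear_combination (-3 : L) * h.eq + y * h0

theorem Gen.disc_eq (h : Gen y p q) : (-3 * y ^ 2 - 4 * algebraMap k L p) *
    (3 * y ^ 2 + algebraMap k L p) ^ 2 = algebraMap k L (dsc p q) := by
  rw [dsc, map_sub, map_mul, map_mul, map_pow, map_pow, map_neg, map_ofNat, map_ofNat]
  linear_combination (-27 : L) * (y ^ 3 + algebraMap k L p * y - algebraMap k L q) * h.eq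

section clo

variable [Fact (∀ r : L, r ^ 2 ≠ algebraMap k L (dsc p q) + 0 * r)]

/-- The square root of the discriminant. -/
def tt (k : Type*) [Field k] {L : Type*} [Field L] [Algebra k L] (p q : k) :
    EE L (algebraMap k L (dsc p q)) := ⟨0, 1⟩

theorem tt_sq : (tt k p q : (EE L (algebraMap k L (dsc p q)))) * tt k p q = algebraMap k (EE L (algebraMap k L (dsc p q))) (dsc p q) := by
  ext
  · rw [QuadraticAlgebra.re_mul]
    change (0 : L) * 0 + algebraMap k L (dsc p q) * 1 * 1 = algebraMap k L (dsc p q)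
    ring
  · rw [QuadraticAlgebra.im_mul]
    change (0 : L) * 1 + 1 * 0 + 0 * 1 * 1 = 0
    ring

theorem tt_sq' : (tt k p q : (EE L (algebraMap k L (dsc p q)))) * tt k p q = algebraMap L (EE L (algebraMap k L (dsc p q))) (algebraMap k L (dsc p q)) := tt_sq

/-- The half of the difference of the conjugates. -/
noncomputable def tau (y : L) (p q : k) : EE L (algebraMap k L (dsc p q)) :=
  algebraMap L _ (2 * (3 * y ^ 2 + algebraMap k L p))⁻¹ * tt k p q

theorem Gen.tau_sq (h : Gen y p q) : 4 * (tau y p q : (EE L (algebraMap k L (dsc p q)))) ^ 2 =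
    -3 * algebraMap L (EE L (algebraMap k L (dsc p q))) y ^ 2 - 4 * algebraMap k (EE L (algebraMap k L (dsc p q))) p := by
  have := h.charZero
  have h0 := h.deriv_ne
  have e1 : (tau y p q : (EE L (algebraMap k L (dsc p q)))) ^ 2 = algebraMap L (EE L (algebraMap k L (dsc p q))) (((2 * (3 * y ^ 2 + algebraMap k L p))⁻¹) ^ 2 *
      algebraMap k L (dsc p q)) := by
    rw [tau, mul_pow, pow_two (tt k p q), tt_sq', map_mul, map_pow]
  have e2 : (4 : (EE L (algebraMap k L (dsc p q)))) = algebraMap L (EE L (algebraMap k L (dsc p q))) 4 := (map_ofNat _ 4).symm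
  have e3 : (3 : (EE L (algebraMap k L (dsc p q)))) = algebraMap L (EE L (algebraMap k L (dsc p q))) 3 := (map_ofNat _ 3).symm
  have e4 : algebraMap k (EE L (algebraMap k L (dsc p q))) p = algebraMap L (EE L (algebraMap k L (dsc p q))) (algebraMap k L p) := rfl
  rw [e1, e2, e3, e4, ← map_pow, ← map_neg, ← map_mul, ← map_mul, ← map_mul, ← map_sub,
    ← h.disc_eq]
  congr 1
  field_simp
  ring

theorem Gen.tau_tt (h : Gen y p q) :
    (tt k p q : (EE L (algebraMap k L (dsc p q)))) = 2 * (3 * algebraMap L (EE L (algebraMap k L (dsc p q))) y ^ 2 + algebraMap k (EE L (algebraMap k L (dsc p q))) p) * tau y p q := by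
  have := h.charZero
  have h0 := h.deriv_ne
  have e3 : (3 : (EE L (algebraMap k L (dsc p q)))) = algebraMap L (EE L (algebraMap k L (dsc p q))) 3 := (map_ofNat _ 3).symm
  have e2 : (2 : (EE L (algebraMap k L (dsc p q)))) = algebraMap L (EE L (algebraMap k L (dsc p q))) 2 := (map_ofNat _ 2).symm
  have e4 : algebraMap k (EE L (algebraMap k L (dsc p q))) p = algebraMap L (EE L (algebraMap k L (dsc p q))) (algebraMap k L p) := rfl
  rw [tau, e3, e2, e4, ← map_pow, ← map_mul, ← map_add, ← map_mul, ← mul_assoc, ← map_mul]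
  rw [mul_inv_cancel₀, map_one, one_mul]
  exact mul_ne_zero two_ne_zero h0

theorem Gen.eqE (h : Gen y p q) : (algebraMap L (EE L (algebraMap k L (dsc p q))) y) ^ 3 + algebraMap k (EE L (algebraMap k L (dsc p q))) p * algebraMap L (EE L (algebraMap k L (dsc p q))) y +
    algebraMap k (EE L (algebraMap k L (dsc p q))) q = 0 := by
  have e4 : algebraMap k (EE L (algebraMap k L (dsc p q))) p = algebraMap L (EE L (algebraMap k L (dsc p q))) (algebraMap k L p) := rfl
  have e5 : algebraMap k (EE L (algebraMap k L (dsc p q))) q = algebraMap L (EE L (algebraMap k L (dsc p q))) (algebraMap k L q) := rfl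
  rw [e4, e5, ← map_pow, ← map_mul, ← map_add, ← map_add, h.eq, map_zero]

theorem four_ne : (4 : (EE L (algebraMap k L (dsc p q)))) ≠ 0 := by
  have : CharZero L := charZero_of_injective_algebraMap (algebraMap k L).injective
  have e2 : (4 : (EE L (algebraMap k L (dsc p q)))) = algebraMap L (EE L (algebraMap k L (dsc p q))) 4 := (map_ofNat _ 4).symm
  rw [e2]
  exact (_root_.map_ne_zero _).mpr (by norm_num)

theorem two_ne : (2 : (EE L (algebraMap k L (dsc p q)))) ≠ 0 := by
  have : CharZero L := charZero_of_injective_algebraMap (algebraMap k L).injective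
  have e2 : (2 : (EE L (algebraMap k L (dsc p q)))) = algebraMap L (EE L (algebraMap k L (dsc p q))) 2 := (map_ofNat _ 2).symm
  rw [e2]
  exact (_root_.map_ne_zero _).mpr (by norm_num)

/-- The second root. -/
noncomputable def Y2 (y : L) (p q : k) : EE L (algebraMap k L (dsc p q)) :=
  -algebraMap L _ (y / 2) + tau y p q

/-- The third root. -/
noncomputable def Y3 (y : L) (p q : k) : EE L (algebraMap k L (dsc p q)) :=
  -algebraMap L _ (y / 2) - tau y p q

theorem Gen.two_Y (h : Gen y p q) : 2 * algebraMap L (EE L (algebraMap k L (dsc p q))) (y / 2) = algebraMap L (EE L (algebraMap k L (dsc p q))) y := by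
  have := h.charZero
  have e2 : (2 : (EE L (algebraMap k L (dsc p q)))) = algebraMap L (EE L (algebraMap k L (dsc p q))) 2 := (map_ofNat _ 2).symm
  rw [e2, ← map_mul]
  congr 1
  field_simp

theorem Gen.Y2_eq (h : Gen y p q) : (Y2 y p q : (EE L (algebraMap k L (dsc p q)))) ^ 3 + algebraMap k (EE L (algebraMap k L (dsc p q))) p * Y2 y p q +
    algebraMap k (EE L (algebraMap k L (dsc p q))) q = 0 := by
  have h1 := h.tau_sq
  have h2 := h.two_Y
  have h3 := h.eqE
  rw [← h2] at h1 h3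
  rw [Y2]
  obtain ⟨z, hz⟩ : ∃ z, z = algebraMap L (EE L (algebraMap k L (dsc p q))) (y / 2) := ⟨_, rfl⟩
  obtain ⟨t, ht⟩ : ∃ t, t = (tau y p q : (EE L (algebraMap k L (dsc p q)))) := ⟨_, rfl⟩
  rw [← hz, ← ht] at h1
  rw [← hz] at h3
  rw [← hz, ← ht]
  apply mul_left_cancel₀ four_ne
  linear_combination (t - 3 * z) * h1 + 4 * h3

theorem Gen.Y3_eq (h : Gen y p q) : (Y3 y p q : (EE L (algebraMap k L (dsc p q)))) ^ 3 + algebraMap k (EE L (algebraMap k L (dsc p q))) p * Y3 y p q +
    algebraMap k (EE L (algebraMap k L (dsc p q))) q = 0 := by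
  have h1 := h.tau_sq
  have h2 := h.two_Y
  have h3 := h.eqE
  rw [← h2] at h1 h3
  rw [Y3]
  obtain ⟨z, hz⟩ : ∃ z, z = algebraMap L (EE L (algebraMap k L (dsc p q))) (y / 2) := ⟨_, rfl⟩
  obtain ⟨t, ht⟩ : ∃ t, t = (tau y p q : (EE L (algebraMap k L (dsc p q)))) := ⟨_, rfl⟩
  rw [← hz, ← ht] at h1
  rw [← hz] at h3
  rw [← hz, ← ht]
  apply mul_left_cancel₀ four_ne
  linear_combination (-t - 3 * z) * h1 + 4 * h3

/-- The automorphism over `L`. -/
noncomputable def s23 (k : Type*) [Field k] [CharZero k] {L : Type*} [Field L] [Algebra k L]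
    (p q : k) [Fact (∀ r : L, r ^ 2 ≠ algebraMap k L (dsc p q) + 0 * r)] :
    EE L (algebraMap k L (dsc p q)) →ₐ[k] EE L (algebraMap k L (dsc p q)) :=
  qmap (IsScalarTower.toAlgHom k L (EE L (algebraMap k L (dsc p q)))) (-(tt k p q))
    (by
      rw [neg_mul_neg]
      exact tt_sq) (fun _ => mul_comm _ _)

/-- The automorphism exchanging the first two roots. -/
noncomputable def Gen.s12 (h : Gen y p q) : (EE L (algebraMap k L (dsc p q))) →ₐ[k] (EE L (algebraMap k L (dsc p q))) :=
  qmap (h.lift (Y2 y p q) h.Y2_eq) (-(tt k p q))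
    (by
      rw [neg_mul_neg, AlgHom.commutes]
      exact tt_sq) (fun _ => mul_comm _ _)

/-- The automorphism exchanging the first and the third root. -/
noncomputable def Gen.s13 (h : Gen y p q) : (EE L (algebraMap k L (dsc p q))) →ₐ[k] (EE L (algebraMap k L (dsc p q))) :=
  qmap (h.lift (Y3 y p q) h.Y3_eq) (-(tt k p q))
    (by
      rw [neg_mul_neg, AlgHom.commutes]
      exact tt_sq) (fun _ => mul_comm _ _)

theorem s23_L (x : L) : s23 k p q (algebraMap L (EE L (algebraMap k L (dsc p q))) x) = algebraMap L (EE L (algebraMap k L (dsc p q))) x := qmap_C _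

theorem s23_t : s23 k p q (tt k p q : (EE L (algebraMap k L (dsc p q)))) = -tt k p q := qmap_omega

theorem Gen.s12_L (h : Gen y p q) (x : L) :
    h.s12 (algebraMap L (EE L (algebraMap k L (dsc p q))) x) = h.lift (Y2 y p q) h.Y2_eq x := qmap_C _

theorem Gen.s12_t (h : Gen y p q) : h.s12 (tt k p q : (EE L (algebraMap k L (dsc p q)))) = -tt k p q := qmap_omega

theorem Gen.s13_L (h : Gen y p q) (x : L) :
    h.s13 (algebraMap L (EE L (algebraMap k L (dsc p q))) x) = h.lift (Y3 y p q) h.Y3_eq x := qmap_C _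

theorem Gen.s13_t (h : Gen y p q) : h.s13 (tt k p q : (EE L (algebraMap k L (dsc p q)))) = -tt k p q := qmap_omega

theorem Gen.s12_y (h : Gen y p q) : h.s12 (algebraMap L (EE L (algebraMap k L (dsc p q))) y) = Y2 y p q := by
  rw [h.s12_L, h.lift_gen]

theorem Gen.s13_y (h : Gen y p q) : h.s13 (algebraMap L (EE L (algebraMap k L (dsc p q))) y) = Y3 y p q := by
  rw [h.s13_L, h.lift_gen]

theorem Gen.sum (h : Gen y p q) : algebraMap L (EE L (algebraMap k L (dsc p q))) y + Y2 y p q + Y3 y p q = 0 := by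
  rw [Y2, Y3, ← h.two_Y]
  ring

theorem coordE (x : (EE L (algebraMap k L (dsc p q)))) : x = algebraMap L (EE L (algebraMap k L (dsc p q))) x.re + algebraMap L (EE L (algebraMap k L (dsc p q))) x.im * tt k p q := by
  ext
  · rw [QuadraticAlgebra.re_add, QuadraticAlgebra.re_mul]
    change x.re = x.re + (x.im * 0 + algebraMap k L (dsc p q) * 0 * 1)
    ring
  · rw [QuadraticAlgebra.im_add, QuadraticAlgebra.im_mul]
    change x.im = 0 + (x.im * 1 + 0 * 0 + 0 * 0 * 1)
    ring

/-- Homomorphisms are determined by the images of the generators. -/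
theorem Gen.extE (h : Gen y p q) {A : Type*} [Ring A] [Algebra k A] {f g : (EE L (algebraMap k L (dsc p q))) →ₐ[k] A}
    (h1 : f (algebraMap L (EE L (algebraMap k L (dsc p q))) y) = g (algebraMap L (EE L (algebraMap k L (dsc p q))) y)) (h2 : f (tt k p q) = g (tt k p q)) :
    f = g := by
  have h3 : f.comp (IsScalarTower.toAlgHom k L (EE L (algebraMap k L (dsc p q)))) = g.comp (IsScalarTower.toAlgHom k L (EE L (algebraMap k L (dsc p q)))) :=
    h.ext h1
  have h4 : ∀ x : L, f (algebraMap L (EE L (algebraMap k L (dsc p q))) x) = g (algebraMap L (EE L (algebraMap k L (dsc p q))) x) := fun x =>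
    DFunLike.congr_fun h3 x
  refine AlgHom.ext fun x => ?_
  rw [coordE (k := k) x, map_add, map_add, map_mul, map_mul, h4, h4, h2]

theorem Gen.s23_tau (h : Gen y p q) : s23 k p q (tau y p q : (EE L (algebraMap k L (dsc p q)))) = -tau y p q := by
  rw [tau, map_mul, s23_L, s23_t, mul_neg]

theorem Gen.s23_Y2 (h : Gen y p q) : s23 k p q (Y2 y p q : (EE L (algebraMap k L (dsc p q)))) = Y3 y p q := by
  rw [Y2, Y3, map_add, map_neg, s23_L, h.s23_tau, sub_eq_add_neg]

theorem Gen.s23_Y3 (h : Gen y p q) : s23 k p q (Y3 y p q : (EE L (algebraMap k L (dsc p q)))) = Y2 y p q := by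
  rw [Y2, Y3, map_sub, map_neg, s23_L, h.s23_tau, sub_neg_eq_add]

theorem Gen.deriv_ne_E (h : Gen y p q) :
    3 * (algebraMap L (EE L (algebraMap k L (dsc p q))) y) ^ 2 + algebraMap k (EE L (algebraMap k L (dsc p q))) p ≠ 0 := by
  have e3 : (3 : (EE L (algebraMap k L (dsc p q)))) = algebraMap L (EE L (algebraMap k L (dsc p q))) 3 := (map_ofNat _ 3).symm
  have e4 : algebraMap k (EE L (algebraMap k L (dsc p q))) p = algebraMap L (EE L (algebraMap k L (dsc p q))) (algebraMap k L p) := rfl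
  rw [e3, e4, ← map_pow, ← map_mul, ← map_add]
  exact (_root_.map_ne_zero _).mpr h.deriv_ne

theorem Gen.s12_tau (h : Gen y p q) : 2 * h.s12 (tau y p q : (EE L (algebraMap k L (dsc p q)))) =
    2 * algebraMap L (EE L (algebraMap k L (dsc p q))) y + Y2 y p q := by
  have h1 := congrArg h.s12 h.tau_tt
  rw [h.s12_t] at h1
  simp only [map_mul, map_add, map_pow, map_ofNat, h.s12_y, AlgHom.commutes] at h1
  have h2 : h.s12 (3 * (algebraMap L (EE L (algebraMap k L (dsc p q))) y) ^ 2 + algebraMap k (EE L (algebraMap k L (dsc p q))) p) ≠ 0 :=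
    (_root_.map_ne_zero _).mpr h.deriv_ne_E
  simp only [map_mul, map_add, map_pow, map_ofNat, h.s12_y, AlgHom.commutes] at h2
  apply mul_left_cancel₀ h2
  have h3 := h.tau_tt
  have h4 := h.tau_sq
  have h5 := h.two_Y
  obtain ⟨u, hu⟩ : ∃ t, t = h.s12 (tau y p q : (EE L (algebraMap k L (dsc p q)))) := ⟨_, rfl⟩
  rw [← hu] at h1
  rw [← hu]
  rw [Y2] at h1 ⊢
  rw [← h5] at h3 h4 ⊢
  obtain ⟨z, hz⟩ : ∃ z, z = algebraMap L (EE L (algebraMap k L (dsc p q))) (y / 2) := ⟨_, rfl⟩
  obtain ⟨t, ht⟩ : ∃ t, t = (tau y p q : (EE L (algebraMap k L (dsc p q)))) := ⟨_, rfl⟩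
  rw [← hz, ← ht] at h3 h4
  rw [← hz, ← ht] at h1
  rw [← hz, ← ht]
  apply mul_left_cancel₀ four_ne
  linear_combination (-4 : (EE L (algebraMap k L (dsc p q)))) * h1 - 4 * h3 - 3 * (z + t) * h4

theorem Gen.s13_tau (h : Gen y p q) : 2 * h.s13 (tau y p q : (EE L (algebraMap k L (dsc p q)))) =
    -(2 * algebraMap L (EE L (algebraMap k L (dsc p q))) y + Y3 y p q) := by
  have h1 := congrArg h.s13 h.tau_tt
  rw [h.s13_t] at h1
  simp only [map_mul, map_add, map_pow, map_ofNat, h.s13_y, AlgHom.commutes] at h1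
  have h2 : h.s13 (3 * (algebraMap L (EE L (algebraMap k L (dsc p q))) y) ^ 2 + algebraMap k (EE L (algebraMap k L (dsc p q))) p) ≠ 0 :=
    (_root_.map_ne_zero _).mpr h.deriv_ne_E
  simp only [map_mul, map_add, map_pow, map_ofNat, h.s13_y, AlgHom.commutes] at h2
  apply mul_left_cancel₀ h2
  have h3 := h.tau_tt
  have h4 := h.tau_sq
  have h5 := h.two_Y
  obtain ⟨u, hu⟩ : ∃ t, t = h.s13 (tau y p q : (EE L (algebraMap k L (dsc p q)))) := ⟨_, rfl⟩
  rw [← hu] at h1
  rw [← hu]
  rw [Y3] at h1 ⊢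
  rw [← h5] at h3 h4 ⊢
  obtain ⟨z, hz⟩ : ∃ z, z = algebraMap L (EE L (algebraMap k L (dsc p q))) (y / 2) := ⟨_, rfl⟩
  obtain ⟨t, ht⟩ : ∃ t, t = (tau y p q : (EE L (algebraMap k L (dsc p q)))) := ⟨_, rfl⟩
  rw [← hz, ← ht] at h3 h4
  rw [← hz, ← ht] at h1
  rw [← hz, ← ht]
  apply mul_left_cancel₀ four_ne
  linear_combination (-4 : (EE L (algebraMap k L (dsc p q)))) * h1 - 4 * h3 + 3 * (z - t) * h4

theorem Gen.s12_Y2 (h : Gen y p q) : h.s12 (Y2 y p q : (EE L (algebraMap k L (dsc p q)))) = algebraMap L (EE L (algebraMap k L (dsc p q))) y := by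
  apply mul_left_cancel₀ two_ne
  have h1 : h.s12 (2 * Y2 y p q : (EE L (algebraMap k L (dsc p q)))) = -Y2 y p q + 2 * h.s12 (tau y p q : (EE L (algebraMap k L (dsc p q)))) := by
    rw [Y2, mul_add, mul_neg, h.two_Y, map_add, map_neg, h.s12_y, map_mul, map_ofNat, Y2]
  rw [map_mul, map_ofNat, h.s12_tau] at h1
  rw [h1]
  ring

theorem Gen.s13_Y3 (h : Gen y p q) : h.s13 (Y3 y p q : (EE L (algebraMap k L (dsc p q)))) = algebraMap L (EE L (algebraMap k L (dsc p q))) y := by
  apply mul_left_cancel₀ two_ne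
  have h1 : h.s13 (2 * Y3 y p q : (EE L (algebraMap k L (dsc p q)))) = -Y3 y p q - 2 * h.s13 (tau y p q : (EE L (algebraMap k L (dsc p q)))) := by
    rw [Y3, mul_sub, mul_neg, h.two_Y, map_sub, map_neg, h.s13_y, map_mul, map_ofNat, Y3]
  rw [map_mul, map_ofNat, h.s13_tau] at h1
  rw [h1]
  ring

theorem Gen.s12_Y3 (h : Gen y p q) : h.s12 (Y3 y p q : (EE L (algebraMap k L (dsc p q)))) = Y3 y p q := by
  have h1 := congrArg h.s12 h.sum
  rw [map_add, map_add, map_zero, h.s12_y, h.s12_Y2] at h1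
  linear_combination h1 - h.sum

theorem Gen.s13_Y2 (h : Gen y p q) : h.s13 (Y2 y p q : (EE L (algebraMap k L (dsc p q)))) = Y2 y p q := by
  have h1 := congrArg h.s13 h.sum
  rw [map_add, map_add, map_zero, h.s13_y, h.s13_Y3] at h1
  linear_combination h1 - h.sum

/-- The relations. -/
theorem Gen.r12 (h : Gen y p q) (x : (EE L (algebraMap k L (dsc p q)))) : h.s12 (h.s12 x) = x := by
  have : h.s12.comp h.s12 = AlgHom.id k (EE L (algebraMap k L (dsc p q))) := h.extE (by
    rw [AlgHom.comp_apply, h.s12_y, h.s12_Y2]; rfl) (by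
    rw [AlgHom.comp_apply, h.s12_t, map_neg, h.s12_t, neg_neg]; rfl)
  exact DFunLike.congr_fun this x

theorem Gen.r13 (h : Gen y p q) (x : (EE L (algebraMap k L (dsc p q)))) : h.s13 (h.s13 x) = x := by
  have : h.s13.comp h.s13 = AlgHom.id k (EE L (algebraMap k L (dsc p q))) := h.extE (by
    rw [AlgHom.comp_apply, h.s13_y, h.s13_Y3]; rfl) (by
    rw [AlgHom.comp_apply, h.s13_t, map_neg, h.s13_t, neg_neg]; rfl)
  exact DFunLike.congr_fun this x

theorem Gen.r23 (h : Gen y p q) (x : (EE L (algebraMap k L (dsc p q)))) : s23 k p q (s23 k p q x) = x := by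
  have : (s23 k p q).comp (s23 k p q) = AlgHom.id k (EE L (algebraMap k L (dsc p q))) := h.extE (by
    rw [AlgHom.comp_apply, s23_L, s23_L]; rfl) (by
    rw [AlgHom.comp_apply, s23_t, map_neg, s23_t, neg_neg]; rfl)
  exact DFunLike.congr_fun this x

theorem Gen.r23_12 (h : Gen y p q) (x : (EE L (algebraMap k L (dsc p q)))) : s23 k p q (h.s12 x) = h.s12 (h.s13 x) := by
  have : (s23 k p q).comp h.s12 = h.s12.comp h.s13 := h.extE (by
    rw [AlgHom.comp_apply, AlgHom.comp_apply, h.s12_y, h.s13_y, h.s23_Y2, h.s12_Y3]) (by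
    rw [AlgHom.comp_apply, AlgHom.comp_apply, h.s12_t, h.s13_t, map_neg, map_neg, s23_t, h.s12_t])
  exact DFunLike.congr_fun this x

theorem Gen.r12_23 (h : Gen y p q) (x : (EE L (algebraMap k L (dsc p q)))) : h.s12 (s23 k p q x) = h.s13 (h.s12 x) := by
  have : h.s12.comp (s23 k p q) = h.s13.comp h.s12 := h.extE (by
    rw [AlgHom.comp_apply, AlgHom.comp_apply, h.s12_y, s23_L, h.s13_Y2, h.s12_y]) (by
    rw [AlgHom.comp_apply, AlgHom.comp_apply, h.s12_t, s23_t, map_neg, map_neg, h.s12_t, h.s13_t])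
  exact DFunLike.congr_fun this x

theorem Gen.r13_23 (h : Gen y p q) (x : (EE L (algebraMap k L (dsc p q)))) : h.s13 (s23 k p q x) = h.s12 (h.s13 x) := by
  have : h.s13.comp (s23 k p q) = h.s12.comp h.s13 := h.extE (by
    rw [AlgHom.comp_apply, AlgHom.comp_apply, h.s13_y, s23_L, h.s13_y, h.s12_Y3]) (by
    rw [AlgHom.comp_apply, AlgHom.comp_apply, h.s13_t, s23_t, map_neg, map_neg, h.s12_t, h.s13_t])
  exact DFunLike.congr_fun this x

/-- The values on `L`. -/
theorem Gen.j23_2 (h : Gen y p q) (x : L) :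
    s23 k p q (h.s12 (algebraMap L (EE L (algebraMap k L (dsc p q))) x)) = h.s13 (algebraMap L (EE L (algebraMap k L (dsc p q))) x) := by
  rw [h.r23_12, ← h.r13_23, s23_L]

theorem Gen.j23_3 (h : Gen y p q) (x : L) :
    s23 k p q (h.s13 (algebraMap L (EE L (algebraMap k L (dsc p q))) x)) = h.s12 (algebraMap L (EE L (algebraMap k L (dsc p q))) x) := by
  rw [← h.j23_2, h.r23]

theorem Gen.j12_3 (h : Gen y p q) (x : L) :
    h.s12 (h.s13 (algebraMap L (EE L (algebraMap k L (dsc p q))) x)) = h.s13 (algebraMap L (EE L (algebraMap k L (dsc p q))) x) := by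
  rw [← h.r13_23, s23_L]

theorem Gen.j13_2 (h : Gen y p q) (x : L) :
    h.s13 (h.s12 (algebraMap L (EE L (algebraMap k L (dsc p q))) x)) = h.s12 (algebraMap L (EE L (algebraMap k L (dsc p q))) x) := by
  rw [← h.r12_23, s23_L]

end clo

end Vale.Agent.P011.Six.H422
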