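import Vale.Agent.P011.Six.H422.Sk
import Vale.Agent.P011.Six.H422.Gal2
import Vale.Agent.P011.One.AbX

/-!
The Galois closure of a cubic field inside the division algebra, and the antisymmetric elements
inducing its automorphisms.
-/

open Module Polynomial NumberField IsDedekindDomain

set_option linter.unusedSectionVars false

namespace Vale.Agent.P011.Six.H422

open Vale.Agent.P011.Arith Vale.Agent.P011.Even Vale.Agent.P011.MPQ Vale.Agent.P011.One

section sk

variable {k K D : Type} [Field k] [NumberField k] [Field K] [StarRing K]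
    [DivisionRing D] [StarRing D] [Algebra k K] [Algebra k D] [Algebra K D] [IsScalarTower k K D]
    {d : kˣ} {s : K}

/-- The automorphisms of a symmetric subfield are induced by inner automorphisms. -/
theorem exists_g (hS : Setting k K D d s) {E : Type} [Field E] [Algebra k E]
    [FiniteDimensional k E] {j : E →ₐ[k] D} (hs : ∀ x, star (j x) = j x) (σ : E →ₐ[k] E) :
    ∃ g : D, g ≠ 0 ∧ ∀ x, g * j x = j (σ x) * g := by
  obtain ⟨e, he⟩ := Field.exists_primitive_element k E
  have hint : IsIntegral k e := IsIntegral.of_finite k e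
  have hm : minpoly k (j e) = minpoly k e := minpoly.algHom_eq j j.toRingHom.injective e
  obtain ⟨g, hg, hge⟩ := skolem_sym hS (x := j e) (y := j (σ e)) (hs e) (by
    rw [hm, aeval_algHom_apply, aeval_algHom_apply, minpoly.aeval, map_zero, map_zero])
  refine ⟨g, hg, ?_⟩
  let S : Subalgebra k E :=
    { carrier := {x | g * j x = j (σ x) * g}
      mul_mem' := by
        intro a b ha hb
        have ha : g * j a = j (σ a) * g := ha
        have hb : g * j b = j (σ b) * g := hb
        change g * j (a * b) = j (σ (a * b)) * g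
        rw [map_mul, map_mul, map_mul, ← mul_assoc, ha, mul_assoc, hb, mul_assoc]
      add_mem' := by
        intro a b ha hb
        have ha : g * j a = j (σ a) * g := ha
        have hb : g * j b = j (σ b) * g := hb
        change g * j (a + b) = j (σ (a + b)) * g
        rw [map_add, map_add, map_add, mul_add, add_mul, ha, hb]
      algebraMap_mem' := by
        intro c
        change g * j (algebraMap k E c) = j (σ (algebraMap k E c)) * g
        rw [AlgHom.commutes, AlgHom.commutes, AlgHom.commutes, Algebra.commutes] }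
  have h1 : Algebra.adjoin k {e} ≤ S := Algebra.adjoin_le (by
    rintro _ rfl
    exact hge)
  have h2 : Algebra.adjoin k {e} = ⊤ := by
    rw [← IntermediateField.adjoin_simple_toSubalgebra_of_isAlgebraic hint.isAlgebraic, he,
      IntermediateField.top_toSubalgebra]
  intro x
  have h3 : x ∈ S := h1 (by rw [h2]; exact Algebra.mem_top)
  exact h3

/-- The antisymmetric elements inducing an involution of a symmetric subfield. -/
theorem exists_q2 (hS : Setting k K D d s) {δ : D} (cr : CRt δ d) {E : Type} [Field E]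
    [Algebra k E] [FiniteDimensional k E] {j : E →ₐ[k] D} (hs : ∀ x, star (j x) = j x)
    (σ : E →ₐ[k] E) (hσ : ∀ x, σ (σ x) = x) :
    ∃ g : D, g ≠ 0 ∧ star g = -g ∧ ∀ x, g * j x = j (σ x) * g := by
  obtain ⟨g, hg, hgx⟩ := exists_g hS hs σ
  have h1 : ∀ x, star g * j x = j (σ x) * star g := by
    intro x
    have h2 := congrArg star (hgx (σ x))
    rw [star_mul, star_mul, hs, hs, hσ] at h2
    exact h2.symm
  by_cases h0 : g - star g = 0
  · refine ⟨δ * g, mul_ne_zero cr.ne_zero hg, ?_, fun x => ?_⟩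
    · rw [star_mul, ← sub_eq_zero.mp h0, cr.st, mul_neg, cr.comm]
    · rw [mul_assoc, hgx, ← mul_assoc, ← mul_assoc, cr.comm]
  · refine ⟨g - star g, h0, ?_, fun x => ?_⟩
    · rw [star_sub, star_star, neg_sub]
    · rw [sub_mul, mul_sub, hgx, h1]

end sk

section quat

variable {F : Type} [Field F] [NumberField F] {α β : Fˣ}

theorem star_eq_neg {η : Qt α β} (h : η.re = 0) : star η = -η := by
  have h1 := add_star_self_qt η
  rw [h, mul_zero, map_zero] at h1
  exact eq_neg_of_add_eq_zero_right h1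

theorem eq_alg_of_star {w : Qt α β} (h : star w = w) : w = algebraMap F (Qt α β) w.re := by
  have h1 := congrArg QuaternionAlgebra.imI h
  have h2 := congrArg QuaternionAlgebra.imJ h
  have h3 := congrArg QuaternionAlgebra.imK h
  simp only [QuaternionAlgebra.imI_star, QuaternionAlgebra.imJ_star,
    QuaternionAlgebra.imK_star] at h1 h2 h3
  have key : ∀ x : F, -x = x → x = 0 := by
    intro x hx
    have : (2 : F) * x = 0 := by linear_combination -hx
    exact (mul_eq_zero.mp this).resolve_left two_ne_zero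
  ext
  · simp [QuaternionAlgebra.algebraMap_eq]
  · simp [QuaternionAlgebra.algebraMap_eq, key _ h1]
  · simp [QuaternionAlgebra.algebraMap_eq, key _ h2]
  · simp [QuaternionAlgebra.algebraMap_eq, key _ h3]

/-- The centralizer of a pure quaternion. -/
theorem comm_pure {η w : Qt α β} (h0 : η.re = 0) (hn : nrd η ≠ 0) (hc : w * η = η * w) :
    ∃ a b : F, w = algebraMap F (Qt α β) a + algebraMap F (Qt α β) b * η := by
  obtain ⟨v, hv⟩ : ∃ v, v = w - algebraMap F (Qt α β) w.re := ⟨_, rfl⟩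
  have hv0 : v.re = 0 := by
    rw [hv, QuaternionAlgebra.re_sub, QuaternionAlgebra.algebraMap_eq]
    exact sub_self _
  have hvc : v * η = η * v := by
    rw [hv, sub_mul, mul_sub, hc, Algebra.commutes]
  have h1 : star (v * η) = v * η := by
    rw [star_mul, star_eq_neg h0, star_eq_neg hv0, neg_mul_neg, hvc]
  have h2 := eq_alg_of_star h1
  obtain ⟨m, hm⟩ : ∃ m, m = (v * η).re := ⟨_, rfl⟩
  rw [← hm] at h2
  have h3 : η * η = algebraMap F (Qt α β) (-nrd η) := pure_sq h0
  refine ⟨w.re, -m / nrd η, ?_⟩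
  have h4 : v * (η * η) = algebraMap F (Qt α β) m * η := by rw [← mul_assoc, h2]
  rw [h3] at h4
  have h5 : v = algebraMap F (Qt α β) (-m / nrd η) * η := by
    have h6 : v = v * algebraMap F (Qt α β) (-nrd η) * algebraMap F (Qt α β) (-nrd η)⁻¹ := by
      rw [mul_assoc, ← map_mul, mul_inv_cancel₀ (neg_ne_zero.mpr hn), map_one, mul_one]
    rw [h6, h4, mul_assoc, ← Algebra.commutes, ← mul_assoc, ← map_mul]
    congr 2
    field_simp
  rw [← h5, hv]
  abel

end quat

section emb

variable {k D : Type} [Field k] [NumberField k] [DivisionRing D] [StarRing D] [Algebra k D]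
    {L : Type} [Field L] [NumberField L] [Algebra k L] {ι : L →ₐ[k] D} {δ : D} {d : kˣ}
    {α β : Lˣ} {i j : D} {φ : Qt α β →+* D} {p q : k} {y : L}

theorem Gen.dsc_ne (h : Gen y p q) : dsc p q ≠ 0 := by
  intro h0
  have h1 := h.disc_eq
  rw [h0, map_zero] at h1
  have h2 := (mul_eq_zero.mp h1).resolve_right (pow_ne_zero 2 h.deriv_ne)
  by_cases hp : p = 0
  · subst hp
    rw [map_zero, mul_zero, sub_zero] at h2
    have hy : y = 0 := by
      have : y ^ 2 = 0 := (mul_eq_zero.mp h2).resolve_left (by norm_num)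
      exact pow_eq_zero_iff two_ne_zero |>.mp this
    exact h.ne 0 (by rw [map_zero, hy])
  · have hp' : algebraMap k L p ≠ 0 := (_root_.map_ne_zero _).mpr hp
    apply h.ne (3 * q / p)
    rw [map_div₀, map_mul, map_ofNat]
    field_simp
    linear_combination (3 : L) * h.eq + y * h2

/-- The square of the symmetric element. -/
theorem t_sq (cr : CRt δ d)
    (hφ : ∀ q, φ q = ι q.re + ι q.imI * i + ι q.imJ * j + ι q.imK * (i * j))
    {η : Qt α β} (h0 : η.re = 0) {c : k}
    (hn : algebraMap k L d * nrd η = -algebraMap k L c) :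
    (δ * φ η) * (δ * φ η) = ι (algebraMap k L c) := by
  have h1 : φ η * φ η = ι (-nrd η) := by
    rw [← map_mul, pure_sq h0, phi_alg hφ]
  calc δ * φ η * (δ * φ η) = δ * (φ η * δ) * φ η := by simp only [mul_assoc]
    _ = δ * δ * (φ η * φ η) := by rw [← cr.comm]; simp only [mul_assoc]
    _ = ι (algebraMap k L c) := by
      rw [cr.sq, h1, ← AlgHom.commutes ι, ← map_mul]
      congr 1
      linear_combination -hn

theorem t_comm (cr : CRt δ d)
    (hφ : ∀ q, φ q = ι q.re + ι q.imI * i + ι q.imJ * j + ι q.imK * (i * j)) (η : Qt α β) (x : L) :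
    ι x * (δ * φ η) = δ * φ η * ι x := by
  rw [← mul_assoc, ← cr.comm, mul_assoc, mul_assoc, ← phi_alg hφ, ← map_mul, ← map_mul,
    Algebra.commutes]

/-- The discriminant is not a square. -/
theorem Gen.fact (h : Gen y p q) (cr : CRt δ d) (fr : QFr ι α β i j)
    (hφ : ∀ q, φ q = ι q.re + ι q.imI * i + ι q.imJ * j + ι q.imK * (i * j))
    {η : Qt α β} (h0 : η.re = 0)
    (hn : algebraMap k L d * nrd η = -algebraMap k L (dsc p q)) :
    Fact (∀ r : L, r ^ 2 ≠ algebraMap k L (dsc p q) + 0 * r) := by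
  refine ⟨fun r hr => ?_⟩
  rw [zero_mul, add_zero] at hr
  have h1 := t_sq cr hφ h0 hn
  rw [← hr, map_pow] at h1
  have hc := t_comm cr hφ η r
  have h2 : (δ * φ η - ι r) * (δ * φ η + ι r) = 0 := by
    rw [sub_mul, mul_add, mul_add, h1, hc, pow_two]
    abel
  have hη : η ≠ 0 := by
    rintro rfl
    have h3 : nrd (0 : Qt α β) = 0 := by simp [nrd]
    rw [h3, mul_zero, eq_comm, neg_eq_zero, map_eq_zero] at hn
    exact h.dsc_ne hn
  rcases mul_eq_zero.mp h2 with h3 | h3
  · refine hη (phi_inj cr fr hφ (q₀ := algebraMap L _ (-r)) (q₁ := η) ?_).2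
    rw [phi_alg hφ, map_neg, ← h3]
    abel
  · refine hη (phi_inj cr fr hφ (q₀ := algebraMap L _ r) (q₁ := η) ?_).2
    rw [phi_alg hφ, ← h3]
    abel

/-- The embedding of the Galois closure. -/
def iE (cr : CRt δ d)
    (hφ : ∀ q, φ q = ι q.re + ι q.imI * i + ι q.imJ * j + ι q.imK * (i * j))
    {η : Qt α β} (h0 : η.re = 0)
    (hn : algebraMap k L d * nrd η = -algebraMap k L (dsc p q)) :
    EE L (algebraMap k L (dsc p q)) →ₐ[k] D :=
  qmap ι (δ * φ η) (t_sq cr hφ h0 hn) (t_comm cr hφ η)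

theorem t_star (cr : CRt δ d) (fr : QFr ι α β i j)
    (hφ : ∀ q, φ q = ι q.re + ι q.imI * i + ι q.imJ * j + ι q.imK * (i * j))
    {η : Qt α β} (h0 : η.re = 0) : star (δ * φ η) = δ * φ η := by
  rw [star_mul, star_qhom fr hφ, cr.st, star_eq_neg h0, map_neg, neg_mul_neg, cr.comm]

variable (cr : CRt δ d) (fr : QFr ι α β i j)
    (hφ : ∀ q, φ q = ι q.re + ι q.imI * i + ι q.imJ * j + ι q.imK * (i * j))
    {η : Qt α β} (h0 : η.re = 0)
    (hn : algebraMap k L d * nrd η = -algebraMap k L (dsc p q))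

theorem iE_L (x : L) : iE cr hφ h0 hn (algebraMap L (EE L (algebraMap k L (dsc p q))) x) = ι x := qmap_C _

theorem iE_t : iE cr hφ h0 hn (tt k p q : (EE L (algebraMap k L (dsc p q)))) = δ * φ η := qmap_omega

theorem iE_apply (x : (EE L (algebraMap k L (dsc p q)))) : iE cr hφ h0 hn x = ι x.re + ι x.im * (δ * φ η) := rfl

include fr in
theorem iE_star (x : (EE L (algebraMap k L (dsc p q)))) : star (iE cr hφ h0 hn x) = iE cr hφ h0 hn x := by
  rw [iE_apply, star_add, star_mul, fr.sym, fr.sym, t_star cr fr hφ h0,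
    t_comm cr hφ]

/-- The representation in the quaternion algebra. -/
theorem iE_form (x : (EE L (algebraMap k L (dsc p q)))) : iE cr hφ h0 hn x = φ (algebraMap L _ x.re) +
    δ * φ (algebraMap L _ x.im * η) := by
  rw [iE_apply, phi_alg hφ, map_mul, phi_alg hφ, ← mul_assoc, ← cr.comm, mul_assoc]

theorem s23_re (x : (EE L (algebraMap k L (dsc p q)))) [Fact (∀ r : L, r ^ 2 ≠ algebraMap k L (dsc p q) + 0 * r)] :
    s23 (L := L) k p q x = ⟨x.re, -x.im⟩ := by
  have h1 : s23 (L := L) k p q x = algebraMap L (EE L (algebraMap k L (dsc p q))) x.re + algebraMap L (EE L (algebraMap k L (dsc p q))) x.im * (-tt k p q) := rfl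
  rw [h1]
  ext
  · rw [QuadraticAlgebra.re_add, QuadraticAlgebra.re_mul]
    change x.re + (x.im * -0 + algebraMap k L (dsc p q) * 0 * -1) = x.re
    ring
  · rw [QuadraticAlgebra.im_add, QuadraticAlgebra.im_mul]
    change 0 + (x.im * -1 + 0 * -0 + 0 * 0 * -1) = -x.im
    ring

theorem iE_bar (x : (EE L (algebraMap k L (dsc p q)))) [Fact (∀ r : L, r ^ 2 ≠ algebraMap k L (dsc p q) + 0 * r)] :
    Bar φ δ (iE cr hφ h0 hn x) (iE cr hφ h0 hn (s23 (L := L) k p q x)) := by
  refine ⟨_, _, iE_form cr hφ h0 hn x, ?_⟩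
  rw [iE_form cr hφ h0 hn, s23_re]
  change φ (algebraMap L _ x.re) + δ * φ (algebraMap L _ (-x.im) * η) = _
  rw [star_alg_qt, star_mul, star_alg_qt, star_eq_neg h0, map_neg, neg_mul, ← Algebra.commutes,
    mul_neg, Algebra.commutes]

include fr in
/-- The centralizer of the Galois closure. -/
theorem comm_iE (hp : dsc p q ≠ 0) {z : D} (hz : ∃ q₀ q₁ : Qt α β, z = φ q₀ + δ * φ q₁)
    (hzt : z * (δ * φ η) = δ * φ η * z) :
    ∃ a b : (EE L (algebraMap k L (dsc p q))), z = iE cr hφ h0 hn a + δ * iE cr hφ h0 hn b := by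
  obtain ⟨q₀, q₁, rfl⟩ := hz
  have hn0 : nrd η ≠ 0 := by
    intro h1
    rw [h1, mul_zero, eq_comm, neg_eq_zero, map_eq_zero] at hn
    exact hp hn
  have h1 : (φ q₀ + δ * φ q₁) * φ η = φ η * (φ q₀ + δ * φ q₁) := by
    apply mul_left_cancel₀ cr.ne_zero
    rw [← mul_assoc, cr.comm, mul_assoc, hzt, mul_assoc]
  have h2 : φ (q₀ * η - η * q₀) + δ * φ (q₁ * η - η * q₁) = 0 := by
    rw [map_sub, map_sub, map_mul, map_mul, map_mul, map_mul, mul_sub]
    rw [add_mul, mul_add, mul_assoc, ← mul_assoc (φ η), ← cr.comm (φ η), mul_assoc δ (φ η)] at h1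
    have h3 : φ q₀ * φ η + δ * (φ q₁ * φ η) - (φ η * φ q₀ + δ * (φ η * φ q₁)) = 0 :=
      sub_eq_zero.mpr h1
    rw [← h3]
    abel
  obtain ⟨h3, h4⟩ := phi_inj cr fr hφ h2
  obtain ⟨a, b, e1⟩ := comm_pure h0 hn0 (sub_eq_zero.mp h3)
  obtain ⟨a', b', e2⟩ := comm_pure h0 hn0 (sub_eq_zero.mp h4)
  have hd0 : algebraMap k L d ≠ 0 := (_root_.map_ne_zero _).mpr d.ne_zero
  refine ⟨⟨a, b'⟩, ⟨a', (algebraMap k L d)⁻¹ * b⟩, ?_⟩
  rw [iE_apply, iE_apply]
  change _ = ι a + ι b' * (δ * φ η) + δ * (ι a' + ι ((algebraMap k L d)⁻¹ * b) * (δ * φ η))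
  rw [e1, e2, map_add, map_add, map_mul, map_mul, phi_alg hφ, phi_alg hφ, phi_alg hφ, phi_alg hφ]
  have e3 : δ * (ι ((algebraMap k L d)⁻¹ * b) * (δ * φ η)) = ι b * φ η := by
    calc δ * (ι ((algebraMap k L d)⁻¹ * b) * (δ * φ η)) =
          δ * (ι ((algebraMap k L d)⁻¹ * b) * δ) * φ η := by simp only [mul_assoc]
      _ = δ * δ * ι ((algebraMap k L d)⁻¹ * b) * φ η := by rw [← cr.comm, mul_assoc δ δ]
      _ = ι b * φ η := by
        rw [cr.sq, ← AlgHom.commutes ι, ← map_mul, mul_inv_cancel_left₀ hd0]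
  rw [mul_add, mul_add, e3, ← mul_assoc (ι b') δ, ← cr.comm (ι b'), mul_assoc δ]
  abel

end emb

end Vale.Agent.P011.Six.H422
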