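import Vale.Agent.P011.Six.H422.Emb

/-!
The quaternion algebra over the third conjugate of the cubic field.
-/

open Module NumberField IsDedekindDomain

set_option linter.unusedSectionVars false

namespace Vale.Agent.P011.Six.H422

open Vale.Agent.P011.Arith Vale.Agent.P011.Even Vale.Agent.P011.MPQ Vale.Agent.P011.One

variable {k D : Type} [Field k] [NumberField k] [DivisionRing D] [StarRing D] [Algebra k D]
    {L : Type} [Field L] [NumberField L] [Algebra k L] {ι : L →ₐ[k] D} {δ : D} {d : kˣ}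
    {α β : Lˣ} {i j : D} {φ : Qt α β →+* D} {p q : k} {y : L}

theorem phi_comm_L (hφ : ∀ q, φ q = ι q.re + ι q.imI * i + ι q.imJ * j + ι q.imK * (i * j))
    (w : Qt α β) (x : L) : φ w * ι x = ι x * φ w := by
  rw [← phi_alg hφ, ← map_mul, ← map_mul, Algebra.commutes]

variable [Fact (∀ r : L, r ^ 2 ≠ algebraMap k L (dsc p q) + 0 * r)]

theorem iE_inj (cr : CRt δ d)
    (hφ : ∀ q, φ q = ι q.re + ι q.imI * i + ι q.imJ * j + ι q.imK * (i * j))
    {η : Qt α β} (h0 : η.re = 0)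
    (hn : algebraMap k L d * nrd η = -algebraMap k L (dsc p q)) {x x' : (EE L (algebraMap k L (dsc p q)))}
    (h : iE cr hφ h0 hn x = iE cr hφ h0 hn x') : x = x' :=
  (iE cr hφ h0 hn).toRingHom.injective h

/-- The representation over `k(δ)` is unique. -/
theorem iE_zero (cr : CRt δ d) (fr : QFr ι α β i j)
    (hφ : ∀ q, φ q = ι q.re + ι q.imI * i + ι q.imJ * j + ι q.imK * (i * j))
    {η : Qt α β} (h0 : η.re = 0)
    (hn : algebraMap k L d * nrd η = -algebraMap k L (dsc p q)) {a b : (EE L (algebraMap k L (dsc p q)))}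
    (h : star (iE cr hφ h0 hn a + δ * iE cr hφ h0 hn b) =
      iE cr hφ h0 hn a + δ * iE cr hφ h0 hn b) : b = 0 := by
  rw [star_add, star_mul, iE_star cr fr hφ, iE_star cr fr hφ, cr.st, mul_neg, cr.comm] at h
  have h1 : (2 : D) * (iE cr hφ h0 hn b * δ) = 0 := by
    have h2 := add_left_cancel h
    rw [two_mul]
    nth_rw 1 [← h2]
    exact neg_add_cancel _
  have : CharZero D := charZero_of_injective_algebraMap (algebraMap k D).injective
  have h3 := ((mul_eq_zero.mp h1).resolve_left two_ne_zero)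
  have h4 := (mul_eq_zero.mp h3).resolve_right cr.ne_zero
  exact iE_inj cr hφ h0 hn (by rw [h4, map_zero])

/-- The square of an antisymmetric element inducing the automorphism. -/
theorem sq_mem_E (h : Gen y p q) (cr : CRt δ d) (fr : QFr ι α β i j)
    (hφ : ∀ q, φ q = ι q.re + ι q.imI * i + ι q.imJ * j + ι q.imK * (i * j))
    {η : Qt α β} (h0 : η.re = 0)
    (hn : algebraMap k L d * nrd η = -algebraMap k L (dsc p q))
    {g : D} (hg : g ≠ 0) (hgs : star g = -g)
    (hgx : ∀ x : (EE L (algebraMap k L (dsc p q))), g * iE cr hφ h0 hn x = iE cr hφ h0 hn (h.s13 x) * g)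
    (hgg : ∃ q₀ q₁ : Qt α β, g * g = φ q₀ + δ * φ q₁) :
    ∃ B : Lˣ, g * g = iE cr hφ h0 hn (h.s12 (algebraMap L (EE L (algebraMap k L (dsc p q))) B)) := by
  have h1 : ∀ x : (EE L (algebraMap k L (dsc p q))), g * g * iE cr hφ h0 hn x = iE cr hφ h0 hn x * (g * g) := by
    intro x
    rw [mul_assoc, hgx, ← mul_assoc, hgx, h.r13, mul_assoc]
  obtain ⟨a, b, hab⟩ := comm_iE cr fr hφ h0 hn h.dsc_ne hgg (by
    rw [← iE_t cr hφ h0 hn]
    exact h1 _)
  have hb : b = 0 := by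
    refine iE_zero cr fr hφ h0 hn (a := a) ?_
    rw [← hab, star_mul, hgs, neg_mul_neg]
  rw [hb, map_zero, mul_zero, add_zero] at hab
  have h2 : h.s13 a = a := by
    have h3 := hgx a
    rw [← hab] at h3
    have h4 : iE cr hφ h0 hn a * g = iE cr hφ h0 hn (h.s13 a) * g := by
      rw [← h3, ← hab, mul_assoc]
    exact (iE_inj cr hφ h0 hn (mul_right_cancel₀ hg h4)).symm
  have h3 : s23 (L := L) k p q (h.s12 a) = h.s12 a := by
    rw [h.r23_12, h2]
  have h4 : (h.s12 a).im = 0 := by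
    rw [s23_re] at h3
    have h5 : -(h.s12 a).im = (h.s12 a).im := congrArg QuadraticAlgebra.im h3
    have h6 : (2 : L) * (h.s12 a).im = 0 := by linear_combination -h5
    exact (mul_eq_zero.mp h6).resolve_left two_ne_zero
  have h5 : h.s12 a = algebraMap L (EE L (algebraMap k L (dsc p q))) (h.s12 a).re := by
    ext
    · rfl
    · exact h4
  have h6 : (h.s12 a).re ≠ 0 := by
    intro h7
    rw [h7, map_zero] at h5
    have h8 : a = 0 := by rw [← h.r12 a, h5, map_zero]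
    rw [h8, map_zero] at hab
    exact mul_ne_zero hg hg hab
  refine ⟨Units.mk0 _ h6, ?_⟩
  rw [Units.val_mk0, ← h5, h.r12, hab]

/-- Conjugation of the embedding of the Galois closure. -/
theorem iE_conj (cr : CRt δ d)
    (hφ : ∀ q, φ q = ι q.re + ι q.imI * i + ι q.imJ * j + ι q.imK * (i * j))
    {η η' : Qt α β} (h0 : η.re = 0) (h0' : η'.re = 0)
    (hn : algebraMap k L d * nrd η = -algebraMap k L (dsc p q))
    (hn' : algebraMap k L d * nrd η' = -algebraMap k L (dsc p q)) {r : Qt α β}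
    (hr : φ r ≠ 0) (hη : φ η' = φ r * φ η * (φ r)⁻¹) (x : (EE L (algebraMap k L (dsc p q)))) :
    iE cr hφ h0' hn' x = φ r * iE cr hφ h0 hn x * (φ r)⁻¹ := by
  rw [iE_apply, iE_apply, eq_mul_inv_iff_mul_eq₀ hr, add_mul, mul_add, phi_comm_L hφ, hη]
  congr 1
  rw [mul_assoc (ι x.im), mul_assoc δ, mul_assoc _ (φ r)⁻¹, inv_mul_cancel₀ hr, mul_one,
    ← mul_assoc (φ r) (ι x.im), phi_comm_L hφ, mul_assoc (ι x.im), ← mul_assoc (φ r) δ,
    ← cr.comm (φ r), mul_assoc δ]

/-- The antisymmetric element after the conjugation. -/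
theorem exists_Q (h : Gen y p q) (cr : CRt δ d) (fr : QFr ι α β i j)
    (hφ : ∀ q, φ q = ι q.re + ι q.imI * i + ι q.imJ * j + ι q.imK * (i * j))
    {η : Qt α β} (h0 : η.re = 0)
    (hn : algebraMap k L d * nrd η = -algebraMap k L (dsc p q))
    {g : D} (hg : g ≠ 0) (hgs : star g = -g)
    (hgx : ∀ x : (EE L (algebraMap k L (dsc p q))), g * iE cr hφ h0 hn x = iE cr hφ h0 hn (h.s13 x) * g)
    {B : Lˣ} (hB : g * g = iE cr hφ h0 hn (h.s12 (algebraMap L (EE L (algebraMap k L (dsc p q))) B))) {r : Qt α β} {l : Lˣ}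
    (hr : nrd r = l) :
    ∃ (η' : Qt α β) (h0' : η'.re = 0)
      (hn' : algebraMap k L d * nrd η' = -algebraMap k L (dsc p q)) (Q : D), Q ≠ 0 ∧
      φ η' = φ r * φ η * (φ r)⁻¹ ∧ star Q = -Q ∧
      (∀ x : (EE L (algebraMap k L (dsc p q))), Q * iE cr hφ h0' hn' x = iE cr hφ h0' hn' (h.s13 x) * Q) ∧
      Q * Q = iE cr hφ h0' hn' (algebraMap L (EE L (algebraMap k L (dsc p q))) l * h.s13 (algebraMap L (EE L (algebraMap k L (dsc p q))) l) *
        h.s12 (algebraMap L (EE L (algebraMap k L (dsc p q))) B))⁻¹ := by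
  have hr0 : r ≠ 0 := by
    rintro rfl
    have h1 : nrd (0 : Qt α β) = 0 := by simp [nrd]
    rw [h1] at hr
    exact l.ne_zero hr.symm
  have hR : φ r ≠ 0 := fun h1 => hr0 (qhom_inj fr hφ h1)
  obtain ⟨η', h0', hn', hη⟩ := pure_conj fr hφ h0 hr0
  have hn'' : algebraMap k L d * nrd η' = -algebraMap k L (dsc p q) := by rw [hn', hn]
  obtain ⟨j0, hj0⟩ : ∃ j0, j0 = iE cr hφ h0 hn := ⟨_, rfl⟩
  obtain ⟨b, hb⟩ : ∃ b : (EE L (algebraMap k L (dsc p q))), b = h.s12 (algebraMap L (EE L (algebraMap k L (dsc p q))) B) := ⟨_, rfl⟩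
  have hb0 : b ≠ 0 := by
    rw [hb]
    exact (_root_.map_ne_zero _).mpr ((_root_.map_ne_zero _).mpr B.ne_zero)
  obtain ⟨R, hRd⟩ : ∃ R, R = φ r := ⟨_, rfl⟩
  obtain ⟨lE, hlE⟩ : ∃ b : (EE L (algebraMap k L (dsc p q))), b = algebraMap L (EE L (algebraMap k L (dsc p q))) l := ⟨_, rfl⟩
  have hl0 : lE ≠ 0 := by rw [hlE]; exact (_root_.map_ne_zero _).mpr l.ne_zero
  have hjl : j0 lE = ι l := by rw [hj0, hlE, iE_L]
  have hconj : ∀ x : (EE L (algebraMap k L (dsc p q))), iE cr hφ h0' hn'' x = R * j0 x * R⁻¹ := fun x => by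
    rw [hj0, hRd]
    exact iE_conj cr hφ h0 h0' hn hn'' hR hη x
  have hRR : star R * R = j0 lE := by
    rw [hRd, star_qhom fr hφ, ← map_mul, star_mul_self_qt, hr, phi_alg hφ, hjl]
  have hRl : R * j0 lE = j0 lE * R := by rw [hjl, hRd, phi_comm_L hφ]
  rw [← hj0, ← hb] at hB
  rw [← hj0] at hgx
  rw [← hRd] at hR
  have hjs : ∀ x, star (j0 x) = j0 x := fun x => by rw [hj0]; exact iE_star cr fr hφ h0 hn x
  have hb13 : h.s13 b = b := by rw [hb, h.j13_2]
  have hgb : g * j0 b = j0 b * g := by rw [hgx, hb13]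
  have hsR : star R = j0 lE * R⁻¹ := by
    rw [eq_mul_inv_iff_mul_eq₀ hR, hRR]
  have hjl0 : j0 lE ≠ 0 := (_root_.map_ne_zero _).mpr hl0
  have hjb0 : j0 b ≠ 0 := (_root_.map_ne_zero _).mpr hb0
  have hcomm : ∀ x x' : (EE L (algebraMap k L (dsc p q))), j0 x * j0 x' = j0 x' * j0 x := fun x x' => by
    rw [← map_mul, mul_comm, map_mul]
  refine ⟨η', h0', hn'', R * j0 (lE * b)⁻¹ * g * R⁻¹, ?_, by rw [hη], ?_, fun x => ?_, ?_⟩
  · refine mul_ne_zero (mul_ne_zero (mul_ne_zero hR ?_) hg) (inv_ne_zero hR)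
    exact (_root_.map_ne_zero _).mpr (inv_ne_zero (mul_ne_zero hl0 hb0))
  · -- antisymmetry
    have e1 : star (R * j0 (lE * b)⁻¹ * g * R⁻¹) =
        (star R)⁻¹ * (-g) * j0 (lE * b)⁻¹ * star R := by
      rw [star_mul, star_mul, star_mul, hjs, hgs, star_inv₀]
      simp only [mul_assoc]
    have e2 : (star R)⁻¹ = (j0 lE)⁻¹ * R := by
      rw [hsR, mul_inv_rev, inv_inv, mul_inv_eq_iff_eq_mul₀ hjl0, mul_assoc, hRl,
        inv_mul_cancel_left₀ hjl0]
    have e3 : j0 (lE * b)⁻¹ * j0 lE = j0 b⁻¹ := by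
      rw [← map_mul]
      congr 1
      field_simp
    have e4 : g * j0 b⁻¹ = j0 b⁻¹ * g := by
      rw [map_inv₀, mul_inv_eq_iff_eq_mul₀ hjb0, mul_assoc, hgb, inv_mul_cancel_left₀ hjb0]
    have e5 : (j0 lE)⁻¹ * R = R * (j0 lE)⁻¹ := by
      rw [eq_mul_inv_iff_mul_eq₀ hjl0, mul_assoc, hRl, inv_mul_cancel_left₀ hjl0]
    have e6 : (j0 lE)⁻¹ * j0 b⁻¹ = j0 (lE * b)⁻¹ := by
      rw [← map_inv₀, ← map_mul, mul_inv]
    calc star (R * j0 (lE * b)⁻¹ * g * R⁻¹)
        = (j0 lE)⁻¹ * R * (-g) * (j0 (lE * b)⁻¹ * j0 lE) * R⁻¹ := by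
          rw [e1, e2, hsR]
          simp only [mul_assoc]
      _ = -(R * ((j0 lE)⁻¹ * (g * j0 b⁻¹)) * R⁻¹) := by
          rw [e3, e5]
          simp only [mul_assoc, neg_mul, mul_neg]
      _ = -(R * j0 (lE * b)⁻¹ * g * R⁻¹) := by
          rw [e4, ← mul_assoc (j0 lE)⁻¹, e6]
          simp only [mul_assoc]
  · rw [hconj, hconj]
    have e1 : g * j0 x = j0 (h.s13 x) * g := hgx x
    calc R * j0 (lE * b)⁻¹ * g * R⁻¹ * (R * j0 x * R⁻¹)
        = R * (j0 (lE * b)⁻¹ * (g * j0 x)) * R⁻¹ := by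
          simp only [mul_assoc]
          rw [inv_mul_cancel_left₀ hR]
      _ = R * (j0 (h.s13 x) * j0 (lE * b)⁻¹ * g) * R⁻¹ := by
          rw [e1, ← mul_assoc (j0 (lE * b)⁻¹), hcomm]
      _ = R * j0 (h.s13 x) * R⁻¹ * (R * j0 (lE * b)⁻¹ * g * R⁻¹) := by
          simp only [mul_assoc]
          rw [inv_mul_cancel_left₀ hR]
  · rw [hconj, ← hb, ← hlE]
    have e1 : g * j0 (lE * b)⁻¹ = j0 (h.s13 (lE * b)⁻¹) * g := hgx _
    have e2 : j0 (lE * b)⁻¹ * (j0 (h.s13 (lE * b)⁻¹) * j0 b) =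
        j0 (lE * h.s13 lE * b)⁻¹ := by
      rw [← map_mul, ← map_mul, map_inv₀, map_mul h.s13, hb13]
      congr 1
      have h5 : h.s13 lE ≠ 0 := (_root_.map_ne_zero _).mpr hl0
      field_simp
    calc R * j0 (lE * b)⁻¹ * g * R⁻¹ * (R * j0 (lE * b)⁻¹ * g * R⁻¹)
        = R * (j0 (lE * b)⁻¹ * (g * j0 (lE * b)⁻¹) * g) * R⁻¹ := by
          simp only [mul_assoc]
          rw [inv_mul_cancel_left₀ hR]
      _ = R * (j0 (lE * b)⁻¹ * (j0 (h.s13 (lE * b)⁻¹) * (g * g))) * R⁻¹ := by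
          rw [e1]
          simp only [mul_assoc]
      _ = _ := by rw [hB, e2]

/-- The embedding of the third conjugate. -/
noncomputable def i3 (h : Gen y p q) (cr : CRt δ d)
    (hφ : ∀ q, φ q = ι q.re + ι q.imI * i + ι q.imJ * j + ι q.imK * (i * j))
    {η : Qt α β} (h0 : η.re = 0)
    (hn : algebraMap k L d * nrd η = -algebraMap k L (dsc p q)) : L →ₐ[k] D :=
  (iE cr hφ h0 hn).comp (h.s13.comp (IsScalarTower.toAlgHom k L (EE L (algebraMap k L (dsc p q)))))

theorem i3_apply (h : Gen y p q) (cr : CRt δ d)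
    (hφ : ∀ q, φ q = ι q.re + ι q.imI * i + ι q.imJ * j + ι q.imK * (i * j))
    {η : Qt α β} (h0 : η.re = 0)
    (hn : algebraMap k L d * nrd η = -algebraMap k L (dsc p q)) (x : L) :
    i3 h cr hφ h0 hn x = iE cr hφ h0 hn (h.s13 (algebraMap L (EE L (algebraMap k L (dsc p q))) x)) := rfl

/-- Pure quaternions anticommuting with `η` induce the automorphism over `L`. -/
theorem phi_anti (cr : CRt δ d)
    (hφ : ∀ q, φ q = ι q.re + ι q.imI * i + ι q.imJ * j + ι q.imK * (i * j))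
    {η : Qt α β} (h0 : η.re = 0)
    (hn : algebraMap k L d * nrd η = -algebraMap k L (dsc p q)) {c : Qt α β}
    (hc : c * η = -(η * c)) (x : (EE L (algebraMap k L (dsc p q)))) :
    φ c * iE cr hφ h0 hn x = iE cr hφ h0 hn (s23 (L := L) k p q x) * φ c := by
  rw [iE_apply, s23_re, iE_apply]
  change _ = (ι x.re + ι (-x.im) * (δ * φ η)) * φ c
  have e1 : φ c * (δ * φ η) = -(δ * φ η * φ c) := by
    rw [← mul_assoc, ← cr.comm, mul_assoc, ← map_mul, hc, map_neg, map_mul, mul_neg, mul_assoc]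
  rw [mul_add, add_mul, phi_comm_L hφ, ← mul_assoc (φ c), phi_comm_L hφ, mul_assoc (ι x.im), e1,
    map_neg, neg_mul, neg_mul, mul_neg, mul_assoc (ι x.im)]

/-- **The frame over the third conjugate.** -/
theorem frame3 (h : Gen y p q) (cr : CRt δ d) (fr : QFr ι α β i j)
    (hφ : ∀ q, φ q = ι q.re + ι q.imI * i + ι q.imJ * j + ι q.imK * (i * j))
    {η : Qt α β} (h0 : η.re = 0)
    (hn : algebraMap k L d * nrd η = -algebraMap k L (dsc p q))
    {Q : D} (hQs : star Q = -Q)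
    (hQ : ∀ x : (EE L (algebraMap k L (dsc p q))), Q * iE cr hφ h0 hn x = iE cr hφ h0 hn (h.s13 x) * Q) {C : (EE L (algebraMap k L (dsc p q)))}
    (hQQ : Q * Q = iE cr hφ h0 hn C) (hC : h.s13 C = C) {c : Qt α β} (hc0 : c.re = 0)
    (hc : c * η = -(η * c)) {ε γ : Lˣ} (hε : (ε : L) = algebraMap k L (d * dsc p q))
    (hγ : algebraMap L (EE L (algebraMap k L (dsc p q))) γ = algebraMap L (EE L (algebraMap k L (dsc p q))) (-nrd c) * (C * s23 (L := L) k p q C)) :
    QFr (i3 h cr hφ h0 hn) ε γ (δ * (δ * φ η)) (Q * φ c * Q) := by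
  have hJ := phi_anti cr hφ h0 hn hc
  obtain ⟨f, hf⟩ : ∃ f, f = iE cr hφ h0 hn := ⟨_, rfl⟩
  have hft : δ * φ η = f (tt k p q) := by rw [hf, iE_t]
  have hfs : ∀ x, star (f x) = f x := fun x => by rw [hf]; exact iE_star cr fr hφ h0 hn x
  have h3 : ∀ x, i3 h cr hφ h0 hn x = f (h.s13 (algebraMap L (EE L (algebraMap k L (dsc p q))) x)) := fun x => by
    rw [hf]; rfl
  rw [← hf] at hQ hQQ hJ
  rw [hft]
  obtain ⟨J, hJd⟩ : ∃ J, J = φ c := ⟨_, rfl⟩
  rw [← hJd] at hJ
  rw [← hJd]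
  have hJs : star J = -J := by rw [hJd, star_qhom fr hφ, star_eq_neg hc0, map_neg]
  have hJJ : J * J = f (algebraMap L (EE L (algebraMap k L (dsc p q))) (-nrd c)) := by
    rw [hJd, ← map_mul, pure_sq hc0, phi_alg hφ, hf, iE_L]
  have hcomm : ∀ x x' : (EE L (algebraMap k L (dsc p q))), f x * f x' = f x' * f x := fun x x' => by
    rw [← map_mul, mul_comm, map_mul]
  have hQ' : ∀ x : (EE L (algebraMap k L (dsc p q))), f x * Q = Q * f (h.s13 x) := fun x => by rw [hQ, h.r13]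
  have hJ' : ∀ x : (EE L (algebraMap k L (dsc p q))), f x * J = J * f (s23 (L := L) k p q x) := fun x => by rw [hJ, h.r23]
  refine ⟨fun x => ?_, ?_, ?_, ?_, ?_, ?_, fun x => ?_, fun x => ?_⟩
  · rw [h3, hfs]
  · rw [star_mul, hfs, cr.st, mul_neg, cr.comm]
  · rw [star_mul, star_mul, hQs, hJs]
    simp only [neg_mul, mul_neg, neg_neg, mul_assoc]
  · have e1 : δ * f (tt k p q) * (δ * f (tt k p q)) = δ * δ * (f (tt k p q) * f (tt k p q)) := by
      rw [mul_assoc, ← mul_assoc (f _), ← cr.comm (f _), mul_assoc, ← mul_assoc]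
    have e2 : algebraMap L (EE L (algebraMap k L (dsc p q))) (algebraMap k L (d * dsc p q)) = algebraMap k (EE L (algebraMap k L (dsc p q))) (d * dsc p q) := rfl
    rw [e1, ← map_mul, tt_sq, cr.sq, h3, hε, e2, AlgHom.commutes, AlgHom.commutes,
      AlgHom.commutes, map_mul]
  · have e1 : J * f C = f (s23 (L := L) k p q C) * J := hJ C
    calc Q * J * Q * (Q * J * Q) = Q * (J * (Q * Q) * J) * Q := by simp only [mul_assoc]
      _ = Q * (f (s23 (L := L) k p q C) * (J * J)) * Q := by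
          rw [hQQ, e1]
          simp only [mul_assoc]
      _ = Q * f (s23 (L := L) k p q C * algebraMap L (EE L (algebraMap k L (dsc p q))) (-nrd c)) * Q := by
          rw [hJJ, ← map_mul]
      _ = f (h.s13 (s23 (L := L) k p q C * algebraMap L (EE L (algebraMap k L (dsc p q))) (-nrd c))) * (Q * Q) := by
          rw [hQ, mul_assoc]
      _ = f (h.s13 (algebraMap L (EE L (algebraMap k L (dsc p q))) γ)) := by
          rw [hQQ, ← map_mul, hγ, map_mul h.s13, map_mul h.s13, map_mul h.s13, hC]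
          congr 1
          ring
      _ = i3 h cr hφ h0 hn γ := (h3 _).symm
  · have e1 : f (tt k p q) * Q = -(Q * f (tt k p q)) := by
      rw [hQ' (tt k p q), h.s13_t, map_neg, mul_neg]
    have e2 : f (tt k p q) * J = -(J * f (tt k p q)) := by
      rw [hJ', s23_t, map_neg, mul_neg]
    calc δ * f (tt k p q) * (Q * J * Q) = δ * (f (tt k p q) * Q * J * Q) := by
          simp only [mul_assoc]
      _ = -(δ * (Q * (f (tt k p q) * J) * Q)) := by
          rw [e1]
          simp only [mul_assoc, neg_mul, mul_neg]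
      _ = δ * (Q * J * (f (tt k p q) * Q)) := by
          rw [e2]
          simp only [mul_assoc, neg_mul, mul_neg, neg_neg]
      _ = -(δ * (Q * J * Q * f (tt k p q))) := by
          rw [e1]
          simp only [mul_assoc, neg_mul, mul_neg]
      _ = -(Q * J * Q * (δ * f (tt k p q))) := by
          rw [← mul_assoc δ, cr.comm, mul_assoc (Q * J * Q)]
  · rw [h3, ← mul_assoc, ← cr.comm, mul_assoc, hcomm, ← mul_assoc]
  · rw [h3]
    have e1 : f (h.s13 (algebraMap L (EE L (algebraMap k L (dsc p q))) x)) * Q = Q * f (algebraMap L (EE L (algebraMap k L (dsc p q))) x) := by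
      rw [hQ', h.r13]
    have e2 : f (algebraMap L (EE L (algebraMap k L (dsc p q))) x) * J = J * f (algebraMap L (EE L (algebraMap k L (dsc p q))) x) := by
      rw [hJ', s23_L]
    have e3 : f (algebraMap L (EE L (algebraMap k L (dsc p q))) x) * Q = Q * f (h.s13 (algebraMap L (EE L (algebraMap k L (dsc p q))) x)) := hQ' _
    calc f (h.s13 (algebraMap L (EE L (algebraMap k L (dsc p q))) x)) * (Q * J * Q) = Q * (f (algebraMap L (EE L (algebraMap k L (dsc p q))) x) * J) * Q := by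
          rw [← mul_assoc, ← mul_assoc, e1]
          simp only [mul_assoc]
      _ = Q * J * (f (algebraMap L (EE L (algebraMap k L (dsc p q))) x) * Q) := by
          rw [e2]
          simp only [mul_assoc]
      _ = _ := by rw [e3]; simp only [mul_assoc]

end Vale.Agent.P011.Six.H422
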