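import Mathlib

/-!
The Galois closure of a cubic extension, given by a square root of the discriminant.
-/

open Module Polynomial

set_option linter.unusedSectionVars false

namespace Vale.Agent.P011.Six.H422

section qmap

variable {k R A : Type*} [CommRing k] [CommRing R] [Algebra k R] [Ring A] [Algebra k A]

/-- The homomorphism from `R[√a]` given by a homomorphism of `R` and a square root. -/
def qmap {a : R} (h : R →ₐ[k] A) (t : A) (ht : t * t = h a) (hc : ∀ x, h x * t = t * h x) :
    QuadraticAlgebra R a 0 →ₐ[k] A where
  toFun z := h z.re + h z.im * t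
  map_one' := by simp [QuadraticAlgebra.re_one, QuadraticAlgebra.im_one]
  map_zero' := by simp
  map_add' x y := by
    simp only [QuadraticAlgebra.re_add, QuadraticAlgebra.im_add, map_add, add_mul]
    abel
  map_mul' x y := by
    have e1 : h x.im * t * (h y.im * t) = h (a * x.im * y.im) := by
      calc h x.im * t * (h y.im * t) = h x.im * (t * h y.im) * t := by simp only [mul_assoc]
        _ = h x.im * h y.im * (t * t) := by rw [← hc]; simp only [mul_assoc]
        _ = _ := by rw [ht, ← map_mul, ← map_mul]; congr 1; ring
    have e2 : h x.im * t * h y.re = h (x.im * y.re) * t := by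
      rw [mul_assoc, ← hc, ← mul_assoc, map_mul]
    rw [add_mul, mul_add, mul_add, e1, e2, QuadraticAlgebra.re_mul, QuadraticAlgebra.im_mul,
      zero_mul, zero_mul, add_zero, map_add, map_add, map_mul h x.re, map_mul h x.re, add_mul,
      ← mul_assoc (h x.re) (h y.im) t]
    abel
  commutes' r := by
    change h (algebraMap k R r) + h 0 * t = algebraMap k A r
    rw [map_zero, zero_mul, add_zero, AlgHom.commutes]

variable {a : R} {h : R →ₐ[k] A} {t : A} {ht : t * t = h a} {hc : ∀ x, h x * t = t * h x}

theorem qmap_apply (z : QuadraticAlgebra R a 0) : qmap h t ht hc z = h z.re + h z.im * t := rfl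

theorem qmap_C (x : R) : qmap h t ht hc ⟨x, 0⟩ = h x := by
  rw [qmap_apply]
  change h x + h 0 * t = _
  rw [map_zero, zero_mul, add_zero]

theorem qmap_omega : qmap h t ht hc ⟨0, 1⟩ = t := by
  rw [qmap_apply]
  change h 0 + h 1 * t = _
  rw [map_zero, map_one, one_mul, zero_add]

end qmap

section gen

variable {k L : Type*} [Field k] [CharZero k] [Field L] [Algebra k L]

/-- A generator of trace zero of a cubic extension. -/
structure Gen (y : L) (p q : k) : Prop where
  rank : finrank k L = 3
  eq : y ^ 3 + algebraMap k L p * y + algebraMap k L q = 0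
  ne : ∀ c : k, algebraMap k L c ≠ y

variable {y : L} {p q : k}

theorem Gen.fin (h : Gen y p q) : FiniteDimensional k L :=
  Module.finite_of_finrank_pos (by rw [h.rank]; norm_num)

theorem Gen.natDegree (h : Gen y p q) : (minpoly k y).natDegree = 3 := by
  have := h.fin
  have h1 : (minpoly k y).natDegree ∣ 3 := by
    have h4 : finrank k (IntermediateField.adjoin k {y}) *
        finrank (IntermediateField.adjoin k {y}) L = finrank k L := Module.finrank_mul_finrank _ _ _
    rw [IntermediateField.adjoin.finrank (Algebra.IsIntegral.isIntegral y), h.rank] at h4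
    exact Dvd.intro _ h4
  rcases (Nat.dvd_prime Nat.prime_three).mp h1 with h2 | h2
  · exfalso
    obtain ⟨c, hc⟩ := (minpoly.natDegree_eq_one_iff (A := k) (x := y)).mp h2
    exact h.ne c hc
  · exact h2

/-- The power basis given by the generator. -/
noncomputable def Gen.pb (h : Gen y p q) : PowerBasis k L :=
  have := h.fin
  PowerBasis.ofAdjoinEqTop (Algebra.IsIntegral.isIntegral y) (by
    have h1 : IntermediateField.adjoin k {y} = ⊤ :=
      (Field.primitive_element_iff_minpoly_natDegree_eq k y).mpr (by rw [h.natDegree, h.rank])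
    have h2 := IntermediateField.adjoin_simple_toSubalgebra_of_isAlgebraic (F := k) (α := y)
      (Algebra.IsIntegral.isIntegral (R := k) y).isAlgebraic
    rw [← h2, h1, IntermediateField.top_toSubalgebra])

theorem Gen.pb_gen (h : Gen y p q) : h.pb.gen = y := PowerBasis.ofAdjoinEqTop_gen _ _

theorem Gen.minpoly_eq (h : Gen y p q) : minpoly k y = X ^ 3 + C p * X + C q := by
  have := h.fin
  have hm : (X ^ 3 + C p * X + C q : k[X]).Monic := by monicity!
  have hd : (X ^ 3 + C p * X + C q : k[X]).natDegree = 3 := by compute_degree!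
  have h0 : aeval y (X ^ 3 + C p * X + C q : k[X]) = 0 := by
    simp only [map_add, map_mul, map_pow, aeval_X, aeval_C]
    exact h.eq
  have h1 : minpoly k y ∣ X ^ 3 + C p * X + C q := minpoly.dvd k y h0
  exact (Polynomial.eq_of_monic_of_dvd_of_natDegree_le
    (minpoly.monic (Algebra.IsIntegral.isIntegral y)) hm h1 (by rw [hd, h.natDegree])).symm

/-- The homomorphism given by the image of the generator. -/
noncomputable def Gen.lift (h : Gen y p q) {A : Type*} [Ring A] [Algebra k A] (z : A)
    (hz : z ^ 3 + algebraMap k A p * z + algebraMap k A q = 0) : L →ₐ[k] A :=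
  h.pb.lift z (by
    rw [h.pb_gen, h.minpoly_eq]
    simp only [map_add, map_mul, map_pow, aeval_X, aeval_C]
    exact hz)

theorem Gen.lift_gen (h : Gen y p q) {A : Type*} [Ring A] [Algebra k A] (z : A)
    (hz : z ^ 3 + algebraMap k A p * z + algebraMap k A q = 0) : h.lift z hz y = z := by
  have h1 := h.pb.lift_gen z (by
    rw [h.pb_gen, h.minpoly_eq]
    simp only [map_add, map_mul, map_pow, aeval_X, aeval_C]
    exact hz)
  have h2 : h.lift z hz h.pb.gen = z := h1
  rwa [h.pb_gen] at h2

theorem Gen.ext (h : Gen y p q) {A : Type*} [Ring A] [Algebra k A] {f g : L →ₐ[k] A}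
    (hfg : f y = g y) : f = g := by
  refine h.pb.algHom_ext ?_
  rw [h.pb_gen]
  exact hfg

end gen

end Vale.Agent.P011.Six.H422
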