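import Vale.Agent.P011.Six.H422.Cen
import Vale.Agent.P011.Six.Cub

/-!
Generators of trace zero, and the norm from the cubic field.
-/

open Module NumberField IsDedekindDomain

set_option linter.unusedSectionVars false

namespace Vale.Agent.P011.Six.H422

open Vale.Agent.P011.Arith Vale.Agent.P011.Even Vale.Agent.P011.MPQ Vale.Agent.P011.One

/-- The relations between the coefficients and the roots. -/
theorem vieta3 {M : Type*} [Field M] {x y z e₁ e₂ e₃ : M}
    (hx : x ^ 3 = e₁ * x ^ 2 - e₂ * x + e₃) (hy : y ^ 3 = e₁ * y ^ 2 - e₂ * y + e₃)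
    (hz : z ^ 3 = e₁ * z ^ 2 - e₂ * z + e₃) (hxy : x ≠ y) (hxz : x ≠ z) (hyz : y ≠ z) :
    e₁ = x + y + z ∧ e₂ = x * y + x * z + y * z ∧ e₃ = x * y * z := by
  have h1 : x ^ 2 + x * y + y ^ 2 - e₁ * (x + y) + e₂ = 0 := by
    apply mul_left_cancel₀ (sub_ne_zero.mpr hxy)
    linear_combination hx - hy
  have h2 : x ^ 2 + x * z + z ^ 2 - e₁ * (x + z) + e₂ = 0 := by
    apply mul_left_cancel₀ (sub_ne_zero.mpr hxz)
    linear_combination hx - hz
  have h3 : x + y + z - e₁ = 0 := by
    apply mul_left_cancel₀ (sub_ne_zero.mpr hyz)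
    linear_combination h1 - h2
  have h4 : e₁ = x + y + z := (sub_eq_zero.mp h3).symm
  have h5 : e₂ = x * y + x * z + y * z := by
    rw [h4] at h1
    linear_combination h1
  refine ⟨h4, h5, ?_⟩
  rw [h4, h5] at hx
  linear_combination -hx

section gen

variable {k L : Type} [Field k] [NumberField k] [Field L] [NumberField L] [Algebra k L]

/-- A generator of trace zero. -/
theorem exists_gen {c : L} (h3 : finrank k L = 3) (hc : ∀ a : k, algebraMap k L a ≠ c) :
    ∃ (y : L) (p q : k), Gen y p q ∧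
      dsc p q = Algebra.discr k (fun i : Fin 3 => c ^ (i : ℕ)) := by
  obtain ⟨e₁, e₂, e₃, h1, t1, t2, -⟩ := Six.exists_cub h3 hc
  obtain ⟨t3, t4⟩ := Six.trace_pow h3 h1
  have t0 := Six.trace_one_cub (R := k) (E := L) h3
  rw [t1, t2] at t3
  rw [t2, t1, t3] at t4
  refine ⟨c - algebraMap k L (e₁ / 3), e₂ - e₁ ^ 2 / 3,
    -2 * e₁ ^ 3 / 27 + e₁ * e₂ / 3 - e₃, ⟨h3, ?_, ?_⟩, ?_⟩
  · simp only [map_sub, map_add, map_mul, map_neg, map_pow, map_div₀, map_ofNat]
    field_simp
    linear_combination 729 * h1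
  · intro a ha
    refine hc (a + e₁ / 3) ?_
    rw [map_add, ha]
    ring
  · rw [Algebra.discr_def, Matrix.det_fin_three]
    simp only [Algebra.traceMatrix_apply, Algebra.traceForm_apply, Fin.isValue, Fin.val_zero,
      Fin.val_one, Fin.val_two, pow_zero, pow_one, one_mul, mul_one]
    have m1 : c * c = c ^ 2 := by ring
    have m2 : c * c ^ 2 = c ^ 3 := by ring
    have m3 : c ^ 2 * c = c ^ 3 := by ring
    have m4 : c ^ 2 * c ^ 2 = c ^ 4 := by ring
    rw [m1, m2, m3, m4, t0, t1, t2, t3, t4, dsc]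
    field_simp
    ring

/-- At a real place where the discriminant is negative, there is a single real place above. -/
theorem Gen.unique_real {y : L} {p q : k} (h : Gen y p q) {φ : k →+* ℝ} (hφ : φ (dsc p q) < 0)
    {ψ ψ' : L →+* ℝ} (h1 : ψ.comp (algebraMap k L) = φ) (h2 : ψ'.comp (algebraMap k L) = φ) :
    ψ = ψ' := by
  let _ : Algebra k ℝ := φ.toAlgebra
  have a1 : ∀ x : k, ψ (algebraMap k L x) = φ x := fun x => RingHom.congr_fun h1 x
  have a2 : ∀ x : k, ψ' (algebraMap k L x) = φ x := fun x => RingHom.congr_fun h2 x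
  let f : L →ₐ[k] ℝ := ⟨ψ, a1⟩
  let f' : L →ₐ[k] ℝ := ⟨ψ', a2⟩
  have hff : f = f' := by
    apply h.ext
    change ψ y = ψ' y
    by_contra hne
    have e1 : ψ y ^ 3 + φ p * ψ y + φ q = 0 := by
      have h3 := congrArg ψ h.eq
      simpa only [map_add, map_mul, map_pow, map_zero, a1] using h3
    have e2 : ψ' y ^ 3 + φ p * ψ' y + φ q = 0 := by
      have h3 := congrArg ψ' h.eq
      simpa only [map_add, map_mul, map_pow, map_zero, a2] using h3
    have e3 : ψ y ^ 2 + ψ y * ψ' y + ψ' y ^ 2 + φ p = 0 := by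
      apply mul_left_cancel₀ (sub_ne_zero.mpr hne)
      linear_combination e1 - e2
    have e4 : φ p = -(ψ y ^ 2 + ψ y * ψ' y + ψ' y ^ 2) := by linear_combination e3
    have e5 : φ q = ψ y * ψ' y * (ψ y + ψ' y) := by
      rw [e4] at e1
      linear_combination e1
    have e6 : φ (dsc p q) =
        ((ψ y - ψ' y) * (2 * ψ y + ψ' y) * (ψ y + 2 * ψ' y)) ^ 2 := by
      rw [dsc]
      simp only [map_sub, map_mul, map_neg, map_pow, map_ofNat, e4, e5]
      ring
    rw [e6] at hφ
    exact absurd hφ (not_lt.mpr (sq_nonneg _))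
  exact RingHom.ext fun x => congrArg (fun g : L →ₐ[k] ℝ => g x) hff

end gen

section norm

variable {k : Type} [Field k] [NumberField k]
    {L : Type} [Field L] [NumberField L] [Algebra k L] {p q : k} {y : L}

variable [Fact (∀ r : L, r ^ 2 ≠ algebraMap k L (dsc p q) + 0 * r)]

/-- The norm from the cubic field is the product of the conjugates. -/
theorem Gen.norm_eq (h : Gen y p q) (x : L) :
    algebraMap k (EE L (algebraMap k L (dsc p q))) (Algebra.norm k x) =
      algebraMap L _ x * h.s12 (algebraMap L _ x) * h.s13 (algebraMap L _ x) := by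
  have htow : ∀ c : k, algebraMap L (EE L (algebraMap k L (dsc p q))) (algebraMap k L c) =
    algebraMap k _ c := fun c => rfl
  by_cases hx : ∃ c : k, algebraMap k L c = x
  · obtain ⟨c, rfl⟩ := hx
    rw [Algebra.norm_algebraMap, h.rank, htow, AlgHom.commutes, AlgHom.commutes, map_pow]
    ring
  · have hx1 : ∀ c : k, algebraMap k L c ≠ x - 1 := by
      intro c hc
      exact hx ⟨c + 1, by rw [map_add, map_one, hc]; ring⟩
    obtain ⟨e₁, e₂, e₃, h1, -, -, hN⟩ := Six.exists_cub h.rank hx1
    have e0 : (1 : L) + (x - 1) = x := by ring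
    rw [e0] at hN
    obtain ⟨X, hX⟩ : ∃ X, X = algebraMap L (EE L (algebraMap k L (dsc p q))) (x - 1) :=
      ⟨_, rfl⟩
    have r1 : X ^ 3 = algebraMap k _ e₁ * X ^ 2 - algebraMap k _ e₂ * X +
        algebraMap k _ e₃ := by
      rw [hX, ← map_pow, h1, map_add, map_sub, map_mul, map_mul, map_pow, htow, htow, htow]
    have r2 := congrArg h.s12 r1
    have r3 := congrArg h.s13 r1
    simp only [map_add, map_sub, map_mul, map_pow, AlgHom.commutes] at r2 r3
    have n12 : X ≠ h.s12 X := by
      intro h2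
      obtain ⟨c, hc⟩ := h.fixed (x := x - 1) (by rw [← hX, ← h2])
      exact hx1 c hc
    have n13 : X ≠ h.s13 X := by
      intro h2
      apply n12
      have h3 := congrArg (s23 (L := L) k p q) h2
      rw [hX, s23_L, h.j23_3] at h3
      rw [hX]
      exact h3
    have n23 : h.s12 X ≠ h.s13 X := by
      intro h2
      apply n13
      have h3 := congrArg h.s12 h2
      rw [h.r12, hX, h.j12_3] at h3
      rw [hX]
      exact h3
    obtain ⟨v1, v2, v3⟩ := vieta3 r1 r2 r3 n12 n13 n23
    have hX1 : algebraMap L (EE L (algebraMap k L (dsc p q))) x = 1 + X := by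
      rw [hX, map_sub, map_one]; ring
    rw [hN, hX1, map_add, map_add, map_add, map_one, map_add h.s12, map_add h.s13, map_one,
      map_one, v1, v2, v3]
    ring

end norm

end Vale.Agent.P011.Six.H422
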