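import Vale.Agent.P011.Six.H422.MField

/-!
The maximal subfield generated by the cubic field, the square root of its discriminant and the
central square root.
-/

open Module NumberField IsDedekindDomain

set_option linter.unusedSectionVars false

namespace Vale.Agent.P011.Six.H422

open Vale.Agent.P011.Arith Vale.Agent.P011.Even Vale.Agent.P011.MPQ Vale.Agent.P011.One

/-- The maximal subfield with its automorphisms: the generators. -/
structure MD1 {k L M : Type} [Field k] [Field L] [Algebra k L] [Field M] [Algebra k M]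
    [Algebra L M] (d Δ : k) (s u v c : M →ₐ[k] M) (T ω : M) : Prop where
  TT : T * T = algebraMap k M Δ
  ωω : ω * ω = algebraMap k M d
  sT : s T = -T
  uT : u T = -T
  vT : v T = -T
  cT : c T = T
  sω : s ω = ω
  uω : u ω = ω
  vω : v ω = ω
  cω : c ω = -ω
  vL : ∀ x : L, v (algebraMap L M x) = algebraMap L M x
  cL : ∀ x : L, c (algebraMap L M x) = algebraMap L M x
  coord : ∀ m : M, ∃ x₀ x₁ x₂ x₃ : L, m = algebraMap L M x₀ + algebraMap L M x₁ * T +
    (algebraMap L M x₂ + algebraMap L M x₃ * T) * ω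

/-- The maximal subfield with its automorphisms: the relations. -/
structure MD2 {k L M : Type} [Field k] [Field L] [Algebra k L] [Field M] [Algebra k M]
    [Algebra L M] (s u v c : M →ₐ[k] M) : Prop where
  ss : ∀ m, s (s m) = m
  uu : ∀ m, u (u m) = m
  vv : ∀ m, v (v m) = m
  cc : ∀ m, c (c m) = m
  cs : ∀ m, c (s m) = s (c m)
  cu : ∀ m, c (u m) = u (c m)
  cv : ∀ m, c (v m) = v (c m)

/-- The maximal subfield with its automorphisms: the relations on the cubic field. -/
structure MD3 {k L M : Type} [Field k] [Field L] [Algebra k L] [Field M] [Algebra k M]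
    [Algebra L M] (s u v : M →ₐ[k] M) : Prop where
  vs : ∀ x : L, v (s (algebraMap L M x)) = u (algebraMap L M x)
  vu : ∀ x : L, v (u (algebraMap L M x)) = s (algebraMap L M x)
  su : ∀ x : L, s (u (algebraMap L M x)) = u (algebraMap L M x)
  us : ∀ x : L, u (s (algebraMap L M x)) = s (algebraMap L M x)
  fix : ∀ x : L, s (algebraMap L M x) = algebraMap L M x → ∃ c : k, algebraMap k L c = x

/-- The maximal subfield with its automorphisms: the embedding. -/
structure MD4 {k D L M : Type} [Field k] [NumberField k] [DivisionRing D] [StarRing D]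
    [Algebra k D] [Field L] [NumberField L] [Algebra k L] [Field M] [Algebra k M] [Algebra L M]
    {α β : Lˣ} (ι : L →ₐ[k] D) (φ : Qt α β →+* D) (δ : D) (η : Qt α β)
    (ψ : M →ₐ[k] D) (v c : M →ₐ[k] M) (T ω : M) : Prop where
  pL : ∀ x : L, ψ (algebraMap L M x) = ι x
  pT : ψ T = δ * φ η
  pω : ψ ω = δ
  pc : ∀ m, star (ψ m) = ψ (c m)
  pv : ∀ m, Bar φ δ (ψ m) (ψ (v m))

/-- The relation with the Galois closure of the cubic field. -/
structure MD5 {k L M : Type} [Field k] [CharZero k] [Field L] [Algebra k L] [Field M]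
    [Algebra k M] [Algebra L M] {y : L} {p q : k}
    [Fact (∀ r : L, r ^ 2 ≠ algebraMap k L (dsc p q) + 0 * r)] (h : Gen y p q)
    (s u v : M →ₐ[k] M) (T : M) (jE : EE L (algebraMap k L (dsc p q)) →ₐ[k] M) : Prop where
  js : ∀ x, s (jE x) = jE (h.s12 x)
  ju : ∀ x, u (jE x) = jE (h.s13 x)
  jv : ∀ x, v (jE x) = jE (s23 (L := L) k p q x)
  jL : ∀ x : L, jE (algebraMap L _ x) = algebraMap L M x
  jT : jE (tt k p q) = T

variable {k D : Type} [Field k] [NumberField k] [DivisionRing D] [StarRing D] [Algebra k D]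
    {L : Type} [Field L] [NumberField L] [Algebra k L] {ι : L →ₐ[k] D} {δ : D} {d : kˣ}
    {α β : Lˣ} {i j : D} {φ : Qt α β →+* D} {p q : k} {y : L}

variable [Fact (∀ r : L, r ^ 2 ≠ algebraMap k L (dsc p q) + 0 * r)]

theorem md_coord [Fact (∀ r : (EE L (algebraMap k L (dsc p q))), r ^ 2 ≠ algebraMap k (EE L (algebraMap k L (dsc p q))) (d : k) + 0 * r)] (m : MM (EE L (algebraMap k L (dsc p q))) (d : k)) :
    ∃ x₀ x₁ x₂ x₃ : L, m = algebraMap L (MM (EE L (algebraMap k L (dsc p q))) (d : k)) x₀ +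
      algebraMap L (MM (EE L (algebraMap k L (dsc p q))) (d : k)) x₁ * ⟨tt k p q, 0⟩ +
      (algebraMap L (MM (EE L (algebraMap k L (dsc p q))) (d : k)) x₂ + algebraMap L (MM (EE L (algebraMap k L (dsc p q))) (d : k)) x₃ * ⟨tt k p q, 0⟩) *
        ⟨0, 1⟩ := by
  refine ⟨m.re.re, m.re.im, m.im.re, m.im.im, ?_⟩
  have e1 := coordM (d : k) m
  have e2 := congrArg (algebraMap (EE L (algebraMap k L (dsc p q))) (MM (EE L (algebraMap k L (dsc p q))) (d : k))) (coordE (k := k) m.re)
  have e3 := congrArg (algebraMap (EE L (algebraMap k L (dsc p q))) (MM (EE L (algebraMap k L (dsc p q))) (d : k))) (coordE (k := k) m.im)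
  rw [map_add, map_mul] at e2 e3
  rw [e2, e3] at e1
  exact e1

theorem md1 (h : Gen y p q) [Fact (∀ r : (EE L (algebraMap k L (dsc p q))), r ^ 2 ≠ algebraMap k (EE L (algebraMap k L (dsc p q))) (d : k) + 0 * r)] :
    MD1 (L := L) (M := MM (EE L (algebraMap k L (dsc p q))) (d : k)) (d : k) (dsc p q) (ex (d : k) h.s12) (ex (d : k) h.s13)
      (ex (d : k) (s23 (L := L) k p q)) (st (d : k)) ⟨tt k p q, 0⟩ ⟨0, 1⟩ := by
  constructor
  · exact (map_mul (algebraMap (EE L (algebraMap k L (dsc p q))) (MM (EE L (algebraMap k L (dsc p q))) (d : k))) _ _).symm.trans (congrArg _ tt_sq)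
  · exact omega_sq _
  · rw [ex_mk]
    exact QuadraticAlgebra.ext h.s12_t ((map_zero h.s12).trans neg_zero.symm)
  · rw [ex_mk]
    exact QuadraticAlgebra.ext h.s13_t ((map_zero h.s13).trans neg_zero.symm)
  · rw [ex_mk]
    exact QuadraticAlgebra.ext s23_t
      ((map_zero (s23 (L := L) k p q)).trans neg_zero.symm)
  · rw [st_mk]
    exact QuadraticAlgebra.ext rfl neg_zero
  · rw [ex_mk]
    exact QuadraticAlgebra.ext (map_zero _) (map_one _)
  · rw [ex_mk]
    exact QuadraticAlgebra.ext (map_zero _) (map_one _)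
  · rw [ex_mk]
    exact QuadraticAlgebra.ext (map_zero _) (map_one _)
  · rw [st_mk]
    exact QuadraticAlgebra.ext neg_zero.symm rfl
  · intro x
    rw [ex_mk]
    exact QuadraticAlgebra.ext (s23_L x) (map_zero _)
  · intro x
    rw [st_mk]
    exact QuadraticAlgebra.ext rfl neg_zero
  · exact md_coord

theorem md2 (h : Gen y p q) [Fact (∀ r : (EE L (algebraMap k L (dsc p q))), r ^ 2 ≠ algebraMap k (EE L (algebraMap k L (dsc p q))) (d : k) + 0 * r)] :
    MD2 (L := L) (M := MM (EE L (algebraMap k L (dsc p q))) (d : k)) (ex (d : k) h.s12) (ex (d : k) h.s13)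
      (ex (d : k) (s23 (L := L) k p q)) (st (d : k)) := by
  constructor
  · intro m
    rw [ex_mk, ex_mk]
    exact QuadraticAlgebra.ext (h.r12 _) (h.r12 _)
  · intro m
    rw [ex_mk, ex_mk]
    exact QuadraticAlgebra.ext (h.r13 _) (h.r13 _)
  · intro m
    rw [ex_mk, ex_mk]
    exact QuadraticAlgebra.ext (h.r23 _) (h.r23 _)
  · intro m
    rw [st_mk, st_mk]
    exact QuadraticAlgebra.ext rfl (neg_neg _)
  · intro m
    rw [st_mk, st_mk, ex_mk, ex_mk]
    exact QuadraticAlgebra.ext rfl (map_neg _ _).symm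
  · intro m
    rw [st_mk, st_mk, ex_mk, ex_mk]
    exact QuadraticAlgebra.ext rfl (map_neg _ _).symm
  · intro m
    rw [st_mk, st_mk, ex_mk, ex_mk]
    exact QuadraticAlgebra.ext rfl (map_neg _ _).symm

theorem md3 (h : Gen y p q) [Fact (∀ r : (EE L (algebraMap k L (dsc p q))), r ^ 2 ≠ algebraMap k (EE L (algebraMap k L (dsc p q))) (d : k) + 0 * r)] :
    MD3 (L := L) (M := MM (EE L (algebraMap k L (dsc p q))) (d : k)) (ex (d : k) h.s12) (ex (d : k) h.s13)
      (ex (d : k) (s23 (L := L) k p q)) := by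
  have hex : ∀ (σ : (EE L (algebraMap k L (dsc p q))) →ₐ[k] (EE L (algebraMap k L (dsc p q)))) (x : L), ex (d : k) σ (algebraMap L (MM (EE L (algebraMap k L (dsc p q))) (d : k)) x) =
      algebraMap (EE L (algebraMap k L (dsc p q))) (MM (EE L (algebraMap k L (dsc p q))) (d : k)) (σ (algebraMap L (EE L (algebraMap k L (dsc p q))) x)) := fun σ x => ex_E _ _ _
  constructor
  · intro x
    exact (congrArg _ (hex h.s12 x)).trans (((ex_E _ _ _).trans (congrArg _ (h.j23_2 x))).trans
      (hex h.s13 x).symm)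
  · intro x
    exact (congrArg _ (hex h.s13 x)).trans (((ex_E _ _ _).trans (congrArg _ (h.j23_3 x))).trans
      (hex h.s12 x).symm)
  · intro x
    exact (congrArg _ (hex h.s13 x)).trans (((ex_E _ _ _).trans (congrArg _ (h.j12_3 x))).trans
      (hex h.s13 x).symm)
  · intro x
    exact (congrArg _ (hex h.s12 x)).trans (((ex_E _ _ _).trans (congrArg _ (h.j13_2 x))).trans
      (hex h.s12 x).symm)
  · intro x hx
    rw [ex_mk] at hx
    exact h.fixed (congrArg QuadraticAlgebra.re hx)

theorem md4 (cr : CRt δ d) (fr : QFr ι α β i j)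
    (hφ : ∀ q, φ q = ι q.re + ι q.imI * i + ι q.imJ * j + ι q.imK * (i * j))
    {η : Qt α β} (h0 : η.re = 0)
    (hn : algebraMap k L d * nrd η = -algebraMap k L (dsc p q))
    [Fact (∀ r : (EE L (algebraMap k L (dsc p q))), r ^ 2 ≠ algebraMap k (EE L (algebraMap k L (dsc p q))) (d : k) + 0 * r)] :
    MD4 (L := L) (M := MM (EE L (algebraMap k L (dsc p q))) (d : k)) ι φ δ η (ps cr hφ h0 hn)
      (ex (d : k) (s23 (L := L) k p q)) (st (d : k)) ⟨tt k p q, 0⟩ ⟨0, 1⟩ := by
  have hpsE : ∀ x : (EE L (algebraMap k L (dsc p q))), ps cr hφ h0 hn (algebraMap (EE L (algebraMap k L (dsc p q))) (MM (EE L (algebraMap k L (dsc p q))) (d : k)) x) =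
      iE cr hφ h0 hn x := by
    intro x
    exact (qmap_C _).trans rfl
  constructor
  · intro x
    exact (hpsE _).trans (iE_L cr hφ h0 hn x)
  · exact (hpsE _).trans (iE_t cr hφ h0 hn)
  · exact qmap_omega
  · exact fun m => ps_star cr fr hφ h0 hn m
  · exact fun m => ps_bar cr hφ h0 hn m

theorem md5 (h : Gen y p q) [Fact (∀ r : (EE L (algebraMap k L (dsc p q))), r ^ 2 ≠ algebraMap k (EE L (algebraMap k L (dsc p q))) (d : k) + 0 * r)] :
    MD5 (M := MM (EE L (algebraMap k L (dsc p q))) (d : k)) h (ex (d : k) h.s12) (ex (d : k) h.s13)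
      (ex (d : k) (s23 (L := L) k p q)) ⟨tt k p q, 0⟩
      (IsScalarTower.toAlgHom k (EE L (algebraMap k L (dsc p q))) (MM (EE L (algebraMap k L (dsc p q))) (d : k))) := by
  constructor
  · exact fun x => ex_E _ _ _
  · exact fun x => ex_E _ _ _
  · exact fun x => ex_E _ _ _
  · exact fun x => rfl
  · rfl

theorem exists_MD (h : Gen y p q) (cr : CRt δ d) (fr : QFr ι α β i j)
    (hφ : ∀ q, φ q = ι q.re + ι q.imI * i + ι q.imJ * j + ι q.imK * (i * j))
    {η : Qt α β} (h0 : η.re = 0)
    (hn : algebraMap k L d * nrd η = -algebraMap k L (dsc p q)) :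
    ∃ (M : Type) (_ : Field M) (_ : NumberField M) (_ : Algebra k M) (_ : Algebra L M)
      (_ : IsScalarTower k L M) (ψ : M →ₐ[k] D) (s u v c : M →ₐ[k] M) (T ω : M)
      (jE : (EE L (algebraMap k L (dsc p q))) →ₐ[k] M), MD1 (L := L) (d : k) (dsc p q) s u v c T ω ∧ MD2 (L := L) s u v c ∧
      MD3 (L := L) s u v ∧ MD4 ι φ δ η ψ v c T ω ∧ MD5 h s u v T jE ∧
      (∀ x, ψ (jE x) = iE cr hφ h0 hn x) := by
  have hF := fact2 (k := k) cr fr hφ h0 hn
  have hLf : Module.Finite k L := h.fin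
  have hEf : Module.Finite k (EE L (algebraMap k L (dsc p q))) := Module.Finite.trans L (EE L (algebraMap k L (dsc p q)))
  have hMf : Module.Finite k (MM (EE L (algebraMap k L (dsc p q))) (d : k)) := Module.Finite.trans (EE L (algebraMap k L (dsc p q))) (MM (EE L (algebraMap k L (dsc p q))) (d : k))
  exact ⟨MM (EE L (algebraMap k L (dsc p q))) (d : k), inferInstance, NumberField.of_module_finite k (MM (EE L (algebraMap k L (dsc p q))) (d : k)),
    inferInstance, inferInstance,
    inferInstance, ps cr hφ h0 hn, ex (d : k) h.s12, ex (d : k) h.s13,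
    ex (d : k) (s23 (L := L) k p q),
    st (d : k), ⟨tt k p q, 0⟩, ⟨0, 1⟩, IsScalarTower.toAlgHom k (EE L (algebraMap k L (dsc p q))) (MM (EE L (algebraMap k L (dsc p q))) (d : k)),
    md1 h, md2 h, md3 h, md4 cr fr hφ h0 hn, md5 h, fun x => (qmap_C _).trans rfl⟩

end Vale.Agent.P011.Six.H422
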