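import Vale.Agent.P011.Six.H422.Gal2

/-!
The algebra of the decomposition in the symmetric group of degree three.
-/

open Module

set_option linter.unusedSectionVars false

namespace Vale.Agent.P011.Six.H422

/-- The key element. -/
theorem r_alg {M : Type*} [Field M] {st s12 s13 s23 : M →+* M} {x y z : M}
    (h1 : s12 x = y) (h3 : s12 z = z) (h4 : s12 y = x) (g1 : s13 x = z) (g2 : s13 y = y)
    (g3 : s13 z = x) (f1 : s23 x = x) (f2 : s23 y = z) (f3 : s23 z = y)
    (a1 : st x * x = 1) (a2 : st y * y = 1) (a3 : st z * z = 1) (hxyz : x * y * z = 1)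
    (hne : x ≠ y) :
    ∃ r r' : M, s13 r' = r ∧ s13 r = r' ∧ st r * r = 1 ∧ r * s23 r * x = 1 ∧ st r' * r' = 1 ∧
      s23 r' * r' = 1 ∧ 1 + x + x * y ≠ 0 ∧ 1 + z + z * y ≠ 0 ∧ 1 + x + x * z ≠ 0 ∧
      r = (1 + y + x * y) / (1 + x + x * y) ∧
      r' = (1 + y + z * y) / (1 + z + z * y) ∧ s23 r = (1 + z + x * z) / (1 + x + x * z) := by
  have hx : x ≠ 0 := by rintro rfl; rw [mul_zero] at a1; exact zero_ne_one a1
  have hy : y ≠ 0 := by rintro rfl; rw [mul_zero] at a2; exact zero_ne_one a2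
  have hz : z ≠ 0 := by rintro rfl; rw [mul_zero] at a3; exact zero_ne_one a3
  have b1 : st x = x⁻¹ := eq_inv_of_mul_eq_one_left a1
  have b2 : st y = y⁻¹ := eq_inv_of_mul_eq_one_left a2
  have b3 : st z = z⁻¹ := eq_inv_of_mul_eq_one_left a3
  have d1 : 1 + x + x * y ≠ 0 := by
    intro h0
    have h5 := congrArg st h0
    rw [map_add, map_add, map_one, map_mul, map_zero, b1, b2] at h5
    field_simp at h5
    apply hne
    linear_combination h0 - h5
  have d3 : 1 + z + z * y ≠ 0 := by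
    have h5 : s13 (1 + x + x * y) ≠ 0 := (map_ne_zero s13).mpr d1
    rwa [map_add, map_add, map_one, map_mul, g1, g2] at h5
  have d2 : 1 + x + x * z ≠ 0 := by
    have h5 : s23 (1 + x + x * y) ≠ 0 := (map_ne_zero s23).mpr d1
    rwa [map_add, map_add, map_one, map_mul, f1, f2] at h5
  have e1 : 1 + y + x * y ≠ 0 := by
    have h5 : st (1 + x + x * y) ≠ 0 := (map_ne_zero st).mpr d1
    rw [map_add, map_add, map_one, map_mul, b1, b2] at h5
    intro h6
    apply h5
    field_simp
    linear_combination h6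
  have e3 : 1 + y + z * y ≠ 0 := by
    have h5 : s13 (1 + y + x * y) ≠ 0 := (map_ne_zero s13).mpr e1
    rwa [map_add, map_add, map_one, map_mul, g1, g2] at h5
  refine ⟨(1 + y + x * y) / (1 + x + x * y), (1 + y + z * y) / (1 + z + z * y), ?_, ?_, ?_, ?_,
    ?_, ?_, d1, d3, d2, rfl, rfl, ?_⟩
  · rw [map_div₀]
    simp only [map_add, map_mul, map_one, g2, g3]
  · rw [map_div₀]
    simp only [map_add, map_mul, map_one, g1, g2]
  · have k1 : 1 + y⁻¹ + x⁻¹ * y⁻¹ = (1 + x + x * y) * (x * y)⁻¹ := by field_simp; ring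
    have k2 : 1 + x⁻¹ + x⁻¹ * y⁻¹ = (1 + y + x * y) * (x * y)⁻¹ := by field_simp; ring
    rw [map_div₀]
    simp only [map_add, map_mul, map_one, b1, b2]
    rw [k1, k2, mul_div_mul_right _ _ (inv_ne_zero (mul_ne_zero hx hy)), div_mul_div_comm,
      mul_comm (1 + y + x * y), div_self (mul_ne_zero d1 e1)]
  · have k1 : 1 + y + x * y = y * (1 + x + x * z) := by linear_combination -hxyz
    have k2 : 1 + z + x * z = z * (1 + x + x * y) := by linear_combination -hxyz
    rw [map_div₀]
    simp only [map_add, map_mul, map_one, f1, f2]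
    rw [k1, k2]
    have k3 : y * (1 + x + x * z) / (1 + x + x * y) * (z * (1 + x + x * y) / (1 + x + x * z)) * x =
        x * y * z := by
      generalize 1 + x + x * y = A at *
      generalize 1 + x + x * z = C at *
      field_simp
    rw [k3, hxyz]
  · have k1 : 1 + y⁻¹ + z⁻¹ * y⁻¹ = (1 + z + z * y) * (z * y)⁻¹ := by field_simp; ring
    have k2 : 1 + z⁻¹ + z⁻¹ * y⁻¹ = (1 + y + z * y) * (z * y)⁻¹ := by field_simp; ring
    rw [map_div₀]
    simp only [map_add, map_mul, map_one, b2, b3]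
    rw [k1, k2, mul_div_mul_right _ _ (inv_ne_zero (mul_ne_zero hz hy)), div_mul_div_comm,
      mul_comm (1 + y + z * y), div_self (mul_ne_zero d3 e3)]
  · rw [map_div₀]
    simp only [map_add, map_mul, map_one, f2, f3]
    rw [mul_comm y z, div_mul_div_comm, mul_comm (1 + z + z * y), div_self (mul_ne_zero e3 d3)]
  · rw [map_div₀]
    simp only [map_add, map_mul, map_one, f1, f2]

end Vale.Agent.P011.Six.H422
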