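import Vale.Agent.P011.Six.H422.Frame
import Vale.Agent.P011.Six.H422.RAlg

/-!
The maximal subfield and the decomposition of the unitary elements of the centralizer of a cubic
field.
-/

open Module NumberField IsDedekindDomain

set_option linter.unusedSectionVars false

namespace Vale.Agent.P011.Six.H422

open Vale.Agent.P011.Arith Vale.Agent.P011.Even Vale.Agent.P011.MPQ Vale.Agent.P011.One

section mm

variable {k E : Type*} [Field k] [Field E] [Algebra k E] (d : k)

/-- The extension generated by the central square root. -/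
abbrev MM {k : Type*} (E : Type*) [Field k] [Field E] [Algebra k E] (d : k) : Type _ :=
  QuadraticAlgebra E (algebraMap k E d) 0

/-- Extension of an endomorphism. -/
def ex (σ : E →ₐ[k] E) : MM E d →ₐ[k] MM E d :=
  qmap ((IsScalarTower.toAlgHom k E (MM E d)).comp σ) ⟨0, 1⟩ (by
    rw [AlgHom.commutes]
    ext
    · rw [QuadraticAlgebra.re_mul]
      change (0 : E) * 0 + algebraMap k E d * 1 * 1 = algebraMap k E d
      ring
    · rw [QuadraticAlgebra.im_mul]
      change (0 : E) * 1 + 1 * 0 + 0 * 1 * 1 = 0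
      ring) (fun _ => mul_comm _ _)

theorem ex_mk (σ : E →ₐ[k] E) (x : MM E d) : ex d σ x = ⟨σ x.re, σ x.im⟩ := by
  have h1 : ex d σ x = algebraMap E (MM E d) (σ x.re) + algebraMap E (MM E d) (σ x.im) * ⟨0, 1⟩ :=
    rfl
  rw [h1]
  ext
  · rw [QuadraticAlgebra.re_add, QuadraticAlgebra.re_mul]
    change σ x.re + (σ x.im * 0 + algebraMap k E d * 0 * 1) = σ x.re
    ring
  · rw [QuadraticAlgebra.im_add, QuadraticAlgebra.im_mul]
    change 0 + (σ x.im * 1 + 0 * 0 + 0 * 0 * 1) = σ x.im
    ring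

/-- The conjugation. -/
def st : MM E d →ₐ[k] MM E d :=
  qmap (IsScalarTower.toAlgHom k E (MM E d)) (-⟨0, 1⟩) (by
    rw [neg_mul_neg, AlgHom.commutes]
    ext
    · rw [QuadraticAlgebra.re_mul]
      change (0 : E) * 0 + algebraMap k E d * 1 * 1 = algebraMap k E d
      ring
    · rw [QuadraticAlgebra.im_mul]
      change (0 : E) * 1 + 1 * 0 + 0 * 1 * 1 = 0
      ring) (fun _ => mul_comm _ _)

theorem st_mk (x : MM E d) : st d x = ⟨x.re, -x.im⟩ := by
  have h1 : st d x = algebraMap E (MM E d) x.re + algebraMap E (MM E d) x.im * (-⟨0, 1⟩) :=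
    rfl
  rw [h1]
  ext
  · rw [QuadraticAlgebra.re_add, QuadraticAlgebra.re_mul]
    change x.re + (x.im * -0 + algebraMap k E d * 0 * -1) = x.re
    ring
  · rw [QuadraticAlgebra.im_add, QuadraticAlgebra.im_mul]
    change 0 + (x.im * -1 + 0 * -0 + 0 * 0 * -1) = -x.im
    ring

theorem ex_E (σ : E →ₐ[k] E) (x : E) :
    ex d σ (algebraMap E (MM E d) x) = algebraMap E (MM E d) (σ x) := by
  rw [ex_mk]
  exact QuadraticAlgebra.ext rfl (map_zero _)

theorem coordM (x : MM E d) : x = algebraMap E (MM E d) x.re +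
    algebraMap E (MM E d) x.im * ⟨0, 1⟩ := by
  ext
  · rw [QuadraticAlgebra.re_add, QuadraticAlgebra.re_mul]
    change x.re = x.re + (x.im * 0 + algebraMap k E d * 0 * 1)
    ring
  · rw [QuadraticAlgebra.im_add, QuadraticAlgebra.im_mul]
    change x.im = 0 + (x.im * 1 + 0 * 0 + 0 * 0 * 1)
    ring

theorem omega_sq : (⟨0, 1⟩ : MM E d) * ⟨0, 1⟩ = algebraMap k (MM E d) d := by
  ext
  · rw [QuadraticAlgebra.re_mul]
    change (0 : E) * 0 + algebraMap k E d * 1 * 1 = algebraMap k E d
    ring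
  · rw [QuadraticAlgebra.im_mul]
    change (0 : E) * 1 + 1 * 0 + 0 * 1 * 1 = 0
    ring

theorem ex_comp (σ τ υ : E →ₐ[k] E) (h : ∀ x, σ (τ x) = υ x) (x : MM E d) :
    ex d σ (ex d τ x) = ex d υ x := by
  rw [ex_mk, ex_mk, ex_mk]
  exact QuadraticAlgebra.ext (h _) (h _)

end mm

/-- Three distinct roots of a cubic polynomial. -/
theorem prod_roots {M : Type*} [Field M] {x y z A B : M} (hx : x ^ 3 + A * x ^ 2 + B * x = 1)
    (hy : y ^ 3 + A * y ^ 2 + B * y = 1) (hz : z ^ 3 + A * z ^ 2 + B * z = 1) (hxy : x ≠ y)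
    (hxz : x ≠ z) (hyz : y ≠ z) : x * y * z = 1 := by
  have h1 : x ^ 2 + x * y + y ^ 2 + A * (x + y) + B = 0 := by
    apply mul_left_cancel₀ (sub_ne_zero.mpr hxy)
    linear_combination hx - hy
  have h2 : x ^ 2 + x * z + z ^ 2 + A * (x + z) + B = 0 := by
    apply mul_left_cancel₀ (sub_ne_zero.mpr hxz)
    linear_combination hx - hz
  have h3 : x + y + z + A = 0 := by
    apply mul_left_cancel₀ (sub_ne_zero.mpr hyz)
    linear_combination h1 - h2
  linear_combination hx - x * h1 + x * y * h3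

section gen

variable {k L : Type*} [Field k] [CharZero k] [Field L] [Algebra k L] {y : L} {p q : k}
  [Fact (∀ r : L, r ^ 2 ≠ algebraMap k L (dsc p q) + 0 * r)]

/-- The elements of `L` fixed by the automorphism. -/
theorem Gen.fixed (h : Gen y p q) {x : L}
    (hx : h.s12 (algebraMap L (EE L (algebraMap k L (dsc p q))) x) = algebraMap L _ x) :
    ∃ c : k, algebraMap k L c = x := by
  have := h.fin
  have hs : IsSimpleOrder (Subalgebra k L) :=
    Subalgebra.isSimpleOrder_of_finrank_prime k L (by rw [h.rank]; exact Nat.prime_three)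
  let f : L →ₐ[k] EE L (algebraMap k L (dsc p q)) :=
    h.s12.comp (IsScalarTower.toAlgHom k L (EE L (algebraMap k L (dsc p q))))
  let S : Subalgebra k L :=
    AlgHom.equalizer f (IsScalarTower.toAlgHom k L (EE L (algebraMap k L (dsc p q))))
  have hxS : x ∈ S := hx
  rcases hs.eq_bot_or_eq_top S with hS | hS
  · rw [hS, Algebra.mem_bot] at hxS
    exact hxS
  · exfalso
    have h1 : y ∈ S := by rw [hS]; exact Algebra.mem_top
    have h2 : h.s12 (algebraMap L (EE L (algebraMap k L (dsc p q))) y) = algebraMap L _ y := h1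
    rw [h.s12_y] at h2
    have h3 := congrArg (s23 (L := L) k p q) h2
    rw [s23_L, h.s23_Y2, ← h2] at h3
    have h4 : (2 : EE L (algebraMap k L (dsc p q))) * tau y p q = 0 := by
      have h5 : Y2 y p q - Y3 y p q = 0 := by rw [h3, sub_self]
      rw [Y2, Y3] at h5
      linear_combination h5
    have h5 := (mul_eq_zero.mp h4).resolve_left two_ne
    have h6 := h.tau_tt
    rw [h5, mul_zero] at h6
    exact one_ne_zero (congrArg QuadraticAlgebra.im h6)

end gen

variable {k D : Type} [Field k] [NumberField k] [DivisionRing D] [StarRing D] [Algebra k D]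
    {L : Type} [Field L] [NumberField L] [Algebra k L] {ι : L →ₐ[k] D} {δ : D} {d : kˣ}
    {α β : Lˣ} {i j : D} {φ : Qt α β →+* D} {p q : k} {y : L}

variable [Fact (∀ r : L, r ^ 2 ≠ algebraMap k L (dsc p q) + 0 * r)]

/-- The central square root is not in the symmetric field. -/
theorem fact2 (cr : CRt δ d) (fr : QFr ι α β i j)
    (hφ : ∀ q, φ q = ι q.re + ι q.imI * i + ι q.imJ * j + ι q.imK * (i * j))
    {η : Qt α β} (h0 : η.re = 0)
    (hn : algebraMap k L d * nrd η = -algebraMap k L (dsc p q)) :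
    Fact (∀ r : (EE L (algebraMap k L (dsc p q))), r ^ 2 ≠ algebraMap k (EE L (algebraMap k L (dsc p q))) (d : k) + 0 * r) := by
  refine ⟨fun r hr => ?_⟩
  rw [zero_mul, add_zero] at hr
  obtain ⟨f, hf⟩ : ∃ f, f = iE cr hφ h0 hn := ⟨_, rfl⟩
  have h1 : f r * f r = δ * δ := by
    rw [← map_mul, ← pow_two, hr, AlgHom.commutes, cr.sq]
  have h2 : (δ - f r) * (δ + f r) = 0 := by
    rw [sub_mul, mul_add, mul_add, h1, cr.comm (f r)]
    abel
  have hs : star (f r) = f r := by rw [hf]; exact iE_star cr fr hφ h0 hn r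
  have hD : CharZero D := charZero_of_injective_algebraMap (algebraMap k D).injective
  have key : ∀ x : D, star x = x → star x = -x → x = 0 := by
    intro x h3 h4
    rw [h3] at h4
    have h5 : (2 : D) * x = 0 := by
      rw [two_mul]
      nth_rw 1 [h4]
      exact neg_add_cancel x
    exact (mul_eq_zero.mp h5).resolve_left two_ne_zero
  rcases mul_eq_zero.mp h2 with h3 | h3
  · have h4 : δ = f r := sub_eq_zero.mp h3
    exact cr.ne_zero (key δ (by rw [h4, hs]) cr.st)
  · have h4 : δ = -f r := eq_neg_of_add_eq_zero_left h3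
    exact cr.ne_zero (key δ (by rw [h4, star_neg, hs]) cr.st)

/-- The embedding of the maximal subfield. -/
def ps (cr : CRt δ d)
    (hφ : ∀ q, φ q = ι q.re + ι q.imI * i + ι q.imJ * j + ι q.imK * (i * j))
    {η : Qt α β} (h0 : η.re = 0)
    (hn : algebraMap k L d * nrd η = -algebraMap k L (dsc p q)) : (MM (EE L (algebraMap k L (dsc p q))) (d : k)) →ₐ[k] D :=
  qmap (iE cr hφ h0 hn) δ (by rw [AlgHom.commutes, cr.sq]) fun _ => (cr.comm _).symm

section ps

variable (cr : CRt δ d) (fr : QFr ι α β i j)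
    (hφ : ∀ q, φ q = ι q.re + ι q.imI * i + ι q.imJ * j + ι q.imK * (i * j))
    {η : Qt α β} (h0 : η.re = 0)
    (hn : algebraMap k L d * nrd η = -algebraMap k L (dsc p q))

theorem ps_apply (x : (MM (EE L (algebraMap k L (dsc p q))) (d : k))) : ps cr hφ h0 hn x =
    iE cr hφ h0 hn x.re + iE cr hφ h0 hn x.im * δ := rfl

include fr in
theorem ps_star (x : (MM (EE L (algebraMap k L (dsc p q))) (d : k))) : star (ps cr hφ h0 hn x) = ps cr hφ h0 hn (st (d : k) x) := by
  rw [ps_apply, ps_apply, st_mk, star_add, star_mul, iE_star cr fr hφ, iE_star cr fr hφ, cr.st,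
    map_neg, neg_mul, neg_mul, cr.comm]

theorem ps_bar (x : (MM (EE L (algebraMap k L (dsc p q))) (d : k))) :
    Bar φ δ (ps cr hφ h0 hn x) (ps cr hφ h0 hn (ex (d : k) (s23 (L := L) k p q) x)) := by
  rw [ps_apply, ps_apply, ex_mk]
  have h1 : Bar φ δ δ δ := by
    refine ⟨0, 1, ?_, ?_⟩
    · rw [map_zero, map_one, mul_one, zero_add]
    · rw [star_zero, star_one, map_zero, map_one, mul_one, zero_add]
  have h2 := (iE_bar cr hφ h0 hn x.re).add ((iE_bar cr hφ h0 hn x.im).mul cr hφ h1)
  rwa [cr.comm (iE cr hφ h0 hn (s23 (L := L) k p q x.im))] at h2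

theorem ps_Q {σ : (EE L (algebraMap k L (dsc p q))) →ₐ[k] (EE L (algebraMap k L (dsc p q)))} {Q : D}
    (hQ : ∀ x : (EE L (algebraMap k L (dsc p q))), Q * iE cr hφ h0 hn x = iE cr hφ h0 hn (σ x) * Q) (x : (MM (EE L (algebraMap k L (dsc p q))) (d : k))) :
    Q * ps cr hφ h0 hn x = ps cr hφ h0 hn (ex (d : k) σ x) * Q := by
  rw [ps_apply, ps_apply, ex_mk, mul_add, add_mul, hQ, ← mul_assoc, hQ, mul_assoc _ Q,
    ← cr.comm Q, mul_assoc]

/-- The representation in the quaternion algebra. -/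
theorem ps_form (x : (MM (EE L (algebraMap k L (dsc p q))) (d : k))) : ps cr hφ h0 hn x =
    φ (algebraMap L _ x.re.re + algebraMap L _ (algebraMap k L d * x.im.im) * η) +
    δ * φ (algebraMap L _ x.im.re + algebraMap L _ x.re.im * η) := by
  rw [ps_apply, iE_form cr hφ h0 hn x.re, iE_form cr hφ h0 hn x.im]
  have h1 : δ * φ (algebraMap L (Qt α β) x.im.im * η) * δ =
      φ (algebraMap L (Qt α β) (algebraMap k L d * x.im.im) * η) := by
    rw [mul_assoc, ← cr.comm, ← mul_assoc, cr.sq, ← AlgHom.commutes ι, ← phi_alg hφ, ← map_mul,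
      ← mul_assoc, ← map_mul]
  rw [add_mul, h1, ← cr.comm (φ _), map_add, map_add, mul_add]
  abel

end ps

end Vale.Agent.P011.Six.H422
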