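import Vale.Agent.P011.Even.NormCont
import Vale.Agent.P011.Even.Split

/-!
The elements integral at the primes above a prime of the base field.
-/

open Module NumberField IsDedekindDomain

set_option linter.unusedSectionVars false

namespace Vale.Agent.P011.Six.H422

open Vale.Agent.P011.Arith Vale.Agent.P011.Even

variable {k : Type} [Field k] [NumberField k] (M : Type) [Field M] [NumberField M] [Algebra k M]
  (v : HeightOneSpectrum (𝓞 k))

/-- The elements integral at the primes above `v`. -/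
def OV : Subring M where
  carrier := {m | ∀ W : HeightOneSpectrum (𝓞 M), Ab W v → W.valuation M m ≤ 1}
  mul_mem' := by
    intro a b ha hb W hW
    rw [map_mul]
    exact mul_le_one' (ha W hW) (hb W hW)
  one_mem' := fun W _ => by rw [map_one]
  add_mem' := by
    intro a b ha hb W hW
    exact (Valuation.map_add _ _ _).trans (max_le (ha W hW) (hb W hW))
  zero_mem' := fun W _ => by rw [map_zero]; exact zero_le_one
  neg_mem' := by
    intro a ha W hW
    rw [Valuation.map_neg]
    exact ha W hW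

variable {M} {v}

theorem mem_OV {m : M} : m ∈ OV M v ↔ ∀ W : HeightOneSpectrum (𝓞 M), Ab W v →
    W.valuation M m ≤ 1 := Iff.rfl

/-- The ring is stable under the automorphisms. -/
theorem OV_map (σ : M →ₐ[k] M) {m : M} (hm : m ∈ OV M v) : σ m ∈ OV M v := by
  obtain ⟨s, hs, y, hy⟩ := exists_clear v m hm
  intro W hW
  have h1 : IsIntegral ℤ (σ (y : M)) := (RingOfIntegers.isIntegral_coe y).map (σ.toRingHom.toIntAlgHom)
  have h2 : W.valuation M (σ (y : M)) ≤ 1 := W.valuation_le_one (K := M) (⟨_, h1⟩ : 𝓞 M)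
  rw [hy, map_mul, AlgHom.commutes, map_mul] at h2
  have h3 : v.valuation k (s : k) = 1 := by
    have h4 := v.valuation_le_one (K := k) s
    have h5 : ¬ v.valuation k (s : k) < 1 := fun h =>
      hs ((HeightOneSpectrum.valuation_lt_one_iff_mem (K := k) v s).mp h)
    exact le_antisymm h4 (not_lt.mp h5)
  rwa [(val_eq_one_iff hW _).mpr h3, one_mul] at h2

theorem OV_k {x : k} (hx : v.valuation k x ≤ 1) : algebraMap k M x ∈ OV M v :=
  fun _ hW => (val_le_one_iff hW _).mpr hx

/-- An element whose square is integral is integral. -/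
theorem OV_sq {m : M} (h : m * m ∈ OV M v) : m ∈ OV M v := by
  intro W hW
  have h1 := h W hW
  rw [map_mul] at h1
  by_contra h2
  rw [not_le] at h2
  have h3 : W.valuation M m * 1 ≤ W.valuation M m * W.valuation M m := mul_le_mul' le_rfl h2.le
  rw [mul_one] at h3
  exact absurd (h3.trans h1) (not_le.mpr h2)

section tower

variable {L : Type} [Field L] [NumberField L] [Algebra k L] [Algebra L M] [IsScalarTower k L M]

theorem ab_trans {W : HeightOneSpectrum (𝓞 M)} {w : HeightOneSpectrum (𝓞 L)}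
    (h1 : Ab W w) (h2 : Ab w v) : Ab W v := by
  change W.asIdeal.comap (algebraMap (𝓞 k) (𝓞 M)) = v.asIdeal
  have h2' : w.asIdeal.comap (algebraMap (𝓞 k) (𝓞 L)) = v.asIdeal := h2
  have h1' : W.asIdeal.comap (algebraMap (𝓞 L) (𝓞 M)) = w.asIdeal := h1
  rw [← h2', ← h1', Ideal.comap_comap]
  congr 1
  refine RingHom.ext fun x => RingOfIntegers.ext ?_
  exact IsScalarTower.algebraMap_apply k L M (x : k)

/-- The elements of the intermediate field. -/
theorem OV_L {x : L} : algebraMap L M x ∈ OV M v ↔ x ∈ OV L v := by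
  constructor
  · intro h w hw
    obtain ⟨W, hW⟩ := exists_above (F := L) (E := M) w
    exact (val_le_one_iff hW x).mp (h W (ab_trans hW hw))
  · intro h W hW
    obtain ⟨w, hw⟩ := exists_below (F := L) W
    have hwv : Ab w v := by
      obtain ⟨v', hv'⟩ := exists_below (F := k) w
      have h1 : Ab W v' := ab_trans hw hv'
      rwa [below_unique h1 hW] at hv'
    exact (val_le_one_iff hw x).mpr (h w hwv)

end tower

/-- The multiples of an element of the base field. -/
def ml (M : Type) [Field M] [NumberField M] [Algebra k M] (v : HeightOneSpectrum (𝓞 k))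
    (g : k) (m : M) : Prop := ∃ x ∈ OV M v, m = algebraMap k M g * x

theorem ml.add {g : k} {m m' : M} (h : ml M v g m) (h' : ml M v g m') : ml M v g (m + m') := by
  obtain ⟨x, hx, rfl⟩ := h
  obtain ⟨x', hx', rfl⟩ := h'
  exact ⟨x + x', add_mem hx hx', by ring⟩

theorem ml.neg {g : k} {m : M} (h : ml M v g m) : ml M v g (-m) := by
  obtain ⟨x, hx, rfl⟩ := h
  exact ⟨-x, neg_mem hx, by ring⟩

theorem ml.sub {g : k} {m m' : M} (h : ml M v g m) (h' : ml M v g m') : ml M v g (m - m') := by
  rw [sub_eq_add_neg]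
  exact h.add h'.neg

theorem ml.mul_right {g : k} {m x : M} (h : ml M v g m) (hx : x ∈ OV M v) :
    ml M v g (m * x) := by
  obtain ⟨y, hy, rfl⟩ := h
  exact ⟨y * x, mul_mem hy hx, by ring⟩

theorem ml.mul_left {g : k} {m x : M} (h : ml M v g m) (hx : x ∈ OV M v) :
    ml M v g (x * m) := by
  rw [mul_comm]
  exact h.mul_right hx

theorem ml.map {g : k} {m : M} (h : ml M v g m) (σ : M →ₐ[k] M) : ml M v g (σ m) := by
  obtain ⟨y, hy, rfl⟩ := h
  exact ⟨σ y, OV_map σ hy, by rw [map_mul, AlgHom.commutes]⟩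

theorem ml.mul {g g' : k} {m m' : M} (h : ml M v g m) (h' : ml M v g' m') :
    ml M v (g * g') (m * m') := by
  obtain ⟨x, hx, rfl⟩ := h
  obtain ⟨x', hx', rfl⟩ := h'
  exact ⟨x * x', mul_mem hx hx', by rw [map_mul]; ring⟩

theorem ml.mono {g g' : k} (hg : v.valuation k g ≤ v.valuation k g') {m : M}
    (h : ml M v g m) : ml M v g' m := by
  obtain ⟨x, hx, rfl⟩ := h
  by_cases h0 : g' = 0
  · subst h0
    have h1 : g = 0 := by
      rw [map_zero] at hg
      exact (Valuation.zero_iff _).mp (le_antisymm hg zero_le)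
    subst h1
    exact ⟨x, hx, rfl⟩
  · refine ⟨algebraMap k M (g / g') * x, mul_mem (OV_k ?_) hx, ?_⟩
    · have h2 : v.valuation k g' ≠ 0 := (Valuation.ne_zero_iff _).mpr h0
      rw [map_div₀]
      exact div_le_one_of_le₀ hg zero_le
    · rw [← mul_assoc, ← map_mul, mul_div_cancel₀ _ h0]

theorem ml.mem {g : k} (hg : v.valuation k g ≤ 1) {m : M} (h : ml M v g m) : m ∈ OV M v := by
  obtain ⟨x, hx, rfl⟩ := h
  exact mul_mem (OV_k hg) hx

theorem ml_iff {g : k} (hg : g ≠ 0) {m : M} : ml M v g m ↔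
    ∀ W : HeightOneSpectrum (𝓞 M), Ab W v → W.valuation M m ≤ W.valuation M (algebraMap k M g) := by
  have h0 : algebraMap k M g ≠ 0 := (map_ne_zero _).mpr hg
  constructor
  · rintro ⟨x, hx, rfl⟩ W hW
    rw [map_mul]
    exact (mul_le_mul' le_rfl (hx W hW)).trans (mul_one _).le
  · intro h
    refine ⟨m / algebraMap k M g, fun W hW => ?_, by field_simp⟩
    have h2 : W.valuation M (algebraMap k M g) ≠ 0 := (Valuation.ne_zero_iff _).mpr h0
    rw [map_div₀]
    exact div_le_one_of_le₀ (h W hW) zero_le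

/-- Inverses of elements close to one. -/
theorem inv_near {g : k} (hg : v.valuation k g < 1) {m : M} (h : ml M v g (m - 1)) :
    m⁻¹ ∈ OV M v ∧ m ∈ OV M v ∧ m ≠ 0 := by
  have h1 : ∀ W : HeightOneSpectrum (𝓞 M), Ab W v → W.valuation M m = 1 := by
    intro W hW
    obtain ⟨x, hx, he⟩ := h
    have h2 : m = 1 + algebraMap k M g * x := by rw [← he]; ring
    rw [h2]
    refine Valuation.map_one_add_of_lt _ ?_
    rw [map_mul]
    calc _ ≤ W.valuation M (algebraMap k M g) * 1 := mul_le_mul' le_rfl (hx W hW)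
      _ < 1 := by rw [mul_one]; exact (val_lt_one_iff hW g).mpr hg
  refine ⟨fun W hW => ?_, fun W hW => (h1 W hW).le, ?_⟩
  · rw [map_inv₀, h1 W hW, inv_one]
  · rintro rfl
    obtain ⟨W, hW⟩ := exists_above (F := k) (E := M) v
    have h2 := h1 W hW
    rw [map_zero] at h2
    exact zero_ne_one h2

/-- The key element is close to one. -/
theorem r_near {g : k} (hg : v.valuation k g < 1) {x y : M}
    (hx : ml M v (3 * g) (x - 1)) (hy : ml M v (3 * g) (y - 1)) :
    ml M v g ((1 + y + x * y) / (1 + x + x * y) - 1) := by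
  have h3v : v.valuation k 3 ≤ 1 := by
    have h2 : v.valuation k (algebraMap (𝓞 k) k (3 : 𝓞 k)) ≤ 1 := v.valuation_le_one _
    rwa [map_ofNat] at h2
  have h3g : v.valuation k (3 * g) ≤ 1 := by
    rw [map_mul]
    exact mul_le_one' h3v hg.le
  have hyO : y ∈ OV M v := by
    have h4 := add_mem (hy.mem h3g) (OV M v).one_mem
    rwa [sub_add_cancel] at h4
  have hD : ml M v (3 * g) (1 + x + x * y - 3) := by
    have e : 1 + x + x * y - 3 = (x - 1) + (x - 1) * y + (y - 1) := by ring
    rw [e]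
    exact (hx.add (hx.mul_right hyO)).add hy
  obtain ⟨a, ha, hae⟩ := hD
  have hM3 : (3 : M) ≠ 0 := by norm_num
  obtain ⟨D, hDd⟩ : ∃ D, D = 1 + algebraMap k M g * a := ⟨_, rfl⟩
  have e1 : 1 + x + x * y = 3 * D := by
    rw [map_mul, map_ofNat] at hae
    rw [hDd]
    linear_combination hae
  have hDn : ml M v g (D - 1) := ⟨a, ha, by rw [hDd]; ring⟩
  obtain ⟨hDi, -, hD0⟩ := inv_near hg hDn
  obtain ⟨b, hb, hbe⟩ := hy.sub hx
  refine ⟨b * D⁻¹, mul_mem hb hDi, ?_⟩
  have e2 : 1 + y + x * y = 1 + x + x * y + algebraMap k M (3 * g) * b := by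
    rw [← hbe]; ring
  rw [e2, e1, map_mul, map_ofNat]
  field_simp
  ring

end Vale.Agent.P011.Six.H422
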