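import Vale.Agent.P011.One.XaAlg
import Vale.Agent.P011.W.Sym

/-!
Skolem-Noether for symmetric elements.
-/

open Module Polynomial

set_option linter.unusedSectionVars false

namespace Vale.Agent.P011.Six.H422

open Vale.Agent.P011.Arith Vale.Agent.P011.Even

variable {k K D : Type} [Field k] [NumberField k] [Field K] [StarRing K]
    [DivisionRing D] [StarRing D] [Algebra k K] [Algebra k D] [Algebra K D] [IsScalarTower k K D]
    {d : kˣ} {s : K}

/-- The minimal polynomial of a symmetric element over `K` has coefficients in `k`. -/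
theorem minpoly_sym (hS : Setting k K D d s) {x : D} (hx : star x = x) :
    minpoly K x = (minpoly k x).map (algebraMap k K) := by
  have := hS.fin
  have : FiniteDimensional k K := Module.finite_of_finrank_pos (by rw [hS.rank]; norm_num)
  have : FiniteDimensional k D := Module.Finite.trans K D
  choose a ha using fun i => One.XE.exists_coeff hS hx i
  obtain ⟨f, hf⟩ : ∃ f : k[X], f.map (algebraMap k K) = minpoly K x := by
    have h1 : minpoly K x ∈ lifts (algebraMap k K) :=
      (lifts_iff_coeff_lifts _).mpr fun i => ⟨a i, ha i⟩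
    exact (mem_lifts _).mp h1
  have hfx : aeval x f = 0 := by
    have h1 := minpoly.aeval K x
    rwa [← hf, aeval_map_algebraMap] at h1
  have h1 : minpoly k x ∣ f := minpoly.dvd k x hfx
  have h2 : (minpoly k x).map (algebraMap k K) ∣ minpoly K x := by
    rw [← hf]
    exact Polynomial.map_dvd _ h1
  have h3 : minpoly K x ∣ (minpoly k x).map (algebraMap k K) := by
    refine minpoly.dvd K x ?_
    rw [aeval_map_algebraMap, minpoly.aeval]
  exact eq_of_monic_of_associated (minpoly.monic (IsIntegral.of_finite K x))
    ((minpoly.monic (IsIntegral.of_finite k x)).map _) (associated_of_dvd_dvd h3 h2)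

/-- Skolem-Noether for symmetric elements. -/
theorem skolem_sym (hS : Setting k K D d s) {x y : D} (hx : star x = x)
    (hy : aeval y (minpoly k x) = 0) : ∃ g : D, g ≠ 0 ∧ g * x = y * g := by
  have := hS.fin
  have := hS.cen
  have : CharZero K := charZero_of_injective_algebraMap (algebraMap k K).injective
  have hint : IsIntegral K x := IsIntegral.of_finite K x
  have hirr : Fact (Irreducible (minpoly K x)) := ⟨minpoly.irreducible hint⟩
  have hmon := minpoly.monic hint
  have hfin : FiniteDimensional K (AdjoinRoot (minpoly K x)) :=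
    (AdjoinRoot.powerBasis hmon.ne_zero).finite
  have hgen : minpoly K (AdjoinRoot.powerBasis hmon.ne_zero).gen = minpoly K x :=
    AdjoinRoot.minpoly_powerBasis_gen_of_monic hmon
  have hy' : aeval y (minpoly K x) = 0 := by
    rw [minpoly_sym hS hx, aeval_map_algebraMap, hy]
  obtain ⟨g, hg, h⟩ := W.skolem (K := K) (B := D)
    ((AdjoinRoot.powerBasis hmon.ne_zero).lift x (by rw [hgen, minpoly.aeval]))
    ((AdjoinRoot.powerBasis hmon.ne_zero).lift y (by rw [hgen, hy']))
  refine ⟨g, hg, ?_⟩
  have h1 := h (AdjoinRoot.powerBasis hmon.ne_zero).gen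
  rwa [PowerBasis.lift_gen, PowerBasis.lift_gen] at h1

end Vale.Agent.P011.Six.H422
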